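import Vale.Agent.P154.LN.Defs

/-!
Test functionals: closure, convexity, and the three-point bound: every vector, averaged over
rearrangements, is dominated by the mixture of a perfect, an excluding and a useless observation
with the same chi-square and third moment.

The bound is obtained by two moves. Along a segment `(c(1+θ), c(1-θ), f)` the symmetrised
functional is a convex function of `θ²`. On a median the functional lies below its interpolation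
at the two ends and, to first order, at the centre, and the first-order terms cancel in the
average.
-/

namespace Vale.Agent.P154.LN

open Filter Topology

/-! ## Elementary properties -/

lemma orb_def (g : (Fin 3 → ℝ) → ℝ) (L : Fin 3 → ℝ) : orb g L =
    (g ![L 0, L 1, L 2] + g ![L 1, L 2, L 0] + g ![L 2, L 0, L 1] + g ![L 1, L 0, L 2]
      + g ![L 0, L 2, L 1] + g ![L 2, L 1, L 0]) / 6 := by
  simp [orb, avg6]

lemma vec_eta (L : Fin 3 → ℝ) : ![L 0, L 1, L 2] = L := by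
  funext i; fin_cases i <;> rfl

lemma vec_smul (r a b c : ℝ) : ![r * a, r * b, r * c] = fun i => r * ![a, b, c] i := by
  funext i; fin_cases i <;> simp

lemma vec_nonneg {a b c : ℝ} (ha : 0 ≤ a) (hb : 0 ≤ b) (hc : 0 ≤ c) (i : Fin 3) :
    0 ≤ ![a, b, c] i := by
  fin_cases i <;> simp [ha, hb, hc]

lemma orb_swap01 (g : (Fin 3 → ℝ) → ℝ) (a b c : ℝ) : orb g ![b, a, c] = orb g ![a, b, c] := by
  simp [orb_def]; ring

lemma orb_swap12 (g : (Fin 3 → ℝ) → ℝ) (a b c : ℝ) : orb g ![a, c, b] = orb g ![a, b, c] := by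
  simp [orb_def]; ring

lemma orb_rot (g : (Fin 3 → ℝ) → ℝ) (a b c : ℝ) : orb g ![b, c, a] = orb g ![a, b, c] := by
  simp [orb_def]; ring

lemma IsTest.nonneg {g : (Fin 3 → ℝ) → ℝ} (hg : IsTest g) {L : Fin 3 → ℝ} (hL : ∀ i, 0 ≤ L i) :
    0 ≤ g L := by
  obtain ⟨v, t, hv, rfl⟩ := hg
  exact fS_nonneg hv hL

lemma IsTest.adm {g : (Fin 3 → ℝ) → ℝ} (hg : IsTest g) : Adm g := by
  obtain ⟨v, t, hv, rfl⟩ := hg
  exact adm_fS t hv

lemma IsTest.smul {g : (Fin 3 → ℝ) → ℝ} (hg : IsTest g) (r : ℝ) (L : Fin 3 → ℝ) :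
    g (fun i => r * L i) = r * g L := by
  obtain ⟨v, t, hv, rfl⟩ := hg
  exact fS_smul v t r L

lemma orb_smul {g : (Fin 3 → ℝ) → ℝ} (hg : IsTest g) (r : ℝ) (L : Fin 3 → ℝ) :
    orb g (fun i => r * L i) = r * orb g L := by
  simp only [orb_def, vec_smul, hg.smul]; ring

lemma orb_smul' {g : (Fin 3 → ℝ) → ℝ} (hg : IsTest g) (r a b c : ℝ) :
    orb g ![r * a, r * b, r * c] = r * orb g ![a, b, c] := by
  rw [vec_smul, orb_smul hg]

lemma IsTest.orb_nonneg {g : (Fin 3 → ℝ) → ℝ} (hg : IsTest g) {L : Fin 3 → ℝ}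
    (hL : ∀ i, 0 ≤ L i) : 0 ≤ orb g L := by
  have h : ∀ i j k, 0 ≤ g ![L i, L j, L k] := fun i j k =>
    hg.nonneg (vec_nonneg (hL i) (hL j) (hL k))
  rw [orb_def]
  linarith [h 0 1 2, h 1 2 0, h 2 0 1, h 1 0 2, h 0 2 1, h 2 1 0]

lemma eP_nonneg (i : Fin 3) : 0 ≤ eP i := vec_nonneg (by norm_num) le_rfl le_rfl i
lemma eE_nonneg (i : Fin 3) : 0 ≤ eE i := vec_nonneg le_rfl (by norm_num) (by norm_num) i
lemma eU_nonneg (i : Fin 3) : 0 ≤ eU i := vec_nonneg zero_le_one zero_le_one zero_le_one i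

/-- Multiplication by a fixed nonnegative vector. -/
lemma IsTest.comp_mul {g : (Fin 3 → ℝ) → ℝ} (hg : IsTest g) {M : Fin 3 → ℝ}
    (hM : ∀ i, 0 ≤ M i) : IsTest fun L => g fun i => L i * M i := by
  obtain ⟨v, t, hv, rfl⟩ := hg
  exact ⟨v * M, t, fun i => mul_nonneg (hv i) (hM i), funext fun L => fS_mul v t L M⟩

lemma IsTest.comp_perm {g : (Fin 3 → ℝ) → ℝ} (hg : IsTest g) (π : Equiv.Perm (Fin 3)) :
    IsTest fun L => g fun i => L (π i) := by
  obtain ⟨v, t, hv, rfl⟩ := hg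
  refine ⟨fun i => v (π.symm i), fun i => t (π.symm i), fun i => hv _, funext fun L => ?_⟩
  have e : ∀ w : Fin 3 → ℝ, dot w (fun i => L (π i)) = dot (fun i => w (π.symm i)) L := fun w => by
    have h := Equiv.sum_comp π (fun j => w (π.symm j) * L j)
    simp only [Equiv.symm_apply_apply, Fin.sum_univ_three] at h
    exact h
  rw [fS, fS, e, e]
  rfl

/-- The kernel in front of a test functional. -/
lemma IsTest.comp_mixv {g : (Fin 3 → ℝ) → ℝ} (hg : IsTest g) {lam : ℝ} (h0 : -(1 / 2) ≤ lam)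
    (h1 : lam ≤ 1) : IsTest fun L => g (mixv lam L) := by
  obtain ⟨b, t, hb, rfl⟩ := hg
  refine ⟨mixv lam b, fun i => mixv lam (b * t) i / mixv lam b i, mixv_nonneg' h0 h1 hb,
    funext fun L => ?_⟩
  have hz : ∀ i, mixv lam b i = 0 → mixv lam (b * t) i = 0 := by
    intro i hi
    have hd : dot (mixv lam fun j => if j = i then 1 else 0) b = 0 := by
      refine Eq.trans ?_ hi
      obtain rfl | rfl | rfl : i = 0 ∨ i = 1 ∨ i = 2 := by omega
      all_goals simp [dot, mixv, pP]; ring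
    have h2 := dot_mul_eq_zero (b := b) (L := mixv lam fun j => if j = i then 1 else 0) hb
      (mixv_nonneg' h0 h1 fun j => by split_ifs <;> norm_num)
      (Eq.trans (by simp only [dot]; ring) hd) t
    refine Eq.trans ?_ h2
    obtain rfl | rfl | rfl : i = 0 ∨ i = 1 ∨ i = 2 := by omega
    all_goals simp [dot, mixv, pP]; ring
  rw [fS, fS, dot_mixv, dot_mixv]
  congr 3
  funext i
  simp only [Pi.mul_apply]
  by_cases hi : mixv lam b i = 0
  · rw [hi, hz i hi, zero_mul]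
  · field_simp

lemma mixv_comp (a b : ℝ) (L : Fin 3 → ℝ) : mixv a (mixv b L) = mixv (a * b) L := by
  funext i; simp [mixv, pP]; ring

lemma fM_mixv (lam : ℝ) (L : Fin 3 → ℝ) : fM (mixv lam L) = lam ^ 3 * fM L := by
  by_cases h : pP L = 0
  · simp [fM, pP_mixv, h]
  · simp only [fM, pP_mixv]
    simp only [mixv, pP] at h ⊢
    field_simp
    ring

/-! ## Subadditivity -/

lemma engel_two {a b x y : ℝ} (hx : 0 ≤ x) (hy : 0 ≤ y) (ha : x = 0 → a = 0) (hb : y = 0 → b = 0) :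
    (a + b) ^ 2 / (x + y) ≤ a ^ 2 / x + b ^ 2 / y := by
  rcases hx.eq_or_lt with h | hx'
  · simp [ha h.symm, ← h]
  rcases hy.eq_or_lt with h | hy'
  · simp [hb h.symm, ← h]
  rw [div_add_div _ _ hx'.ne' hy'.ne', div_le_div_iff₀ (by positivity) (by positivity)]
  nlinarith [sq_nonneg (a * y - b * x)]

lemma IsTest.add_le {g : (Fin 3 → ℝ) → ℝ} (hg : IsTest g) {L M : Fin 3 → ℝ} (hL : ∀ i, 0 ≤ L i)
    (hM : ∀ i, 0 ≤ M i) : g (L + M) ≤ g L + g M := by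
  obtain ⟨v, t, hv, rfl⟩ := hg
  have e : ∀ w, dot w (L + M) = dot w L + dot w M := fun w => by simp [dot]; ring
  rw [fS, e, e]
  exact engel_two (dot_nonneg hv hL) (dot_nonneg hv hM) (fun h => dot_mul_eq_zero hv hL h t)
    (fun h => dot_mul_eq_zero hv hM h t)

/-- The perfect observation is the most informative. -/
lemma IsTest.orb_le_eP {g : (Fin 3 → ℝ) → ℝ} (hg : IsTest g) {L : Fin 3 → ℝ}
    (hL : ∀ i, 0 ≤ L i) : orb g L ≤ pP L * orb g eP := by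
  have one : ∀ a b c : ℝ, 0 ≤ a → 0 ≤ b → 0 ≤ c →
      g ![a, b, c] ≤ a / 3 * g ![3, 0, 0] + b / 3 * g ![0, 3, 0] + c / 3 * g ![0, 0, 3] := by
    intro a b c ha hb hc
    have e : (![a, b, c] : Fin 3 → ℝ) = ![a / 3 * 3, a / 3 * 0, a / 3 * 0]
        + ![b / 3 * 0, b / 3 * 3, b / 3 * 0] + ![c / 3 * 0, c / 3 * 0, c / 3 * 3] := by
      funext i; fin_cases i <;> simp
    have na := vec_nonneg (a := a / 3 * 3) (b := a / 3 * 0) (c := a / 3 * 0)
      (by linarith) (by simp) (by simp)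
    have nb := vec_nonneg (a := b / 3 * 0) (b := b / 3 * 3) (c := b / 3 * 0)
      (by simp) (by linarith) (by simp)
    have nc := vec_nonneg (a := c / 3 * 0) (b := c / 3 * 0) (c := c / 3 * 3)
      (by simp) (by simp) (by linarith)
    rw [e]
    refine le_trans (hg.add_le (fun i => add_nonneg (na i) (nb i)) nc) ?_
    refine le_trans (add_le_add_left (hg.add_le na nb) _) (le_of_eq ?_)
    rw [vec_smul, hg.smul, vec_smul, hg.smul, vec_smul, hg.smul]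
  have := one _ _ _ (hL 0) (hL 1) (hL 2); have := one _ _ _ (hL 1) (hL 2) (hL 0)
  have := one _ _ _ (hL 2) (hL 0) (hL 1); have := one _ _ _ (hL 1) (hL 0) (hL 2)
  have := one _ _ _ (hL 0) (hL 2) (hL 1); have := one _ _ _ (hL 2) (hL 1) (hL 0)
  have e : orb g eP = (g ![3, 0, 0] + g ![0, 3, 0] + g ![0, 0, 3]) / 3 := by
    simp [orb_def, eP]; ring
  rw [orb_def, e, pP]
  linarith

/-- The useless observation is the least informative. -/
lemma IsTest.eU_le_orb {g : (Fin 3 → ℝ) → ℝ} (hg : IsTest g) {L : Fin 3 → ℝ}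
    (hL : ∀ i, 0 ≤ L i) : pP L * orb g eU ≤ orb g L := by
  have n : ∀ i j k, ∀ l, 0 ≤ ![L i, L j, L k] l := fun i j k =>
    vec_nonneg (hL i) (hL j) (hL k)
  have e : (fun i => 6 * pP L * eU i) = ![L 0, L 1, L 2] + ![L 1, L 2, L 0] + ![L 2, L 0, L 1]
      + ![L 1, L 0, L 2] + ![L 0, L 2, L 1] + ![L 2, L 1, L 0] := by
    funext i; fin_cases i <;> simp [eU, pP] <;> ring
  have h : g (fun i => 6 * pP L * eU i) ≤ 6 * orb g L := by
    rw [e, orb_def]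
    have two : ∀ A B : Fin 3 → ℝ, (∀ i, 0 ≤ A i) → (∀ i, 0 ≤ B i) → ∀ i, 0 ≤ (A + B) i :=
      fun A B hA hB i => add_nonneg (hA i) (hB i)
    have a2 := two _ _ (n 0 1 2) (n 1 2 0)
    have a3 := two _ _ a2 (n 2 0 1)
    have a4 := two _ _ a3 (n 1 0 2)
    have a5 := two _ _ a4 (n 0 2 1)
    linarith [hg.add_le a5 (n 2 1 0), hg.add_le a4 (n 0 2 1), hg.add_le a3 (n 1 0 2),
      hg.add_le a2 (n 2 0 1), hg.add_le (n 0 1 2) (n 1 2 0)]
  have eo : orb g eU = g eU := by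
    simp [orb_def, eU]; ring
  rw [hg.smul] at h
  rw [eo]
  linarith

lemma IsTest.eU_le_eE {g : (Fin 3 → ℝ) → ℝ} (hg : IsTest g) : orb g eU ≤ orb g eE := by
  have := hg.eU_le_orb eE_nonneg
  have e : pP eE = 1 := by simp [pP, eE]
  rwa [e, one_mul] at this

lemma IsTest.eE_le_eP {g : (Fin 3 → ℝ) → ℝ} (hg : IsTest g) : orb g eE ≤ orb g eP := by
  have := hg.orb_le_eP eE_nonneg
  have e : pP eE = 1 := by simp [pP, eE]
  rwa [e, one_mul] at this

/-! ## From positive to nonnegative weights -/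

lemma fS_tendsto {v t L : Fin 3 → ℝ} (hv : ∀ i, 0 ≤ v i) (hL : ∀ i, 0 ≤ L i) :
    Tendsto (fun e => fS (fun i => v i + e) t L) (𝓝[>] (0 : ℝ)) (𝓝 (fS v t L)) := by
  rcases (dot_nonneg hv hL).eq_or_lt with h | h
  · have h0 : fS v t L = 0 := by simp [fS, ← h]
    rw [h0]
    have hb : Tendsto (fun e => dot ((fun i => v i + e) * t * t) L) (𝓝[>] (0 : ℝ)) (𝓝 0) := by
      refine tendsto_nhdsWithin_of_tendsto_nhds ?_
      have hc : Continuous fun e : ℝ => dot ((fun i => v i + e) * t * t) L := by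
        simp only [dot, Pi.mul_apply]; fun_prop
      have e0 : dot ((fun i => v i + (0 : ℝ)) * t * t) L = 0 := by
        have : (fun i => v i + (0 : ℝ)) * t * t = v * (t * t) := by funext i; simp [mul_assoc]
        rw [this]; exact dot_mul_eq_zero hv hL h.symm _
      have := hc.tendsto 0
      rwa [e0] at this
    refine squeeze_zero' ?_ ?_ hb
    · exact eventually_nhdsWithin_of_forall fun e (he : (0:ℝ) < e) =>
        fS_nonneg (fun i => add_nonneg (hv i) he.le) hL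
    · exact eventually_nhdsWithin_of_forall fun e (he : (0:ℝ) < e) =>
        fS_le (fun i => add_nonneg (hv i) he.le) hL
  · refine tendsto_nhdsWithin_of_tendsto_nhds ?_
    have e0 : (fun i => v i + (0 : ℝ)) = v := by simp
    have hc : ContinuousAt (fun e : ℝ => fS (fun i => v i + e) t L) 0 := by
      simp only [fS, dot, Pi.mul_apply]
      refine ContinuousAt.div (by fun_prop) (by fun_prop) ?_
      simp only [dot] at h
      simpa using h.ne'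
    have := hc.tendsto
    simpa [e0] using this

lemma orb_tendsto {v t L : Fin 3 → ℝ} (hv : ∀ i, 0 ≤ v i) (hL : ∀ i, 0 ≤ L i) :
    Tendsto (fun e => orb (fS (fun i => v i + e) t) L) (𝓝[>] (0 : ℝ)) (𝓝 (orb (fS v t) L)) := by
  simp only [orb_def]
  have h := fun i j k => fS_tendsto (t := t) hv (vec_nonneg (hL i) (hL j) (hL k))
  exact ((((((h 0 1 2).add (h 1 2 0)).add (h 2 0 1)).add (h 1 0 2)).add (h 0 2 1)).add
    (h 2 1 0)).div_const 6

lemma orb_le_of_pos {n : ℕ} (L : Fin 3 → ℝ) (W : Fin n → ℝ) (M : Fin n → Fin 3 → ℝ)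
    (hL : ∀ i, 0 ≤ L i) (hM : ∀ k i, 0 ≤ M k i)
    (h : ∀ v t : Fin 3 → ℝ, (∀ i, 0 < v i) → orb (fS v t) L ≤ ∑ k, W k * orb (fS v t) (M k))
    {g : (Fin 3 → ℝ) → ℝ} (hg : IsTest g) : orb g L ≤ ∑ k, W k * orb g (M k) := by
  obtain ⟨v, t, hv, rfl⟩ := hg
  refine le_of_tendsto_of_tendsto (orb_tendsto hv hL)
    (tendsto_finsetSum _ fun k _ => (orb_tendsto hv (hM k)).const_mul (W k)) ?_
  exact eventually_nhdsWithin_of_forall fun e (he : (0 : ℝ) < e) =>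
    h _ t fun i => add_pos_of_nonneg_of_pos (hv i) he

/-! ## The pair move -/

lemma pair_scalar {N M A D θ r₀ r₁ : ℝ} (hm : 0 < A - D) (hp : 0 < A + D) (_h0 : 0 ≤ r₀)
    (hθ₀ : r₀ ^ 2 ≤ θ ^ 2) (hθ₁ : θ ^ 2 ≤ r₁ ^ 2) (h1 : r₁ ^ 2 ≤ 1) :
    (r₁ ^ 2 - r₀ ^ 2) * ((N + θ * M) ^ 2 / (A + θ * D) + (N - θ * M) ^ 2 / (A - θ * D)) ≤
      (r₁ ^ 2 - θ ^ 2) * ((N + r₀ * M) ^ 2 / (A + r₀ * D) + (N - r₀ * M) ^ 2 / (A - r₀ * D))
      + (θ ^ 2 - r₀ ^ 2) *
          ((N + r₁ * M) ^ 2 / (A + r₁ * D) + (N - r₁ * M) ^ 2 / (A - r₁ * D)) := by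
  have hA : 0 < A := by linarith
  have pos : ∀ r : ℝ, r ^ 2 ≤ 1 → 0 < A + r * D ∧ 0 < A - r * D ∧ 0 < A ^ 2 - r ^ 2 * D ^ 2 := by
    intro r hr
    obtain ⟨u, w⟩ := abs_le.mp ((sq_le_one_iff_abs_le_one r).mp hr)
    have ea : A + r * D = (1 + r) / 2 * (A + D) + (1 - r) / 2 * (A - D) := by ring
    have eb : A - r * D = (1 - r) / 2 * (A + D) + (1 + r) / 2 * (A - D) := by ring
    have a1 : 0 < A + r * D := by
      rw [ea]
      rcases u.eq_or_lt with h | h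
      · rw [← h]; linarith
      · exact add_pos_of_pos_of_nonneg (mul_pos (by linarith) hp) (mul_nonneg (by linarith) hm.le)
    have a2 : 0 < A - r * D := by
      rw [eb]
      rcases u.eq_or_lt with h | h
      · rw [← h]; linarith
      · exact add_pos_of_nonneg_of_pos (mul_nonneg (by linarith) hp.le) (mul_pos (by linarith) hm)
    have := mul_pos a1 a2
    exact ⟨a1, a2, by linarith⟩
  have φ : ∀ r : ℝ, r ^ 2 ≤ 1 → (N + r * M) ^ 2 / (A + r * D) + (N - r * M) ^ 2 / (A - r * D) =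
      2 * (N ^ 2 * A + r ^ 2 * (A * M ^ 2 - 2 * N * M * D)) / (A ^ 2 - r ^ 2 * D ^ 2) := by
    intro r hr
    obtain ⟨a1, a2, a3⟩ := pos r hr
    rw [div_add_div _ _ a1.ne' a2.ne', div_eq_div_iff (mul_pos a1 a2).ne' a3.ne']
    ring
  have hs : θ ^ 2 ≤ 1 := hθ₁.trans h1
  have hr0 : r₀ ^ 2 ≤ 1 := hθ₀.trans hs
  rw [φ θ hs, φ r₀ hr0, φ r₁ h1]
  obtain ⟨-, -, z⟩ := pos θ hs
  obtain ⟨-, -, z0⟩ := pos r₀ hr0
  obtain ⟨-, -, z1⟩ := pos r₁ h1
  set s := θ ^ 2; set s₀ := r₀ ^ 2; set s₁ := r₁ ^ 2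
  rw [← sub_nonneg]
  have e : (s₁ - s) * (2 * (N ^ 2 * A + s₀ * (A * M ^ 2 - 2 * N * M * D)) / (A ^ 2 - s₀ * D ^ 2))
      + (s - s₀) * (2 * (N ^ 2 * A + s₁ * (A * M ^ 2 - 2 * N * M * D)) / (A ^ 2 - s₁ * D ^ 2))
      - (s₁ - s₀) * (2 * (N ^ 2 * A + s * (A * M ^ 2 - 2 * N * M * D)) / (A ^ 2 - s * D ^ 2))
      = 2 * ((s₁ - s) * (s - s₀) * (s₁ - s₀) * D ^ 2 * A * (A * M - N * D) ^ 2)
        / ((A ^ 2 - s₀ * D ^ 2) * (A ^ 2 - s₁ * D ^ 2) * (A ^ 2 - s * D ^ 2)) := by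
    field_simp
    ring
  rw [e]
  have : 0 ≤ s₁ - s := by linarith
  have : 0 ≤ s - s₀ := by linarith
  have : 0 ≤ s₁ - s₀ := by linarith
  positivity

/-- The vector `(c(1+θ), c(1-θ), f)`. -/
noncomputable def seg (c f θ : ℝ) : Fin 3 → ℝ := ![c * (1 + θ), c * (1 - θ), f]

lemma seg_nonneg {c f θ : ℝ} (hc : 0 ≤ c) (hf : 0 ≤ f) (hθ : θ ^ 2 ≤ 1) (i : Fin 3) :
    0 ≤ seg c f θ i := by
  obtain ⟨a, b⟩ := abs_le.mp ((sq_le_one_iff_abs_le_one θ).mp hθ)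
  exact vec_nonneg (mul_nonneg hc (by linarith)) (mul_nonneg hc (by linarith)) hf i

/-- Convexity in `θ²` of the symmetrised functional along a segment. -/
theorem IsTest.pair_move {g : (Fin 3 → ℝ) → ℝ} (hg : IsTest g) {c f θ r₀ r₁ : ℝ} (hc : 0 ≤ c)
    (hf : 0 ≤ f) (h0 : 0 ≤ r₀) (hθ₀ : r₀ ^ 2 ≤ θ ^ 2) (hθ₁ : θ ^ 2 ≤ r₁ ^ 2) (h1 : r₁ ^ 2 ≤ 1) :
    (r₁ ^ 2 - r₀ ^ 2) * orb g (seg c f θ) ≤
      (r₁ ^ 2 - θ ^ 2) * orb g (seg c f r₀) + (θ ^ 2 - r₀ ^ 2) * orb g (seg c f r₁) := by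
  obtain ⟨v, t, hv, rfl⟩ := hg
  have hr0 : r₀ ^ 2 ≤ 1 := hθ₀.trans (hθ₁.trans h1)
  refine le_of_tendsto_of_tendsto
    ((orb_tendsto hv (seg_nonneg hc hf (hθ₁.trans h1))).const_mul _)
    (((orb_tendsto hv (seg_nonneg hc hf hr0)).const_mul _).add
      ((orb_tendsto hv (seg_nonneg hc hf h1)).const_mul _)) ?_
  refine eventually_nhdsWithin_of_forall fun e (he : (0 : ℝ) < e) => ?_
  beta_reduce
  have hw : ∀ i, 0 < v i + e := fun i => add_pos_of_nonneg_of_pos (hv i) he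
  set w := fun i => v i + e
  set u := w * t
  rcases hc.eq_or_lt with h | hc'
  · have : ∀ r, seg c f r = seg c f r₀ := fun r => by simp [seg, ← h]
    rw [this θ, this r₁]
    exact le_of_eq (by ring)
  have key : ∀ i j k : Fin 3, i ≠ j → k ≠ i → k ≠ j →
      (r₁ ^ 2 - r₀ ^ 2) *
        (((u i + u j) * c + u k * f + θ * ((u i - u j) * c)) ^ 2 /
            ((w i + w j) * c + w k * f + θ * ((w i - w j) * c))
        + ((u i + u j) * c + u k * f - θ * ((u i - u j) * c)) ^ 2 /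
            ((w i + w j) * c + w k * f - θ * ((w i - w j) * c))) ≤
      (r₁ ^ 2 - θ ^ 2) *
        (((u i + u j) * c + u k * f + r₀ * ((u i - u j) * c)) ^ 2 /
            ((w i + w j) * c + w k * f + r₀ * ((w i - w j) * c))
        + ((u i + u j) * c + u k * f - r₀ * ((u i - u j) * c)) ^ 2 /
            ((w i + w j) * c + w k * f - r₀ * ((w i - w j) * c)))
      + (θ ^ 2 - r₀ ^ 2) *
        (((u i + u j) * c + u k * f + r₁ * ((u i - u j) * c)) ^ 2 /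
            ((w i + w j) * c + w k * f + r₁ * ((w i - w j) * c))
        + ((u i + u j) * c + u k * f - r₁ * ((u i - u j) * c)) ^ 2 /
            ((w i + w j) * c + w k * f - r₁ * ((w i - w j) * c))) := by
    intro i j k _ _ _
    have := mul_pos (hw i) hc'; have := mul_pos (hw j) hc'
    have := mul_nonneg (hw k).le hf
    exact pair_scalar (by linarith) (by linarith) h0 hθ₀ hθ₁ h1
  have ev : ∀ r, orb (fS w t) (seg c f r) =
      (((((u 0 + u 1) * c + u 2 * f + r * ((u 0 - u 1) * c)) ^ 2 /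
            ((w 0 + w 1) * c + w 2 * f + r * ((w 0 - w 1) * c))
        + ((u 0 + u 1) * c + u 2 * f - r * ((u 0 - u 1) * c)) ^ 2 /
            ((w 0 + w 1) * c + w 2 * f - r * ((w 0 - w 1) * c)))
      + (((u 0 + u 2) * c + u 1 * f + r * ((u 0 - u 2) * c)) ^ 2 /
            ((w 0 + w 2) * c + w 1 * f + r * ((w 0 - w 2) * c))
        + ((u 0 + u 2) * c + u 1 * f - r * ((u 0 - u 2) * c)) ^ 2 /
            ((w 0 + w 2) * c + w 1 * f - r * ((w 0 - w 2) * c))))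
      + (((u 1 + u 2) * c + u 0 * f + r * ((u 1 - u 2) * c)) ^ 2 /
            ((w 1 + w 2) * c + w 0 * f + r * ((w 1 - w 2) * c))
        + ((u 1 + u 2) * c + u 0 * f - r * ((u 1 - u 2) * c)) ^ 2 /
            ((w 1 + w 2) * c + w 0 * f - r * ((w 1 - w 2) * c)))) / 6 := by
    intro r
    simp only [orb_def, seg, fS, dot, u, Pi.mul_apply, Matrix.cons_val_zero, Matrix.cons_val_one,
      Matrix.cons_val]
    ring
  rw [ev θ, ev r₀, ev r₁]
  linarith [key 0 1 2 (by decide) (by decide) (by decide),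
    key 0 2 1 (by decide) (by decide) (by decide), key 1 2 0 (by decide) (by decide) (by decide)]

/-! ## The median -/

lemma median_scalar {N M A D τ : ℝ} (h0 : 0 ≤ τ) (h1 : τ ≤ 1) (hX : 0 < A - D / 3)
    (hY : 0 < A + 2 * D / 3) :
    (N + (τ - 1 / 3) * M) ^ 2 / (A + (τ - 1 / 3) * D) ≤
      9 / 4 * τ * (τ - 1 / 3) ^ 2 * ((N + 2 / 3 * M) ^ 2 / (A + 2 / 3 * D))
      + 9 * (1 - τ) * (τ - 1 / 3) ^ 2 * ((N - 1 / 3 * M) ^ 2 / (A - 1 / 3 * D))
      + (1 - 9 / 4 * τ * (τ - 1 / 3) ^ 2 - 9 * (1 - τ) * (τ - 1 / 3) ^ 2) * (N ^ 2 / A)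
      + ((τ - 1 / 3) - 2 / 3 * (9 / 4 * τ * (τ - 1 / 3) ^ 2)
          + 1 / 3 * (9 * (1 - τ) * (τ - 1 / 3) ^ 2)) * ((2 * M * N * A - N ^ 2 * D) / A ^ 2) := by
  have hA : 0 < A := by linarith
  have hS : 0 < A + (τ - 1 / 3) * D := by
    have e : A + (τ - 1 / 3) * D = τ * (A + 2 * D / 3) + (1 - τ) * (A - D / 3) := by ring
    rw [e]
    rcases h1.eq_or_lt with h | h
    · subst h; linarith
    · exact add_pos_of_nonneg_of_pos (mul_nonneg h0 hY.le) (mul_pos (by linarith) hX)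
  have ex : ∀ s, 0 < A + s * D → (N + s * M) ^ 2 / (A + s * D) =
      N ^ 2 / A + s * ((2 * M * N * A - N ^ 2 * D) / A ^ 2)
        + s ^ 2 * (A * M - N * D) ^ 2 / (A ^ 2 * (A + s * D)) := fun s hs => by
    field_simp
    ring
  rw [ex _ hS, ex (2 / 3) (by linarith), show N - 1 / 3 * M = N + (-(1 / 3)) * M by ring,
    show A - 1 / 3 * D = A + (-(1 / 3)) * D by ring, ex (-(1 / 3)) (by linarith)]
  set K := (A * M - N * D) ^ 2
  have conv : 1 / (A + (τ - 1 / 3) * D) ≤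
      τ / (A + 2 / 3 * D) + (1 - τ) / (A + -(1 / 3) * D) := by
    rw [div_add_div _ _ (by linarith) (by linarith),
      div_le_div_iff₀ hS (mul_pos (by linarith) (by linarith))]
    nlinarith [mul_nonneg (mul_nonneg h0 (sub_nonneg.mpr h1)) (sq_nonneg D)]
  have := mul_le_mul_of_nonneg_left conv
    (show 0 ≤ (τ - 1 / 3) ^ 2 * K / A ^ 2 by positivity)
  have e1 : (τ - 1 / 3) ^ 2 * K / (A ^ 2 * (A + (τ - 1 / 3) * D)) =
      (τ - 1 / 3) ^ 2 * K / A ^ 2 * (1 / (A + (τ - 1 / 3) * D)) := by field_simp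
  have e2 : 9 / 4 * τ * (τ - 1 / 3) ^ 2 * ((2 / 3) ^ 2 * K / (A ^ 2 * (A + 2 / 3 * D))) =
      (τ - 1 / 3) ^ 2 * K / A ^ 2 * (τ / (A + 2 / 3 * D)) := by field_simp; ring
  have e3 : 9 * (1 - τ) * (τ - 1 / 3) ^ 2 *
      ((-(1 / 3)) ^ 2 * K / (A ^ 2 * (A + -(1 / 3) * D))) =
      (τ - 1 / 3) ^ 2 * K / A ^ 2 * ((1 - τ) / (A + -(1 / 3) * D)) := by field_simp; ring
  rw [e1]
  linarith

/-- The three-point bound holds at `L`. -/
def Good (g : (Fin 3 → ℝ) → ℝ) (L : Fin 3 → ℝ) : Prop :=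
  (orb g L ≤ wP L * orb g eP + wE L * orb g eE + wU L * orb g eU) ∧
    0 ≤ wP L ∧ 0 ≤ wE L ∧ 0 ≤ wU L

lemma w_axis {c f σ τ : ℝ} (hσ : σ ≠ 0) (hf : f = 3 * σ * τ) (hc : c = 3 * σ * (1 - τ) / 2) :
    wP ![c, c, f] = σ * (9 / 4 * τ * (τ - 1 / 3) ^ 2) ∧
    wE ![c, c, f] = σ * (9 * (1 - τ) * (τ - 1 / 3) ^ 2) ∧
    wU ![c, c, f] = σ * (1 - 9 / 4 * τ * (τ - 1 / 3) ^ 2 - 9 * (1 - τ) * (τ - 1 / 3) ^ 2) := by
  subst hf hc
  have hp : pP ![3 * σ * (1 - τ) / 2, 3 * σ * (1 - τ) / 2, 3 * σ * τ] = σ := by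
    simp [pP]; ring
  have a : wP ![3 * σ * (1 - τ) / 2, 3 * σ * (1 - τ) / 2, 3 * σ * τ] =
      σ * (9 / 4 * τ * (τ - 1 / 3) ^ 2) := by
    simp only [wP, fB, fM, hp]
    simp
    field_simp
    ring
  have b : wE ![3 * σ * (1 - τ) / 2, 3 * σ * (1 - τ) / 2, 3 * σ * τ] =
      σ * (9 * (1 - τ) * (τ - 1 / 3) ^ 2) := by
    simp only [wE, fB, fM, hp]
    simp
    field_simp
    ring
  refine ⟨a, b, ?_⟩
  rw [wU, a, b, hp]; ring

lemma good_axis {g : (Fin 3 → ℝ) → ℝ} (hg : IsTest g) {c f : ℝ} (hc : 0 ≤ c) (hf : 0 ≤ f) :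
    Good g ![c, c, f] := by
  rcases (add_nonneg (mul_nonneg zero_le_two hc) hf : 0 ≤ 2 * c + f).eq_or_lt with h | h
  · have h1 : c = 0 := by linarith
    have h2 : f = 0 := by linarith
    subst h1 h2
    have e : orb g ![(0 : ℝ), 0, 0] = 0 := by
      have := orb_smul' hg 0 1 1 1
      simpa using this
    simp [Good, wP, wE, wU, fB, fM, pP, e]
  set σ := (2 * c + f) / 3
  have hσ : 0 < σ := by positivity
  set τ := f / (3 * σ)
  have ef : f = 3 * σ * τ := by rw [mul_div_cancel₀]; positivity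
  have ec : c = 3 * σ * (1 - τ) / 2 := by
    have : 3 * σ = 2 * c + f := by simp [σ]; ring
    linarith
  have h0 : 0 ≤ τ := by positivity
  have h1 : τ ≤ 1 := by
    rw [div_le_one (by positivity)]
    simp [σ]; linarith
  obtain ⟨a, b, w⟩ := w_axis hσ.ne' ef ec
  refine ⟨?_, ?_, ?_, ?_⟩
  · obtain ⟨v, t, hv, rfl⟩ := hg
    rw [a, b, w]
    refine le_of_tendsto_of_tendsto (orb_tendsto hv (vec_nonneg hc hc hf))
      ((((orb_tendsto hv eP_nonneg).const_mul _).add ((orb_tendsto hv eE_nonneg).const_mul _)).add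
        ((orb_tendsto hv eU_nonneg).const_mul _)) ?_
    refine eventually_nhdsWithin_of_forall fun e (he : (0 : ℝ) < e) => ?_
    beta_reduce
    have hw : ∀ i, 0 < v i + e := fun i => add_pos_of_nonneg_of_pos (hv i) he
    set x := fun i => v i + e
    set u := x * t
    set A := x 0 + x 1 + x 2
    set N := u 0 + u 1 + u 2
    have key : ∀ i : Fin 3, (N + (τ - 1 / 3) * (9 / 2 * u i - 3 / 2 * N)) ^ 2 /
          (A + (τ - 1 / 3) * (9 / 2 * x i - 3 / 2 * A)) ≤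
        9 / 4 * τ * (τ - 1 / 3) ^ 2 * ((N + 2 / 3 * (9 / 2 * u i - 3 / 2 * N)) ^ 2 /
            (A + 2 / 3 * (9 / 2 * x i - 3 / 2 * A)))
        + 9 * (1 - τ) * (τ - 1 / 3) ^ 2 * ((N - 1 / 3 * (9 / 2 * u i - 3 / 2 * N)) ^ 2 /
            (A - 1 / 3 * (9 / 2 * x i - 3 / 2 * A)))
        + (1 - 9 / 4 * τ * (τ - 1 / 3) ^ 2 - 9 * (1 - τ) * (τ - 1 / 3) ^ 2) * (N ^ 2 / A)
        + ((τ - 1 / 3) - 2 / 3 * (9 / 4 * τ * (τ - 1 / 3) ^ 2)
            + 1 / 3 * (9 * (1 - τ) * (τ - 1 / 3) ^ 2)) *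
          ((2 * (9 / 2 * u i - 3 / 2 * N) * N * A - N ^ 2 * (9 / 2 * x i - 3 / 2 * A)) / A ^ 2) := by
      intro i
      have hi : x i < A := by
        obtain rfl | rfl | rfl : i = 0 ∨ i = 1 ∨ i = 2 := by omega
        all_goals simp only [A, x]; linarith [hw 0, hw 1, hw 2]
      exact median_scalar h0 h1 (by linarith) (by linarith [hw i])
    have k0 := key 0; have k1 := key 1; have k2 := key 2
    have cancel : ((2 * (9 / 2 * u 0 - 3 / 2 * N) * N * A - N ^ 2 * (9 / 2 * x 0 - 3 / 2 * A)) / A ^ 2)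
        + ((2 * (9 / 2 * u 1 - 3 / 2 * N) * N * A - N ^ 2 * (9 / 2 * x 1 - 3 / 2 * A)) / A ^ 2)
        + ((2 * (9 / 2 * u 2 - 3 / 2 * N) * N * A - N ^ 2 * (9 / 2 * x 2 - 3 / 2 * A)) / A ^ 2)
        = 0 := by
      rw [← add_div, ← add_div]
      simp only [A, N]; ring
    have hA : 0 < A := by simp only [A, x]; linarith [hw 0, hw 1, hw 2]
    have ev : ∀ p q : ℝ, ∀ i j k : Fin 3, (i = 0 ∧ j = 1 ∧ k = 2) →
        orb (fS x t) ![p, p, q] = ((((u 1 + u 2) * p + u 0 * q) ^ 2 / ((x 1 + x 2) * p + x 0 * q))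
          + ((u 0 + u 2) * p + u 1 * q) ^ 2 / ((x 0 + x 2) * p + x 1 * q)
          + ((u 0 + u 1) * p + u 2 * q) ^ 2 / ((x 0 + x 1) * p + x 2 * q)) / 3 := by
      intro p q i j k _
      simp only [orb_def, fS, dot, u, Pi.mul_apply, Matrix.cons_val_zero, Matrix.cons_val_one,
        Matrix.cons_val]
      ring
    have ev' := fun p q => ev p q 0 1 2 ⟨rfl, rfl, rfl⟩
    have eE' : orb (fS x t) eE = orb (fS x t) ![3 / 2, 3 / 2, 0] := orb_rot _ _ _ _ ▸ rfl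
    have eP' : orb (fS x t) eP = orb (fS x t) ![0, 0, 3] := (orb_rot _ _ _ _).symm.trans rfl
    rw [eE', eP', show eU = ![(1 : ℝ), 1, 1] from rfl, ev', ev', ev', ev']
    -- rewrite everything as multiples of the normalised terms
    have scale : ∀ a b : ℝ, (σ * a) ^ 2 / (σ * b) = σ * (a ^ 2 / b) := fun a b => by
      rw [mul_pow, sq σ, mul_assoc, mul_div_mul_left _ _ hσ.ne', mul_div_assoc]
    have t0 : ((u 1 + u 2) * c + u 0 * f) ^ 2 / ((x 1 + x 2) * c + x 0 * f) =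
        σ * ((N + (τ - 1 / 3) * (9 / 2 * u 0 - 3 / 2 * N)) ^ 2 /
          (A + (τ - 1 / 3) * (9 / 2 * x 0 - 3 / 2 * A))) := by
      rw [← scale, ef, ec]; congr 1 <;> simp only [A, N] <;> ring
    have t1 : ((u 0 + u 2) * c + u 1 * f) ^ 2 / ((x 0 + x 2) * c + x 1 * f) =
        σ * ((N + (τ - 1 / 3) * (9 / 2 * u 1 - 3 / 2 * N)) ^ 2 /
          (A + (τ - 1 / 3) * (9 / 2 * x 1 - 3 / 2 * A))) := by
      rw [← scale, ef, ec]; congr 1 <;> simp only [A, N] <;> ring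
    have t2 : ((u 0 + u 1) * c + u 2 * f) ^ 2 / ((x 0 + x 1) * c + x 2 * f) =
        σ * ((N + (τ - 1 / 3) * (9 / 2 * u 2 - 3 / 2 * N)) ^ 2 /
          (A + (τ - 1 / 3) * (9 / 2 * x 2 - 3 / 2 * A))) := by
      rw [← scale, ef, ec]; congr 1 <;> simp only [A, N] <;> ring
    rw [t0, t1, t2]
    have sP : ∀ i, (N + 2 / 3 * (9 / 2 * u i - 3 / 2 * N)) = 3 * u i := fun i => by ring
    have sP' : ∀ i, (A + 2 / 3 * (9 / 2 * x i - 3 / 2 * A)) = 3 * x i := fun i => by ring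
    simp only [sP, sP'] at k0 k1 k2
    have q0 : N - 1 / 3 * (9 / 2 * u 0 - 3 / 2 * N) = (u 1 + u 2) * (3 / 2) := by
      simp only [N]; ring
    have q0' : A - 1 / 3 * (9 / 2 * x 0 - 3 / 2 * A) = (x 1 + x 2) * (3 / 2) := by
      simp only [A]; ring
    have q1 : N - 1 / 3 * (9 / 2 * u 1 - 3 / 2 * N) = (u 0 + u 2) * (3 / 2) := by
      simp only [N]; ring
    have q1' : A - 1 / 3 * (9 / 2 * x 1 - 3 / 2 * A) = (x 0 + x 2) * (3 / 2) := by
      simp only [A]; ring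
    have q2 : N - 1 / 3 * (9 / 2 * u 2 - 3 / 2 * N) = (u 0 + u 1) * (3 / 2) := by
      simp only [N]; ring
    have q2' : A - 1 / 3 * (9 / 2 * x 2 - 3 / 2 * A) = (x 0 + x 1) * (3 / 2) := by
      simp only [A]; ring
    rw [q0, q0'] at k0; rw [q1, q1'] at k1; rw [q2, q2'] at k2
    have eN : ∀ i j k : Fin 3, (u i + u j) * 1 + u k * 1 = u i + u j + u k := fun i j k => by ring
    have n0 : ((u 1 + u 2) * 1 + u 0 * 1) ^ 2 / ((x 1 + x 2) * 1 + x 0 * 1) = N ^ 2 / A := by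
      simp only [N, A]; ring
    have n1 : ((u 0 + u 2) * 1 + u 1 * 1) ^ 2 / ((x 0 + x 2) * 1 + x 1 * 1) = N ^ 2 / A := by
      simp only [N, A]; ring
    have n2 : ((u 0 + u 1) * 1 + u 2 * 1) ^ 2 / ((x 0 + x 1) * 1 + x 2 * 1) = N ^ 2 / A := by
      simp only [N, A]; ring
    rw [n0, n1, n2]
    have p0 : ((u 1 + u 2) * 0 + u 0 * 3) ^ 2 / ((x 1 + x 2) * 0 + x 0 * 3) =
        (3 * u 0) ^ 2 / (3 * x 0) := by ring
    have p1 : ((u 0 + u 2) * 0 + u 1 * 3) ^ 2 / ((x 0 + x 2) * 0 + x 1 * 3) =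
        (3 * u 1) ^ 2 / (3 * x 1) := by ring
    have p2 : ((u 0 + u 1) * 0 + u 2 * 3) ^ 2 / ((x 0 + x 1) * 0 + x 2 * 3) =
        (3 * u 2) ^ 2 / (3 * x 2) := by ring
    rw [p0, p1, p2]
    simp only [mul_zero, add_zero]
    linear_combination (σ / 3) * k0 + (σ / 3) * k1 + (σ / 3) * k2
      + (σ / 3) * ((τ - 1 / 3) - 2 / 3 * (9 / 4 * τ * (τ - 1 / 3) ^ 2)
          + 1 / 3 * (9 * (1 - τ) * (τ - 1 / 3) ^ 2)) * cancel
  · rw [a]; positivity
  · rw [b]; have : 0 ≤ 1 - τ := by linarith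
    positivity
  · rw [w]
    refine mul_nonneg hσ.le ?_
    have e : 1 - 9 / 4 * τ * (τ - 1 / 3) ^ 2 - 9 * (1 - τ) * (τ - 1 / 3) ^ 2
        = 27 / 4 * (τ * (1 - τ) ^ 2) := by ring
    rw [e]; positivity

lemma w_seg (c f θ : ℝ) :
    wP (seg c f θ) = (1 - θ ^ 2) * wP (seg c f 0) + θ ^ 2 * wP (seg c f 1) ∧
    wE (seg c f θ) = (1 - θ ^ 2) * wE (seg c f 0) + θ ^ 2 * wE (seg c f 1) ∧
    wU (seg c f θ) = (1 - θ ^ 2) * wU (seg c f 0) + θ ^ 2 * wU (seg c f 1) := by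
  have hp : ∀ r, pP (seg c f r) = (2 * c + f) / 3 := fun r => by simp [pP, seg]; ring
  refine ⟨?_, ?_, ?_⟩
  all_goals
    simp only [wP, wE, wU, fB, fM, hp]
    simp [seg]
    ring

lemma good_seg {g : (Fin 3 → ℝ) → ℝ} (hg : IsTest g) {c f θ : ℝ} (hc : 0 ≤ c) (hf : 0 ≤ f)
    (hθ : θ ^ 2 ≤ 1) (h0 : Good g (seg c f 0)) (h1 : Good g (seg c f 1)) :
    Good g (seg c f θ) := by
  obtain ⟨a, b, w⟩ := w_seg c f θ
  have hm := hg.pair_move (θ := θ) (r₀ := 0) (r₁ := 1) hc hf le_rfl (by simp; positivity)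
    (by simpa using hθ) (by simp)
  simp only [one_pow, ne_eq, OfNat.ofNat_ne_zero, not_false_eq_true, zero_pow, sub_zero,
    one_mul] at hm
  obtain ⟨u0, p0, e0, z0⟩ := h0
  obtain ⟨u1, p1, e1, z1⟩ := h1
  have hs := sq_nonneg θ
  have hs' : 0 ≤ 1 - θ ^ 2 := by linarith
  refine ⟨?_, ?_, ?_, ?_⟩
  · rw [a, b, w]
    have := mul_le_mul_of_nonneg_left u0 hs'
    have := mul_le_mul_of_nonneg_left u1 hs
    linarith
  · rw [a]; positivity
  · rw [b]; positivity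
  · rw [w]; positivity

lemma good_congr {g : (Fin 3 → ℝ) → ℝ} {L M : Fin 3 → ℝ} (ho : orb g L = orb g M)
    (h1 : L 0 + L 1 + L 2 = M 0 + M 1 + M 2)
    (h2 : L 0 ^ 2 + L 1 ^ 2 + L 2 ^ 2 = M 0 ^ 2 + M 1 ^ 2 + M 2 ^ 2)
    (h3 : L 0 ^ 3 + L 1 ^ 3 + L 2 ^ 3 = M 0 ^ 3 + M 1 ^ 3 + M 2 ^ 3) (h : Good g M) :
    Good g L := by
  have hp : pP L = pP M := by simp only [pP, h1]
  have eb : fB L = fB M := by simp only [fB, hp, h2]
  have em : fM L = fM M := by simp only [fM, hp, h2, h3]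
  simpa only [Good, ho, wP, wE, wU, hp, eb, em] using h

lemma exists_seg {a b : ℝ} (ha : 0 ≤ a) (hb : 0 ≤ b) :
    ∃ θ : ℝ, θ ^ 2 ≤ 1 ∧ ∀ f, ![a, b, f] = seg ((a + b) / 2) f θ := by
  rcases (add_nonneg ha hb).eq_or_lt with h | h
  · refine ⟨0, by norm_num, fun f => ?_⟩
    have h1 : a = 0 := by linarith
    have h2 : b = 0 := by linarith
    simp [seg, h1, h2]
  · refine ⟨(a - b) / (a + b), ?_, fun f => ?_⟩
    · rw [div_pow, div_le_one (by positivity)]; nlinarith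
    · unfold seg; congr 1
      · field_simp; ring
      · congr 1; field_simp; ring

/-- **The three-point bound.** -/
theorem IsTest.good {g : (Fin 3 → ℝ) → ℝ} (hg : IsTest g) {L : Fin 3 → ℝ} (hL : ∀ i, 0 ≤ L i) :
    Good g L := by
  obtain ⟨θ, hθ, e⟩ := exists_seg (hL 0) (hL 1)
  rw [← vec_eta L, e (L 2)]
  set c := (L 0 + L 1) / 2
  have hc : 0 ≤ c := by simp only [c]; linarith [hL 0, hL 1]
  set f := L 2
  have hf : 0 ≤ f := hL 2
  refine good_seg hg hc hf hθ ?_ ?_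
  · simpa [seg] using good_axis hg hc hf
  · -- the endpoint `(2c, 0, f)`, moved to `(2c, f, 0)`
    obtain ⟨η, hη, e'⟩ := exists_seg (mul_nonneg hc (by norm_num : (0:ℝ) ≤ 1 + 1)) hf
    refine good_congr (M := ![c * (1 + 1), f, 0]) ?_ ?_ ?_ ?_ ?_
    · simp only [seg, sub_self, mul_zero]
      exact orb_swap12 g _ _ _
    · simp [seg]
    · simp [seg]
    · simp [seg]
    rw [e' 0]
    set c' := (c * (1 + 1) + f) / 2
    have hc' : 0 ≤ c' := by simp only [c']; linarith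
    refine good_seg hg hc' le_rfl hη ?_ ?_
    · simpa [seg] using good_axis hg hc' le_rfl
    · refine good_congr (M := ![0, 0, c' * (1 + 1)]) ?_ ?_ ?_ ?_
        (good_axis hg le_rfl (by linarith))
      · simp only [seg, sub_self, mul_zero]
        exact (orb_rot g _ _ _).symm
      · simp [seg]
      · simp [seg]
      · simp [seg]

theorem IsTest.three {g : (Fin 3 → ℝ) → ℝ} (hg : IsTest g) {L : Fin 3 → ℝ} (hL : ∀ i, 0 ≤ L i) :
    orb g L ≤ wP L * orb g eP + wE L * orb g eE + wU L * orb g eU :=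
  (hg.good hL).1

lemma isTest_zero : IsTest (fS (fun _ => 0) fun _ => 0) :=
  ⟨_, _, fun _ => le_rfl, rfl⟩

lemma w_nonneg {L : Fin 3 → ℝ} (hL : ∀ i, 0 ≤ L i) : 0 ≤ wP L ∧ 0 ≤ wE L ∧ 0 ≤ wU L :=
  (isTest_zero.good hL).2

end Vale.Agent.P154.LN
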