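import Mathlib

/-!
Bounds for a polynomial given by its coefficients in the binomial basis, on an interval, by the
coefficients of the interval (de Casteljau).
-/

namespace Vale.Agent.P154.LN.Bern

section

variable {K : Type} [Field K]

/-- One de Casteljau step. -/
def red (t : K) : List K → List K
  | a :: b :: r => ((1 - t) * a + t * b) :: red t (b :: r)
  | _ => []

/-- Value at `u` of the polynomial `∑ C(j,p) u^p (1-u)^(j-p) L_p`. -/
def ev (u : K) (j : ℕ) (L : List K) : K := ((red u)^[j] L).headD 0

/-- The `k`-th coefficient on the interval `[lo, hi]`. -/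
def coef (lo hi : K) (j k : ℕ) (L : List K) : K :=
  ((red hi)^[k] ((red lo)^[j - k] L)).headD 0

/-- Linear combination of two coefficient lists. -/
def comb (a b : K) (L M : List K) : List K := List.zipWith (fun x y => a * x + b * y) L M

/-- The coefficients of an affine function. -/
def aff (c d : K) : ℕ → List K
  | 0 => []
  | n + 1 => c :: aff (c + d) d n

lemma red_length (t : K) : ∀ L : List K, (red t L).length = L.length - 1
  | [] => rfl
  | [_] => rfl
  | _ :: b :: r => by
    have := red_length t (b :: r)
    simp only [List.length_cons] at this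
    simp [red, this]

lemma red_comm (s t : K) : ∀ L : List K, red s (red t L) = red t (red s L)
  | [] => rfl
  | [_] => rfl
  | [_, _] => rfl
  | a :: b :: c :: r => by
    have ih := red_comm s t (b :: c :: r)
    simp only [red] at ih ⊢
    rw [ih]
    congr 1
    ring

lemma iterate_red_comm (s t : K) (k : ℕ) (L : List K) :
    (red s)^[k] (red t L) = red t ((red s)^[k] L) :=
  Function.Commute.iterate_left (f := red s) (g := red t) (red_comm s t) k L

lemma red_comb (t a b : K) : ∀ L M : List K,
    red t (comb a b L M) = comb a b (red t L) (red t M)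
  | [], _ => by simp [comb, red]
  | [_], [] => rfl
  | [_], _ :: _ => by simp [comb, red]
  | _ :: _ :: _, [] => rfl
  | _ :: _ :: _, [_] => by simp [comb, red]
  | x :: x' :: L, y :: y' :: M => by
    have ih := red_comb t a b (x' :: L) (y' :: M)
    simp only [comb, List.zipWith_cons_cons, red] at ih ⊢
    rw [ih]
    congr 1
    ring

lemma ev_comb (u a b : K) : ∀ (j : ℕ) (L M : List K), L.length = M.length →
    ev u j (comb a b L M) = a * ev u j L + b * ev u j M
  | 0, [], [], _ => by simp [ev, comb]
  | 0, _ :: _, _ :: _, _ => by simp [ev, comb]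
  | j + 1, L, M, h => by
    have ih := ev_comb u a b j (red u L) (red u M) (by rw [red_length, red_length, h])
    simp only [ev, Function.iterate_succ_apply, red_comb]
    exact ih

lemma red_aff (u c d : K) : ∀ n, red u (aff c d (n + 1)) = aff (c + u * d) d n
  | 0 => rfl
  | n + 1 => by
    have ih := red_aff u (c + d) d n
    rw [show c + d + u * d = c + u * d + d by ring] at ih
    show ((1 - u) * c + u * (c + d)) :: red u (aff (c + d) d (n + 1)) =
      (c + u * d) :: aff (c + u * d + d) d n
    rw [ih]
    congr 1
    ring

lemma aff_length (c d : K) (n : ℕ) : (aff c d n).length = n := by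
  induction n generalizing c with
  | zero => rfl
  | succ n ih => simp [aff, ih]

lemma ev_aff (u c d : K) (j : ℕ) : ev u j (aff c d (j + 1)) = c + j * (u * d) := by
  induction j generalizing c with
  | zero => simp [ev, aff]
  | succ j ih =>
    simp only [ev, Function.iterate_succ_apply, red_aff]
    refine (ih (c + u * d)).trans ?_
    push_cast; ring

lemma red_interp (lo hi s : K) : ∀ L : List K,
    red ((1 - s) * lo + s * hi) L = comb (1 - s) s (red lo L) (red hi L)
  | [] => rfl
  | [_] => rfl
  | a :: b :: r => by
    have ih := red_interp lo hi s (b :: r)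
    simp only [red, comb, List.zipWith_cons_cons] at ih ⊢
    rw [ih]
    congr 1
    ring

end

lemma ev_le {lo hi s c : ℝ} (hs0 : 0 ≤ s) (hs1 : s ≤ 1) : ∀ (j : ℕ) (L : List ℝ),
    (∀ k ≤ j, coef lo hi j k L ≤ c) → ev ((1 - s) * lo + s * hi) j L ≤ c
  | 0, L, h => by simpa [ev, coef] using h 0 le_rfl
  | j + 1, L, h => by
    have e : ev ((1 - s) * lo + s * hi) (j + 1) L =
        (1 - s) * ev ((1 - s) * lo + s * hi) j (red lo L)
          + s * ev ((1 - s) * lo + s * hi) j (red hi L) := by
      rw [← ev_comb _ _ _ _ _ _ (by rw [red_length, red_length]), ← red_interp]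
      rfl
    have h0 := ev_le hs0 hs1 j (red lo L) fun k hk => by
      have := h k (by omega)
      rwa [coef, show j + 1 - k = j - k + 1 by omega, Function.iterate_succ_apply] at this
    have h1 := ev_le hs0 hs1 j (red hi L) fun k hk => by
      have := h (k + 1) (by omega)
      rwa [coef, show j + 1 - (k + 1) = j - k by omega, Function.iterate_succ_apply,
        ← iterate_red_comm] at this
    rw [e]
    calc (1 - s) * ev ((1 - s) * lo + s * hi) j (red lo L)
          + s * ev ((1 - s) * lo + s * hi) j (red hi L)
        ≤ (1 - s) * c + s * c :=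
          add_le_add (mul_le_mul_of_nonneg_left h0 (by linarith))
            (mul_le_mul_of_nonneg_left h1 hs0)
      _ = c := by ring

/-- Entrywise cast to the reals. -/
def castL (L : List ℚ) : List ℝ := List.map (fun x : ℚ => (x : ℝ)) L

lemma red_cast (t : ℚ) : ∀ L : List ℚ,
    red (t : ℝ) (castL L) = castL (red t L)
  | [] => rfl
  | [_] => rfl
  | a :: b :: r => by
    have ih := red_cast t (b :: r)
    simp only [castL, List.map_cons, red] at ih ⊢
    rw [ih]
    push_cast
    rfl

lemma iterate_red_cast (t : ℚ) (k : ℕ) (L : List ℚ) :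
    (red (t : ℝ))^[k] (castL L) = castL ((red t)^[k] L) := by
  induction k generalizing L with
  | zero => rfl
  | succ k ih => simp only [Function.iterate_succ_apply, red_cast, ih]

/-- All interval coefficients are at most zero. -/
def nonpos (lo hi : ℚ) (j : ℕ) (L : List ℚ) : Bool :=
  (List.range (j + 1)).all fun k => decide (coef lo hi j k L ≤ 0)

lemma ev_nonpos {lo hi : ℚ} {u : ℝ} (hlo : (lo : ℝ) ≤ u) (hhi : u ≤ hi) {j : ℕ} {L : List ℚ}
    (h : nonpos lo hi j L = true) : ev u j (castL L) ≤ 0 := by
  obtain ⟨s, hs0, hs1, rfl⟩ : ∃ s : ℝ, 0 ≤ s ∧ s ≤ 1 ∧ u = (1 - s) * lo + s * hi := by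
    rcases (hlo.trans hhi).eq_or_lt with e | e
    · exact ⟨0, le_rfl, zero_le_one, by linarith⟩
    · refine ⟨(u - lo) / ((hi : ℝ) - lo), div_nonneg (by linarith) (by linarith),
        (div_le_one (by linarith)).2 (by linarith), ?_⟩
      have : (hi : ℝ) - lo ≠ 0 := by linarith
      field_simp
      ring
  refine ev_le hs0 hs1 j _ fun k hk => ?_
  have hd := of_decide_eq_true (List.all_eq_true.1 h k (List.mem_range.2 (by omega)))
  have hd' : ((coef lo hi j k L : ℚ) : ℝ) ≤ 0 := by exact_mod_cast hd
  refine le_trans (le_of_eq ?_) hd'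
  simp only [coef, iterate_red_cast]
  cases (red hi)^[k] ((red lo)^[j - k] L) <;> simp [castL]

lemma comb_cast (a b : ℚ) : ∀ L M : List ℚ,
    comb (a : ℝ) b (castL L) (castL M) = castL (comb a b L M)
  | [], _ => by simp [comb, castL]
  | _ :: _, [] => by simp [comb, castL]
  | x :: L, y :: M => by
    have ih := comb_cast a b L M
    simp only [comb, castL, List.map_cons, List.zipWith_cons_cons] at ih ⊢
    rw [ih]
    push_cast
    rfl

lemma aff_cast (c d : ℚ) (n : ℕ) : aff (c : ℝ) d n = castL (aff c d n) := by
  induction n generalizing c with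
  | zero => rfl
  | succ n ih =>
    simp only [aff, castL, List.map_cons] at ih ⊢
    rw [← ih]
    push_cast
    rfl

end Vale.Agent.P154.LN.Bern
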