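import Vale.Agent.P154.LN.Order
import Vale.Agent.P154.Laws

/-!
Moving the parameter of an antiferromagnetic channel to the end of an interval.

For `l₁ ≤ lam ≤ 0` the kernel with parameter `lam` is dominated, in the less-noisy order and
before any channel, by erasure mixed with the kernel of parameter `l₁`, the latter with weight
`p = (lam / l₁) ^ 2 * (1 - l₁) / (1 - lam)`. So a Poisson tree of mean `d` and parameter `lam`
is dominated by the Poisson tree of mean `d p` and parameter `l₁`: near the critical value the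
mean is multiplied only by `(1 - l₁) / (1 - lam)`.
-/

namespace Vale.Agent.P154.LN

open Finset

/-- Weight of the stronger kernel. -/
noncomputable def weight (l₁ lam : ℝ) : ℝ := (lam / l₁) ^ 2 * (1 - l₁) / (1 - lam)

variable {l₁ lam : ℝ}

lemma weight_nonneg (h1 : l₁ ≤ lam) (h2 : lam ≤ 0) : 0 ≤ weight l₁ lam :=
  div_nonneg (mul_nonneg (sq_nonneg _) (by linarith)) (by linarith)

lemma weight_le_one (hl : l₁ < 0) (h1 : l₁ ≤ lam) (h2 : lam ≤ 0) : weight l₁ lam ≤ 1 := by
  rw [weight, div_pow, div_mul_eq_mul_div, div_div, div_le_one (by nlinarith)]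
  nlinarith [mul_nonneg (sub_nonneg.2 h1) (show 0 ≤ -(lam + l₁) + l₁ * lam by nlinarith)]

/-- The key inequality, one observation at a time. -/
lemma fS_mix_le (hl0 : -(1 / 2) ≤ l₁) (hl : l₁ < 0) (h1 : l₁ ≤ lam) (h2 : lam ≤ 0)
    {b g L : Fin 3 → ℝ} (hb : ∀ i, 0 ≤ b i) (hL : ∀ i, 0 ≤ L i) {B μ : ℝ}
    (hB : B = b 0 + b 1 + b 2) (hμ : μ * B = dot (b * g) fun _ => 1) :
    fS b g (mixv lam L) ≤ weight l₁ lam * fS b g (mixv l₁ L)
      + ((1 - weight l₁ lam) * μ ^ 2 * B * pP L
        + (lam - weight l₁ lam * l₁)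
          * (2 * μ * dot (b * g) L - μ ^ 2 * dot b L - μ ^ 2 * B * pP L)) := by
  set x := dot b L with hx
  set a := dot (b * g) L with ha
  set K := B * pP L with hK
  have hm : ∀ l : ℝ, dot b (mixv l L) = l * x + (1 - l) * K := fun l => by
    simp only [hx, hK, hB, dot, mixv, pP]; ring
  have hn : ∀ l : ℝ, dot (b * g) (mixv l L) = l * a + (1 - l) * (μ * K) := fun l => by
    rw [show μ * K = μ * B * pP L by rw [hK]; ring, hμ]
    simp only [ha, dot, mixv, pP, Pi.mul_apply]; ring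
  have hx0 : 0 ≤ x := dot_nonneg hb hL
  have hM1 := mixv_nonneg' hl0 (by linarith) hL
  have hM := mixv_nonneg' (le_trans hl0 h1) (by linarith : lam ≤ 1) hL
  have hD1 : 0 ≤ l₁ * x + (1 - l₁) * K := hm l₁ ▸ dot_nonneg hb hM1
  have hD : 0 ≤ lam * x + (1 - lam) * K := hm lam ▸ dot_nonneg hb hM
  have hw := weight_nonneg h1 h2
  -- the second moment splits into a centred part and a linear one
  have split : ∀ l : ℝ, -(1 / 2) ≤ l → l ≤ 1 → fS b g (mixv l L) =
      l ^ 2 * (a - μ * x) ^ 2 / (l * x + (1 - l) * K)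
        + (2 * μ * (l * (a - μ * x)) + μ ^ 2 * (l * x + (1 - l) * K)) := by
    intro l l0 l1
    rw [fS, hn, hm]
    by_cases hz : l * x + (1 - l) * K = 0
    · have := dot_mul_eq_zero hb (mixv_nonneg' l0 l1 hL) (by rw [hm]; exact hz) g
      rw [hn] at this
      rw [hz, div_zero, div_zero, zero_add]
      have e : l * (a - μ * x) = 0 := by linear_combination this - μ * hz
      rw [e]; ring
    · field_simp
      ring
  rw [split lam (le_trans hl0 h1) (by linarith), split l₁ hl0 (by linarith)]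
  have main : lam ^ 2 * (a - μ * x) ^ 2 / (lam * x + (1 - lam) * K) ≤
      weight l₁ lam * (l₁ ^ 2 * (a - μ * x) ^ 2 / (l₁ * x + (1 - l₁) * K)) := by
    rcases hD.eq_or_lt with h | h
    · rw [← h, div_zero]
      exact mul_nonneg hw (div_nonneg (by positivity) hD1)
    rcases hD1.eq_or_lt with h' | h'
    · have := dot_mul_eq_zero hb hM1 (by rw [hm]; exact h'.symm) g
      rw [hn] at this
      have e : l₁ * (a - μ * x) = 0 := by linear_combination this + μ * h'
      have e' : a - μ * x = 0 := (mul_eq_zero.1 e).resolve_left hl.ne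
      simp [e']
    rw [div_le_iff₀ h]
    have key : (1 - lam) * (l₁ * x + (1 - l₁) * K) ≤ (1 - l₁) * (lam * x + (1 - lam) * K) := by
      nlinarith [mul_nonneg hx0 (sub_nonneg.2 h1)]
    have hr : 1 ≤ (1 - l₁) * (lam * x + (1 - lam) * K) /
        ((1 - lam) * (l₁ * x + (1 - l₁) * K)) := by
      rw [le_div_iff₀ (mul_pos (by linarith) h'), one_mul]; exact key
    calc lam ^ 2 * (a - μ * x) ^ 2
        ≤ lam ^ 2 * (a - μ * x) ^ 2 * ((1 - l₁) * (lam * x + (1 - lam) * K) /
            ((1 - lam) * (l₁ * x + (1 - l₁) * K))) := le_mul_of_one_le_right (by positivity) hr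
      _ = _ := by
        have hl' : l₁ ≠ 0 := hl.ne
        have hlam : (1 : ℝ) - lam ≠ 0 := by linarith
        rw [weight]
        field_simp
  have e : 2 * μ * (lam * (a - μ * x)) + μ ^ 2 * (lam * x + (1 - lam) * K) =
      weight l₁ lam * (2 * μ * (l₁ * (a - μ * x)) + μ ^ 2 * (l₁ * x + (1 - l₁) * K))
      + ((1 - weight l₁ lam) * μ ^ 2 * B * pP L
        + (lam - weight l₁ lam * l₁) * (2 * μ * a - μ ^ 2 * x - μ ^ 2 * B * pP L)) := by
    rw [hK]; ring
  linarith

/-- The stronger kernel mixed with erasure dominates. -/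
theorem mix_le (C : Chan) (hl0 : -(1 / 2) ≤ l₁) (hl : l₁ < 0) (h1 : l₁ ≤ lam) (h2 : lam ≤ 0)
    {b : Fin 3 → ℝ} (g : Fin 3 → ℝ) (hb : ∀ i, 0 ≤ b i) :
    (mixG C lam (le_trans hl0 h1) (by linarith)).E (fS b g) ≤
      weight l₁ lam * (mixG C l₁ hl0 (by linarith)).E (fS b g)
        + (1 - weight l₁ lam) * fS b g (fun _ => 1) := by
  have u0 : lam ≤ 1 := by linarith
  have u1 : l₁ ≤ 1 := by linarith
  set B := b 0 + b 1 + b 2 with hB
  set μ := dot (b * g) (fun _ => 1) / B
  have hμ : μ * B = dot (b * g) fun _ => 1 := by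
    rcases eq_or_ne B 0 with h | h
    · rw [h, mul_zero]
      exact (dot_mul_eq_zero hb (fun _ => zero_le_one) (by simp [dot, ← hB, h]) g).symm
    · exact div_mul_cancel₀ _ h
  have f1 : HasSum (fun y : C.ι => fS b g (mixv lam (C.V y)))
      ((mixG C lam (le_trans hl0 h1) u0).E (fS b g)) :=
    ((mixG C lam (le_trans hl0 h1) u0).summable (adm_fS g hb)).hasSum
  have f2 : HasSum (fun y : C.ι => fS b g (mixv l₁ (C.V y)))
      ((mixG C l₁ hl0 u1).E (fS b g)) :=
    ((mixG C l₁ hl0 u1).summable (adm_fS g hb)).hasSum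
  have hs := hasSum_le
    (fun y => fS_mix_le hl0 hl h1 h2 hb (C.nonneg y) hB hμ (g := g)) f1
    ((f2.mul_left (weight l₁ lam)).add
      ((C.hasSum_pP.mul_left ((1 - weight l₁ lam) * μ ^ 2 * B)).add
        (((((C.summable (adm_dot (w := b * g))).hasSum).mul_left (2 * μ)).sub
          ((C.summable (adm_dot (w := b))).hasSum.mul_left (μ ^ 2))).sub
          (C.hasSum_pP.mul_left (μ ^ 2 * B)) |>.mul_left (lam - weight l₁ lam * l₁))))
  refine hs.trans (le_of_eq ?_)
  change _ + (_ + _ * (2 * μ * C.E (dot (b * g)) - μ ^ 2 * C.E (dot b) - μ ^ 2 * B * 1)) = _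
  rw [E_dot, E_dot, ← hB,
    show (b * g) 0 + (b * g) 1 + (b * g) 2 = μ * B by rw [hμ]; simp [dot]]
  have e : fS b g (fun _ => 1) = μ ^ 2 * B := by
    rw [fS, ← hμ, show dot b (fun _ => 1) = B by simp [dot, hB]]
    rcases eq_or_ne B 0 with h | h
    · simp [h]
    · field_simp
  rw [e]
  simp only [Chan.E]
  ring

/-- Thinning: independent copies of an erasure mixture. -/
lemma pw_thin {A C : Chan} {p : ℝ} (hp : 0 ≤ p) (hp1 : p ≤ 1)
    (h : ∀ b g : Fin 3 → ℝ, (∀ i, 0 ≤ b i) →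
      A.E (fS b g) ≤ p * C.E (fS b g) + (1 - p) * fS b g (fun _ => 1)) :
    ∀ (k : ℕ) (b g : Fin 3 → ℝ), (∀ i, 0 ≤ b i) → (A.pw k).E (fS b g) ≤
      ∑ j ∈ range (k + 1), (k.choose j : ℝ) * (p ^ j * (1 - p) ^ (k - j) * (C.pw j).E (fS b g)) := by
  intro k
  induction k with
  | zero => intro b g _; simp [A.E_pw_zero, C.E_pw_zero]
  | succ k ih =>
    intro b g hb
    rw [A.E_pw_succ]
    have hq : 0 ≤ 1 - p := by linarith
    have hb' : ∀ (D : Chan) (z : D.ι) i, 0 ≤ (b * D.V z) i :=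
      fun D z i => mul_nonneg (hb i) (D.nonneg z i)
    have s1 : (A.star (A.pw k)).E (fS b g) ≤
        p * (C.star (A.pw k)).E (fS b g) + (1 - p) * (A.pw k).E (fS b g) := by
      refine hasSum_le (fun z => ?_) (hasSum_star' A (A.pw k) g hb)
        (((hasSum_star' C (A.pw k) g hb).mul_left p).add
          (((A.pw k).summable (adm_fS g hb)).hasSum.mul_left (1 - p)))
      refine le_trans (h _ g (hb' _ z)) (le_of_eq ?_)
      rw [← fS_mul]
      simp
    have s2 : (C.star (A.pw k)).E (fS b g) ≤ ∑ j ∈ range (k + 1),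
        (k.choose j : ℝ) * (p ^ j * (1 - p) ^ (k - j) * (C.pw (j + 1)).E (fS b g)) := by
      refine hasSum_le (fun y => ih _ g (hb' C y)) (hasSum_star C (A.pw k) g hb)
        (hasSum_sum fun j _ => HasSum.mul_left _ (HasSum.mul_left _ ?_))
      rw [C.E_pw_succ]
      exact hasSum_star C (C.pw j) g hb
    rw [sum_choose_succ_mul
      (f := fun j i => p ^ j * (1 - p) ^ i * (C.pw j).E (fS b g)) k]
    refine s1.trans ?_
    rw [add_comm]
    refine add_le_add ?_ ?_
    · refine le_trans (mul_le_mul_of_nonneg_left (ih b g hb) hq) (le_of_eq ?_)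
      rw [mul_sum]
      refine sum_congr rfl fun j hj => ?_
      rw [show k + 1 - j = k - j + 1 by have := mem_range.1 hj; omega, pow_succ]
      ring
    · refine le_trans (mul_le_mul_of_nonneg_left s2 hp) (le_of_eq ?_)
      rw [mul_sum]
      refine sum_congr rfl fun j _ => ?_
      rw [pow_succ]
      ring

lemma poisson_split {d p : ℝ} {j i : ℕ} :
    poissonLaw d (j + i) * ((j + i).choose j * (p ^ j * (1 - p) ^ i)) =
      poissonLaw (d * p) j * poissonLaw (d * (1 - p)) i := by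
  have hc := Nat.add_choose_mul_factorial_mul_factorial j i
  rw [← Nat.choose_symm_add] at hc
  have hc' : ((j + i).choose j : ℝ) * j.factorial * i.factorial = (j + i).factorial := by
    exact_mod_cast hc
  simp only [poissonLaw, mul_pow, pow_add]
  rw [show Real.exp (-d) = Real.exp (-(d * p)) * Real.exp (-(d * (1 - p))) by
    rw [← Real.exp_add]; congr 1; ring]
  have h1 : ((j + i).factorial : ℝ) ≠ 0 := by exact_mod_cast (j + i).factorial_ne_zero
  have h2 : (j.factorial : ℝ) ≠ 0 := by exact_mod_cast j.factorial_ne_zero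
  have h3 : (i.factorial : ℝ) ≠ 0 := by exact_mod_cast i.factorial_ne_zero
  field_simp
  rw [← hc']
  ring

/-- A Poisson number of erasure mixtures is a smaller Poisson number of the channel. -/
theorem node_thin {A C : Chan} {d p : ℝ} (hd : 0 ≤ d) (hp : 0 ≤ p) (hp1 : p ≤ 1)
    (h : ∀ b g : Fin 3 → ℝ, (∀ i, 0 ≤ b i) →
      A.E (fS b g) ≤ p * C.E (fS b g) + (1 - p) * fS b g (fun _ => 1)) :
    Le (A.node (poissonLaw d) (poissonLaw_nonneg hd) (hasSum_poissonLaw d))
      (C.node (poissonLaw (d * p)) (poissonLaw_nonneg (mul_nonneg hd hp))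
        (hasSum_poissonLaw (d * p))) := by
  intro b g hb
  have hC := C.hasSum_node (poissonLaw (d * p)) (poissonLaw_nonneg (mul_nonneg hd hp))
    (hasSum_poissonLaw (d * p)) (adm_fS g hb) (fS_smul b g)
  have hf0 : ∀ j, 0 ≤ poissonLaw (d * p) j * (C.pw j).E (fS b g) := fun j =>
    mul_nonneg (poissonLaw_nonneg (mul_nonneg hd hp) j)
      (tsum_nonneg fun y => fS_nonneg hb ((C.pw j).nonneg y))
  have hg0 : ∀ i, 0 ≤ poissonLaw (d * (1 - p)) i :=
    poissonLaw_nonneg (mul_nonneg hd (by linarith))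
  have hg := hasSum_poissonLaw (d * (1 - p))
  have fn : Summable fun j => ‖poissonLaw (d * p) j * (C.pw j).E (fS b g)‖ := hC.summable.norm
  have gn : Summable fun i => ‖poissonLaw (d * (1 - p)) i‖ := hg.summable.norm
  have e := tsum_mul_tsum_eq_tsum_sum_range_of_summable_norm fn gn
  rw [hC.tsum_eq, hg.tsum_eq, mul_one] at e
  have hsum : Summable fun n => ∑ j ∈ range (n + 1),
      poissonLaw (d * p) j * (C.pw j).E (fS b g) * poissonLaw (d * (1 - p)) (n - j) :=
    (summable_norm_sum_mul_range_of_summable_norm fn gn).of_norm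
  refine le_trans (hasSum_le (fun k => ?_)
    (A.hasSum_node (poissonLaw d) (poissonLaw_nonneg hd) (hasSum_poissonLaw d) (adm_fS g hb)
      (fS_smul b g)) hsum.hasSum) (le_of_eq e.symm)
  refine le_trans (mul_le_mul_of_nonneg_left (pw_thin hp hp1 h k b g hb)
    (poissonLaw_nonneg hd k)) (le_of_eq ?_)
  rw [mul_sum]
  refine sum_congr rfl fun j hj => ?_
  obtain ⟨i, rfl⟩ := Nat.exists_eq_add_of_le (Nat.lt_succ_iff.1 (mem_range.1 hj))
  rw [Nat.add_sub_cancel_left]
  linear_combination (C.pw j).E (fS b g) * (poisson_split (d := d) (p := p) (j := j) (i := i))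

/-- More children on average are more informative. -/
theorem node_mean_mono (C : Chan) {d e : ℝ} (hd : 0 ≤ d) (he : d ≤ e) :
    Le (C.node (poissonLaw d) (poissonLaw_nonneg hd) (hasSum_poissonLaw d))
      (C.node (poissonLaw e) (poissonLaw_nonneg (hd.trans he)) (hasSum_poissonLaw e)) := by
  intro b g hb
  rcases (hd.trans he).eq_or_lt with h0 | h0
  · obtain rfl : d = e := le_antisymm he (by linarith)
    exact le_rfl
  set p := d / e
  have hp : 0 ≤ p := div_nonneg hd h0.le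
  have hp1 : p ≤ 1 := (div_le_one h0).2 he
  have hdp : e * p = d := mul_div_cancel₀ _ h0.ne'
  have hC := C.hasSum_node (poissonLaw d) (poissonLaw_nonneg hd) (hasSum_poissonLaw d)
    (adm_fS g hb) (fS_smul b g)
  have hg0 : ∀ i, 0 ≤ poissonLaw (e * (1 - p)) i :=
    poissonLaw_nonneg (mul_nonneg h0.le (by linarith))
  have hg := hasSum_poissonLaw (e * (1 - p))
  have fn : Summable fun j => ‖poissonLaw d j * (C.pw j).E (fS b g)‖ := hC.summable.norm
  have gn : Summable fun i => ‖poissonLaw (e * (1 - p)) i‖ := hg.summable.norm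
  have eq := tsum_mul_tsum_eq_tsum_sum_range_of_summable_norm fn gn
  rw [hC.tsum_eq, hg.tsum_eq, mul_one] at eq
  have hsum : Summable fun n => ∑ j ∈ range (n + 1),
      poissonLaw d j * (C.pw j).E (fS b g) * poissonLaw (e * (1 - p)) (n - j) :=
    (summable_norm_sum_mul_range_of_summable_norm fn gn).of_norm
  refine le_trans (le_of_eq eq) (hasSum_le (fun k => ?_) hsum.hasSum
    (C.hasSum_node (poissonLaw e) (poissonLaw_nonneg (hd.trans he)) (hasSum_poissonLaw e)
      (adm_fS g hb) (fS_smul b g)))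
  have hb1 : ∑ j ∈ range (k + 1), (k.choose j : ℝ) * (p ^ j * (1 - p) ^ (k - j)) = 1 := by
    have := add_pow p (1 - p) k
    rw [add_sub_cancel, one_pow] at this
    refine Eq.trans ?_ this.symm
    exact sum_congr rfl fun j _ => by ring
  refine le_trans (sum_le_sum fun j hj => ?_)
    (le_of_eq (show ∑ j ∈ range (k + 1), poissonLaw e k * (C.pw k).E (fS b g) *
      ((k.choose j : ℝ) * (p ^ j * (1 - p) ^ (k - j))) = _ by rw [← mul_sum, hb1, mul_one]))
  have hjk : j ≤ k := Nat.lt_succ_iff.1 (mem_range.1 hj)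
  obtain ⟨i, rfl⟩ := Nat.exists_eq_add_of_le hjk
  have es := poisson_split (d := e) (p := p) (j := j) (i := i)
  rw [hdp] at es
  rw [Nat.add_sub_cancel_left]
  have hm := mul_le_mul_of_nonneg_left (pw_mono_nat C hjk b g hb)
    (mul_nonneg (poissonLaw_nonneg hd j) (hg0 i))
  calc poissonLaw d j * (C.pw j).E (fS b g) * poissonLaw (e * (1 - p)) i
      = poissonLaw d j * poissonLaw (e * (1 - p)) i * (C.pw j).E (fS b g) := by ring
    _ ≤ poissonLaw d j * poissonLaw (e * (1 - p)) i * (C.pw (j + i)).E (fS b g) := hm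
    _ = _ := by rw [← es]; ring

/-! ## Trees -/

lemma lik_facts' {l : ℝ} {ν : ℕ → ℝ} (h0 : -(1 / 2) ≤ l) (h1 : l ≤ 1) (hν : ∀ k, 0 ≤ ν k)
    (hν1 : HasSum ν 1) : ∀ n : ℕ,
    (∀ (y : Obs 3 n) i, 0 ≤ lik 3 l ν n y i) ∧
      (∀ i, HasSum (fun y : Obs 3 n => lik 3 l ν n y i) 1) ∧
      ∀ π : Equiv.Perm (Fin 3), ∃ e : Obs 3 n ≃ Obs 3 n,
        ∀ y i, lik 3 l ν n (e y) i = lik 3 l ν n y (π i) := by
  intro n
  induction n with
  | zero => exact ⟨baseChan.nonneg, baseChan.total, baseChan.sym⟩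
  | succ n ih =>
    let C : Chan := ⟨Obs 3 n, lik 3 l ν n, ih.1, ih.2.1, ih.2.2⟩
    let N := (mixG C l h0 h1).node ν hν hν1
    have e : ∀ (y : Obs 3 (n + 1)) i, lik 3 l ν (n + 1) y i = N.V y i := by
      rintro ⟨k, ys⟩ i
      simp only [lik, sum_potts_eq_mixv]
      rfl
    refine ⟨fun y i => by rw [e]; exact N.nonneg y i, fun i => ?_, fun π => ?_⟩
    · simp only [e]; exact N.total i
    · obtain ⟨f, hf⟩ := N.sym π
      exact ⟨f, fun y i => by rw [e, e]; exact hf y i⟩

/-- The channel of depth `n`, for every admissible parameter. -/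
noncomputable def chanG {l : ℝ} {ν : ℕ → ℝ} (h0 : -(1 / 2) ≤ l) (h1 : l ≤ 1) (hν : ∀ k, 0 ≤ ν k)
    (hν1 : HasSum ν 1) (n : ℕ) : Chan :=
  ⟨Obs 3 n, lik 3 l ν n, (lik_facts' h0 h1 hν hν1 n).1, (lik_facts' h0 h1 hν hν1 n).2.1,
    (lik_facts' h0 h1 hν hν1 n).2.2⟩

lemma chanG_succ {l : ℝ} {ν : ℕ → ℝ} (h0 : -(1 / 2) ≤ l) (h1 : l ≤ 1) (hν : ∀ k, 0 ≤ ν k)
    (hν1 : HasSum ν 1) (n : ℕ) (F : (Fin 3 → ℝ) → ℝ) :
    (chanG h0 h1 hν hν1 (n + 1)).E F =
      ((mixG (chanG h0 h1 hν hν1 n) l h0 h1).node ν hν hν1).E F := by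
  simp only [Chan.E]
  refine tsum_congr fun y => congrArg F (funext fun i => ?_)
  obtain ⟨k, ys⟩ := y
  simp only [chanG, lik, sum_potts_eq_mixv]
  rfl

/-- The interval theorem: a Poisson tree is dominated by the Poisson tree at the stronger end
of the interval, whose mean is enlarged only by the factor `(1 - l₁) / (1 - lam)` after
rescaling to the same value of `d λ²`. -/
theorem poisson_interval {d e : ℝ} (hd : 0 ≤ d) (he : 0 ≤ e) (hl0 : -(1 / 2) ≤ l₁) (hl : l₁ < 0)
    (h1 : l₁ ≤ lam) (h2 : lam ≤ 0) (hde : d * lam ^ 2 * (1 - l₁) ≤ e * l₁ ^ 2 * (1 - lam))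
    (n : ℕ) :
    Le (chanG (le_trans hl0 h1) (by linarith) (poissonLaw_nonneg hd) (hasSum_poissonLaw d) n)
      (chanG hl0 (by linarith) (poissonLaw_nonneg he) (hasSum_poissonLaw e) n) := by
  have hw := weight_nonneg h1 h2
  have hle : d * weight l₁ lam ≤ e := by
    have h3 : 0 < l₁ ^ 2 * (1 - lam) := mul_pos (pow_two_pos_of_ne_zero hl.ne) (by linarith)
    rw [show d * weight l₁ lam = d * lam ^ 2 * (1 - l₁) / (l₁ ^ 2 * (1 - lam)) by
      rw [weight, div_pow, div_mul_eq_mul_div, div_div, mul_div_assoc', mul_assoc]]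
    rw [div_le_iff₀ h3]
    linarith
  induction n with
  | zero => intro b g _; exact le_rfl
  | succ n ih =>
    intro b g hb
    rw [chanG_succ, chanG_succ]
    refine le_trans (node_thin hd hw (weight_le_one hl h1 h2)
      (fun b g hb => mix_le _ hl0 hl h1 h2 g hb) b g hb) ?_
    refine le_trans (node_mean_mono _ (mul_nonneg hd hw) hle b g hb) ?_
    exact node_mono (mix_mono ih hl0 (by linarith)) _ (poissonLaw_nonneg he)
      (hasSum_poissonLaw e) b g hb

end Vale.Agent.P154.LN
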