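import Vale.Agent.P154.LN.Basic

/-!
The real-number layer of the recursion: powers of the averaged multiplication operators of a perfect
and an excluding child, their expansion, and their bounds by three weights.
-/

namespace Vale.Agent.P154.LN

open Finset

/-- One child carrying a perfect observation. -/
noncomputable def KP (lam : ℝ) (g : (Fin 3 → ℝ) → ℝ) : (Fin 3 → ℝ) → ℝ :=
  fun L => avg6 g L (mixv lam eP)

/-- One child carrying an excluding observation. -/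
noncomputable def KE (lam : ℝ) (g : (Fin 3 → ℝ) → ℝ) : (Fin 3 → ℝ) → ℝ :=
  fun L => avg6 g L (mixv lam eE)

/-- `p` perfect and `q` excluding children, seen from the useless vector. -/
noncomputable def Xi (lam : ℝ) (p q : ℕ) (g : (Fin 3 → ℝ) → ℝ) : ℝ :=
  ((KP lam)^[p] ((KE lam)^[q] g)) eU

/-- `(A K_P + B K_E)^j g` at the useless vector. -/
noncomputable def powS (lam A B : ℝ) (j : ℕ) (g : (Fin 3 → ℝ) → ℝ) : ℝ :=
  ((step lam A B 0)^[j] g) eU

/-- One more child `c` after an observation `r`, weighed by `w`. -/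
noncomputable def entry (lam : ℝ) (c r : Fin 3 → ℝ) (w : (Fin 3 → ℝ) → ℝ) : ℝ :=
  avg6 w r (mixv lam c)

/-! ## The operators -/

/-- Averaged multiplication by a vector, as a linear map. -/
noncomputable def avgL (M : Fin 3 → ℝ) : Module.End ℝ ((Fin 3 → ℝ) → ℝ) where
  toFun g L := avg6 g L M
  map_add' f g := by funext L; simp only [avg6, Pi.add_apply]; ring
  map_smul' c f := by
    funext L; simp only [avg6, Pi.smul_apply, smul_eq_mul, RingHom.id_apply]; ring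

lemma avgL_apply (M : Fin 3 → ℝ) (g : (Fin 3 → ℝ) → ℝ) (L : Fin 3 → ℝ) :
    avgL M g L = avg6 g L M := rfl

lemma avg6_one (g : (Fin 3 → ℝ) → ℝ) (L : Fin 3 → ℝ) : avg6 g L eU = g L := by
  simp [avg6, eU, vec_eta]; ring

lemma mixv_eU (lam : ℝ) : mixv lam eU = eU := by
  funext i; fin_cases i <;> simp [mixv, eU, pP] <;> ring

lemma avgL_comm (M M' : Fin 3 → ℝ) : Commute (avgL M) (avgL M') := by
  refine LinearMap.ext fun g => funext fun L => ?_
  simp [avgL_apply, avg6, mul_comm, mul_left_comm]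
  ring

lemma step_eq (lam A B C : ℝ) :
    step lam A B C =
      ⇑((A • avgL (mixv lam eP) + B • avgL (mixv lam eE) + C • 1 : Module.End ℝ ((Fin 3 → ℝ) → ℝ))) := by
  funext g L
  simp [step, avgL_apply, mixv_eU, avg6_one]

/-- `A K_P + B K_E` as a linear map. -/
noncomputable def opS (lam A B : ℝ) : Module.End ℝ ((Fin 3 → ℝ) → ℝ) :=
  A • avgL (mixv lam eP) + B • avgL (mixv lam eE)

lemma powS_op (lam A B : ℝ) (j : ℕ) (g : (Fin 3 → ℝ) → ℝ) :
    powS lam A B j g = (opS lam A B ^ j) g eU := by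
  rw [powS, step_eq, zero_smul, add_zero, Module.End.pow_apply, opS]

lemma Xi_op (lam : ℝ) (p q : ℕ) (g : (Fin 3 → ℝ) → ℝ) :
    Xi lam p q g = (avgL (mixv lam eP) ^ p * avgL (mixv lam eE) ^ q) g eU := by
  rw [Module.End.mul_apply, Module.End.pow_apply, Module.End.pow_apply]
  rfl

lemma step_zero_apply (lam A B : ℝ) (g : (Fin 3 → ℝ) → ℝ) :
    step lam A B 0 g = opS lam A B g := by rw [step_eq, zero_smul, add_zero, opS]

/-! ## Expansion -/

theorem powS_eq (lam A B : ℝ) (j : ℕ) (g : (Fin 3 → ℝ) → ℝ) :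
    powS lam A B j g =
      ∑ p ∈ range (j + 1), (j.choose p : ℝ) * A ^ p * B ^ (j - p) * Xi lam p (j - p) g := by
  rw [powS_op, opS, ((avgL_comm (mixv lam eP) (mixv lam eE)).smul_left A |>.smul_right B).add_pow,
    LinearMap.sum_apply, Finset.sum_apply]
  refine sum_congr rfl fun p _ => ?_
  rw [smul_pow, smul_pow, smul_mul_smul_comm, ← nsmul_eq_mul',
    LinearMap.smul_apply, Pi.smul_apply, nsmul_eq_mul, LinearMap.smul_apply, Pi.smul_apply,
    smul_eq_mul, Xi_op]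
  ring

/-- Binomial expansion in the useless children. -/
theorem step_pow (lam A B C : ℝ) (k : ℕ) (g : (Fin 3 → ℝ) → ℝ) :
    ((step lam A B C)^[k] g) eU =
      ∑ j ∈ range (k + 1), (k.choose j : ℝ) * C ^ (k - j) * powS lam A B j g := by
  rw [step_eq, ← Module.End.pow_apply, ← opS,
    (((Commute.one_right (opS lam A B)).smul_right C)).add_pow, LinearMap.sum_apply, Finset.sum_apply]
  refine sum_congr rfl fun j _ => ?_
  rw [smul_pow, one_pow, mul_smul_comm, mul_one, ← nsmul_eq_mul',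
    LinearMap.smul_apply, Pi.smul_apply, nsmul_eq_mul, LinearMap.smul_apply, Pi.smul_apply,
    smul_eq_mul, powS_op]
  ring

/-! ## Positivity, symmetry, linearity of the evaluation -/

lemma mixv_eP_nonneg {lam : ℝ} (h0 : -(1 / 2) ≤ lam) (h1 : lam ≤ 1) (i : Fin 3) :
    0 ≤ mixv lam eP i := mixv_nonneg' h0 h1 eP_nonneg i

lemma mixv_eE_nonneg {lam : ℝ} (h0 : -(1 / 2) ≤ lam) (h1 : lam ≤ 1) (i : Fin 3) :
    0 ≤ mixv lam eE i := mixv_nonneg' h0 h1 eE_nonneg i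

lemma avg6_mono {g h : (Fin 3 → ℝ) → ℝ} (hgh : ∀ L, (∀ i, 0 ≤ L i) → g L ≤ h L)
    {L M : Fin 3 → ℝ} (hL : ∀ i, 0 ≤ L i) (hM : ∀ i, 0 ≤ M i) : avg6 g L M ≤ avg6 h L M := by
  have e : ∀ a b c, g ![L 0 * M a, L 1 * M b, L 2 * M c] ≤ h ![L 0 * M a, L 1 * M b, L 2 * M c] :=
    fun a b c => hgh _ (vec_nonneg (mul_nonneg (hL 0) (hM a)) (mul_nonneg (hL 1) (hM b))
      (mul_nonneg (hL 2) (hM c)))
  simp only [avg6]
  linarith [e 0 1 2, e 1 2 0, e 2 0 1, e 1 0 2, e 0 2 1, e 2 1 0]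

lemma pow_mono {M : Fin 3 → ℝ} (hM : ∀ i, 0 ≤ M i) (n : ℕ) {g h : (Fin 3 → ℝ) → ℝ}
    (hgh : ∀ L, (∀ i, 0 ≤ L i) → g L ≤ h L) {L : Fin 3 → ℝ} (hL : ∀ i, 0 ≤ L i) :
    (avgL M ^ n) g L ≤ (avgL M ^ n) h L := by
  induction n generalizing L with
  | zero => exact hgh L hL
  | succ n ih =>
    rw [pow_succ', Module.End.mul_apply, Module.End.mul_apply]
    exact avg6_mono (fun L hL => ih hL) hL hM

lemma Xi_mono {lam : ℝ} (h0 : -(1 / 2) ≤ lam) (h1 : lam ≤ 1) (p q : ℕ) {g h : (Fin 3 → ℝ) → ℝ}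
    (hgh : ∀ L, (∀ i, 0 ≤ L i) → g L ≤ h L) : Xi lam p q g ≤ Xi lam p q h := by
  rw [Xi_op, Xi_op, Module.End.mul_apply, Module.End.mul_apply]
  exact pow_mono (mixv_eP_nonneg h0 h1) p
    (fun L hL => pow_mono (mixv_eE_nonneg h0 h1) q hgh hL) eU_nonneg

lemma Xi_nonneg {lam : ℝ} (h0 : -(1 / 2) ≤ lam) (h1 : lam ≤ 1) (p q : ℕ) {g : (Fin 3 → ℝ) → ℝ}
    (hg : ∀ L, (∀ i, 0 ≤ L i) → 0 ≤ g L) : 0 ≤ Xi lam p q g := by
  refine le_trans (le_of_eq ?_) (Xi_mono h0 h1 p q (g := 0) hg)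
  rw [Xi_op, map_zero, Pi.zero_apply]

/-- Rearranged functional. -/
def perF (a b c : Fin 3) (g : (Fin 3 → ℝ) → ℝ) : (Fin 3 → ℝ) → ℝ := fun L => g ![L a, L b, L c]

lemma avgL_perF (M : Fin 3 → ℝ) (g : (Fin 3 → ℝ) → ℝ) {a b c : Fin 3} (hab : a ≠ b) (hac : a ≠ c)
    (hbc : b ≠ c) : avgL M (perF a b c g) = perF a b c (avgL M g) := by
  funext L
  fin_cases a <;> fin_cases b <;> fin_cases c <;> simp_all [avgL_apply, avg6, perF] <;> ring

lemma pow_perF (M : Fin 3 → ℝ) (n : ℕ) (g : (Fin 3 → ℝ) → ℝ) {a b c : Fin 3} (hab : a ≠ b)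
    (hac : a ≠ c) (hbc : b ≠ c) : (avgL M ^ n) (perF a b c g) = perF a b c ((avgL M ^ n) g) := by
  induction n with
  | zero => rfl
  | succ n ih =>
    rw [pow_succ', Module.End.mul_apply, Module.End.mul_apply, ih, avgL_perF M _ hab hac hbc]

lemma Xi_perF (lam : ℝ) (p q : ℕ) (g : (Fin 3 → ℝ) → ℝ) {a b c : Fin 3} (hab : a ≠ b) (hac : a ≠ c)
    (hbc : b ≠ c) : Xi lam p q (perF a b c g) = Xi lam p q g := by
  rw [Xi_op, Xi_op, Module.End.mul_apply, Module.End.mul_apply, pow_perF _ q g hab hac hbc,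
    pow_perF _ p _ hab hac hbc, perF]
  refine congrArg _ (funext fun i => ?_)
  fin_cases i <;> fin_cases a <;> fin_cases b <;> fin_cases c <;> simp [eU]

lemma Xi_orb (lam : ℝ) (p q : ℕ) (g : (Fin 3 → ℝ) → ℝ) :
    Xi lam p q (orb g) = Xi lam p q g := by
  have e : orb g = (6:ℝ)⁻¹ • (perF 0 1 2 g + perF 1 2 0 g + perF 2 0 1 g + perF 1 0 2 g
      + perF 0 2 1 g + perF 2 1 0 g) := by
    funext L
    simp only [orb_def, perF, Pi.smul_apply, Pi.add_apply, smul_eq_mul]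
    ring
  rw [e, Xi_op, map_smul]
  simp only [map_add, Pi.smul_apply, Pi.add_apply, smul_eq_mul, ← Xi_op]
  rw [Xi_perF lam p q g (by decide) (by decide) (by decide),
    Xi_perF lam p q g (by decide) (by decide) (by decide),
    Xi_perF lam p q g (by decide) (by decide) (by decide),
    Xi_perF lam p q g (by decide) (by decide) (by decide),
    Xi_perF lam p q g (by decide) (by decide) (by decide),
    Xi_perF lam p q g (by decide) (by decide) (by decide)]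
  ring

/-! ## Bounds -/

/-- The three weights of a product of children. -/
theorem xi_rep {lam : ℝ} (hl : -(1 / 2) ≤ lam) (hl' : lam ≤ 1) (p q : ℕ) :
    Rep (Xi lam p q) (Xi lam p q wP) (Xi lam p q wE) (Xi lam p q wU) := by
  refine ⟨Xi_nonneg hl hl' p q fun L hL => (w_nonneg hL).1,
    Xi_nonneg hl hl' p q fun L hL => (w_nonneg hL).2.1,
    Xi_nonneg hl hl' p q fun L hL => (w_nonneg hL).2.2, fun g hg => ?_⟩
  rw [← Xi_orb]
  refine le_trans (Xi_mono hl hl' p q (h := orb g eP • wP + orb g eE • wE + orb g eU • wU)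
    fun L hL => le_trans (hg.three hL) (le_of_eq ?_)) (le_of_eq ?_)
  · simp only [Pi.add_apply, Pi.smul_apply, smul_eq_mul]; ring
  · simp only [Xi_op, map_add, map_smul, Pi.add_apply, Pi.smul_apply, smul_eq_mul, val]; ring

lemma avg6_pP (L M : Fin 3 → ℝ) : avg6 pP L M = pP L * pP M := by
  simp [avg6, pP]; ring

lemma pow_pP {M : Fin 3 → ℝ} (hM : pP M = 1) (n : ℕ) : (avgL M ^ n) pP = pP := by
  induction n with
  | zero => rfl
  | succ n ih =>
    rw [pow_succ', Module.End.mul_apply, ih]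
    funext L
    rw [avgL_apply, avg6_pP, hM, mul_one]

lemma Xi_le_eP {lam : ℝ} (h0 : -(1 / 2) ≤ lam) (h1 : lam ≤ 1) (p q : ℕ) {g : (Fin 3 → ℝ) → ℝ}
    (hg : IsTest g) : Xi lam p q g ≤ orb g eP := by
  rw [← Xi_orb]
  refine le_trans (Xi_mono h0 h1 p q (h := orb g eP • pP)
    fun L hL => le_trans (hg.orb_le_eP hL) (le_of_eq (mul_comm _ _))) (le_of_eq ?_)
  rw [Xi_op, map_smul, Module.End.mul_apply, pow_pP (by rw [pP_mixv]; simp [pP, eE]),
    pow_pP (by rw [pP_mixv]; simp [pP, eP])]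
  simp [pP, eU]
  norm_num

theorem powS_tail {lam A B : ℝ} (h0 : -(1 / 2) ≤ lam) (h1 : lam ≤ 1) (hA : 0 ≤ A) (hB : 0 ≤ B)
    (j : ℕ) {g : (Fin 3 → ℝ) → ℝ} (hg : IsTest g) :
    powS lam A B j g ≤ (A + B) ^ j * orb g eP := by
  rw [powS_eq, add_pow, sum_mul]
  refine sum_le_sum fun p _ => ?_
  refine le_trans (mul_le_mul_of_nonneg_left (Xi_le_eP h0 h1 p (j - p) hg) (by positivity))
    (le_of_eq ?_)
  ring

theorem powS_nonneg {lam A B : ℝ} (h0 : -(1 / 2) ≤ lam) (h1 : lam ≤ 1) (hA : 0 ≤ A) (hB : 0 ≤ B)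
    (j : ℕ) {g : (Fin 3 → ℝ) → ℝ} (hg : IsTest g) : 0 ≤ powS lam A B j g := by
  rw [powS_eq]
  exact sum_nonneg fun p _ =>
    mul_nonneg (by positivity) (Xi_nonneg h0 h1 p _ fun L hL => hg.nonneg hL)

theorem powS_mono {lam A B A' B' : ℝ} (h0 : -(1 / 2) ≤ lam) (h1 : lam ≤ 1) (hA : 0 ≤ A)
    (hB : 0 ≤ B) (hA' : A ≤ A') (hB' : B ≤ B') (j : ℕ) {g : (Fin 3 → ℝ) → ℝ} (hg : IsTest g) :
    powS lam A B j g ≤ powS lam A' B' j g := by
  rw [powS_eq, powS_eq]
  refine sum_le_sum fun p _ => mul_le_mul_of_nonneg_right ?_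
    (Xi_nonneg h0 h1 p _ fun L hL => hg.nonneg hL)
  exact mul_le_mul (mul_le_mul_of_nonneg_left (pow_le_pow_left₀ hA hA' p) (Nat.cast_nonneg _))
    (pow_le_pow_left₀ hB hB' _) (pow_nonneg hB _)
    (mul_nonneg (Nat.cast_nonneg _) (pow_nonneg (hA.trans hA') _))

/-- The weights of `(A K_P + B K_E)^j`. -/
theorem powS_rep {lam A B : ℝ} (h0 : -(1 / 2) ≤ lam) (h1 : lam ≤ 1) (hA : 0 ≤ A) (hB : 0 ≤ B)
    (j : ℕ) : Rep (powS lam A B j) (powS lam A B j wP) (powS lam A B j wE) (powS lam A B j wU) := by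
  have hn : ∀ w : (Fin 3 → ℝ) → ℝ, (∀ L, (∀ i, 0 ≤ L i) → 0 ≤ w L) → 0 ≤ powS lam A B j w := by
    intro w hw
    rw [powS_eq]
    exact sum_nonneg fun p _ => mul_nonneg (by positivity) (Xi_nonneg h0 h1 p _ hw)
  refine ⟨hn _ fun L hL => (w_nonneg hL).1, hn _ fun L hL => (w_nonneg hL).2.1,
    hn _ fun L hL => (w_nonneg hL).2.2, fun g hg => ?_⟩
  simp only [powS_eq, val, sum_mul, ← sum_add_distrib]
  refine sum_le_sum fun p _ => le_trans (mul_le_mul_of_nonneg_left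
    ((xi_rep h0 h1 p (j - p)).2.2.2 g hg) (by positivity)) (le_of_eq ?_)
  simp only [val]; ring

lemma isTest_avg_term {g : (Fin 3 → ℝ) → ℝ} (hg : IsTest g) {M : Fin 3 → ℝ} (hM : ∀ i, 0 ≤ M i)
    (a b c : Fin 3) : IsTest fun L => g ![L 0 * M a, L 1 * M b, L 2 * M c] := by
  have e : ∀ L : Fin 3 → ℝ,
      ![L 0 * M a, L 1 * M b, L 2 * M c] = fun i => L i * ![M a, M b, M c] i := fun L => by
    funext i; fin_cases i <;> rfl
  simp only [e]
  exact hg.comp_mul (vec_nonneg (hM a) (hM b) (hM c))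

lemma orb_avg6 (g : (Fin 3 → ℝ) → ℝ) (r M : Fin 3 → ℝ) :
    orb (fun L => avg6 g L M) r = avg6 (orb g) r M := by
  simp only [orb_def, avg6, Matrix.cons_val_zero, Matrix.cons_val_one, Matrix.cons_val]
  ring

/-- A bound of a linear functional extends to one more child. -/
lemma child_bound {T : ((Fin 3 → ℝ) → ℝ) →ₗ[ℝ] ℝ} {zP zE zU : ℝ} (hz : Rep T zP zE zU)
    {M : Fin 3 → ℝ} (hM : ∀ i, 0 ≤ M i) {g : (Fin 3 → ℝ) → ℝ} (hg : IsTest g) :
    T (avgL M g) ≤ val (zP * avg6 wP eP M + zE * avg6 wP eE M + zU * avg6 wP eU M)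
      (zP * avg6 wE eP M + zE * avg6 wE eE M + zU * avg6 wE eU M)
      (zP * avg6 wU eP M + zE * avg6 wU eE M + zU * avg6 wU eU M) g := by
  obtain ⟨hzP, hzE, hzU, hb⟩ := hz
  set G : Fin 3 → Fin 3 → Fin 3 → (Fin 3 → ℝ) → ℝ :=
    fun a b c L => g ![L 0 * M a, L 1 * M b, L 2 * M c]
  have e : avgL M g = (6:ℝ)⁻¹ • (G 0 1 2 + G 1 2 0 + G 2 0 1 + G 1 0 2 + G 0 2 1 + G 2 1 0) := by
    funext L
    simp only [avgL_apply, avg6, G, Pi.smul_apply, Pi.add_apply, smul_eq_mul]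
    ring
  have h1 : T (avgL M g) ≤ val zP zE zU (avgL M g) := by
    have hv : ∀ r : Fin 3 → ℝ, orb (avgL M g) r = (6:ℝ)⁻¹ * (orb (G 0 1 2) r + orb (G 1 2 0) r
        + orb (G 2 0 1) r + orb (G 1 0 2) r + orb (G 0 2 1) r + orb (G 2 1 0) r) := fun r => by
      rw [e]
      simp only [orb_def, Pi.smul_apply, Pi.add_apply, smul_eq_mul]
      ring
    have t := fun a b c => hb (G a b c) (isTest_avg_term hg hM a b c)
    have : T (avgL M g) = (6:ℝ)⁻¹ * (T (G 0 1 2) + T (G 1 2 0) + T (G 2 0 1) + T (G 1 0 2)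
        + T (G 0 2 1) + T (G 2 1 0)) := by
      rw [e, map_smul]; simp only [map_add, smul_eq_mul]
    have := t 0 1 2; have := t 1 2 0; have := t 2 0 1; have := t 1 0 2; have := t 0 2 1
    have := t 2 1 0
    simp only [val, hv] at *
    linarith
  refine h1.trans ?_
  have hr : ∀ r : Fin 3 → ℝ, (∀ i, 0 ≤ r i) → orb (avgL M g) r ≤
      avg6 wP r M * orb g eP + avg6 wE r M * orb g eE + avg6 wU r M * orb g eU := fun r hr => by
    refine le_trans (le_of_eq (orb_avg6 g r M)) ?_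
    refine le_trans (avg6_mono (h := fun L => wP L * orb g eP + wE L * orb g eE + wU L * orb g eU)
      (fun L hL => hg.three hL) hr hM) (le_of_eq ?_)
    simp only [avg6]; ring
  have := mul_le_mul_of_nonneg_left (hr eP eP_nonneg) hzP
  have := mul_le_mul_of_nonneg_left (hr eE eE_nonneg) hzE
  have := mul_le_mul_of_nonneg_left (hr eU eU_nonneg) hzU
  simp only [val]
  linarith

lemma entry_nonneg {lam : ℝ} (h0 : -(1 / 2) ≤ lam) (h1 : lam ≤ 1) {c r : Fin 3 → ℝ}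
    (hc : ∀ i, 0 ≤ c i) (hr : ∀ i, 0 ≤ r i) {w : (Fin 3 → ℝ) → ℝ}
    (hw : ∀ L, (∀ i, 0 ≤ L i) → 0 ≤ w L) : 0 ≤ entry lam c r w := by
  refine le_trans (le_of_eq ?_) (avg6_mono (g := fun _ => 0) hw hr (mixv_nonneg' h0 h1 hc))
  simp [avg6]

/-- One more child after a bound, through the `3 × 3` matrices. -/
theorem powS_succ_rep {lam A B zP zE zU : ℝ} (h0 : -(1 / 2) ≤ lam) (h1 : lam ≤ 1) (hA : 0 ≤ A)
    (hB : 0 ≤ B) {j : ℕ} (hz : Rep (powS lam A B j) zP zE zU) :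
    Rep (powS lam A B (j + 1))
      (zP * (A * entry lam eP eP wP + B * entry lam eE eP wP)
        + zE * (A * entry lam eP eE wP + B * entry lam eE eE wP)
        + zU * (A * entry lam eP eU wP + B * entry lam eE eU wP))
      (zP * (A * entry lam eP eP wE + B * entry lam eE eP wE)
        + zE * (A * entry lam eP eE wE + B * entry lam eE eE wE)
        + zU * (A * entry lam eP eU wE + B * entry lam eE eU wE))
      (zP * (A * entry lam eP eP wU + B * entry lam eE eP wU)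
        + zE * (A * entry lam eP eE wU + B * entry lam eE eE wU)
        + zU * (A * entry lam eP eU wU + B * entry lam eE eU wU)) := by
  obtain ⟨hzP, hzE, hzU, hb⟩ := hz
  have hn : ∀ {w : (Fin 3 → ℝ) → ℝ}, (∀ L, (∀ i, 0 ≤ L i) → 0 ≤ w L) → ∀ {r : Fin 3 → ℝ},
      (∀ i, 0 ≤ r i) → 0 ≤ A * entry lam eP r w + B * entry lam eE r w := fun hw _ hr =>
    add_nonneg (mul_nonneg hA (entry_nonneg h0 h1 eP_nonneg hr hw))
      (mul_nonneg hB (entry_nonneg h0 h1 eE_nonneg hr hw))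
  have h3 : ∀ {w : (Fin 3 → ℝ) → ℝ}, (∀ L, (∀ i, 0 ≤ L i) → 0 ≤ w L) →
      0 ≤ zP * (A * entry lam eP eP w + B * entry lam eE eP w)
        + zE * (A * entry lam eP eE w + B * entry lam eE eE w)
        + zU * (A * entry lam eP eU w + B * entry lam eE eU w) := fun hw =>
    add_nonneg (add_nonneg (mul_nonneg hzP (hn hw eP_nonneg)) (mul_nonneg hzE (hn hw eE_nonneg)))
      (mul_nonneg hzU (hn hw eU_nonneg))
  refine ⟨h3 fun L hL => (w_nonneg hL).1, h3 fun L hL => (w_nonneg hL).2.1,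
    h3 fun L hL => (w_nonneg hL).2.2, fun g hg => ?_⟩
  set T : ((Fin 3 → ℝ) → ℝ) →ₗ[ℝ] ℝ := (LinearMap.proj eU).comp (opS lam A B ^ j) with hTdef
  have hT : ∀ f, T f = powS lam A B j f := fun f => (powS_op lam A B j f).symm
  have hzT : Rep T zP zE zU := ⟨hzP, hzE, hzU, fun f hf => (hT f).trans_le (hb f hf)⟩
  have e : powS lam A B (j + 1) g = T (opS lam A B g) := by
    rw [hT, powS, Function.iterate_succ_apply, step_zero_apply]
    rfl
  rw [e, opS, LinearMap.add_apply, LinearMap.smul_apply, LinearMap.smul_apply, map_add, map_smul,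
    map_smul, smul_eq_mul, smul_eq_mul]
  refine le_trans (add_le_add
    (mul_le_mul_of_nonneg_left (child_bound hzT (mixv_eP_nonneg h0 h1) hg) hA)
    (mul_le_mul_of_nonneg_left (child_bound hzT (mixv_eE_nonneg h0 h1) hg) hB)) (le_of_eq ?_)
  simp only [val, entry]
  ring

/-- The start of the iteration: no children. -/
theorem powS_zero_rep (lam A B : ℝ) : Rep (powS lam A B 0) 0 0 1 := by
  refine ⟨le_rfl, le_rfl, zero_le_one, fun g _ => le_of_eq ?_⟩
  simp [powS, val, orb_def, eU]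
  ring

end Vale.Agent.P154.LN
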