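import Vale.Agent.P154.LN.Child
import Vale.Agent.P154.LN.Pow
import Vale.Agent.P154.LN.Interval

/-!
One level of the tree in terms of the powers `powS`: the binomial sum for a regular node, the
exponential series for a Poisson node.
-/

namespace Vale.Agent.P154.LN

open Finset

variable {D : Chan} {lam A B : ℝ}

/-- Larger weights of the two informative observations still dominate. -/
lemma Child.up (hD : Child D lam A B (1 - A - B)) (h0 : -(1 / 2) ≤ lam) (h1 : lam ≤ 1)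
    {A' B' c : ℝ} (hs : A + B ≤ 1) (hA : A ≤ A') (hB : B ≤ B') (hc : 0 ≤ c)
    (hc' : 1 - A' - B' ≤ c) : Child D lam A' B' c := by
  intro g hg
  have ht := hg.comp_mixv h0 h1
  have hP := ht.orb_nonneg eP_nonneg
  have hE := ht.orb_nonneg eE_nonneg
  have hU := ht.orb_nonneg eU_nonneg
  have h01 := ht.eU_le_eE
  have h12 := ht.eE_le_eP
  refine (hD g hg).trans ?_
  simp only [val]
  generalize orb (fun L => g (mixv lam L)) eP = P at *
  generalize orb (fun L => g (mixv lam L)) eE = E at *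
  generalize orb (fun L => g (mixv lam L)) eU = U at *
  by_cases hle : A' + B' ≤ 1
  · have := mul_le_mul_of_nonneg_left (h01.trans h12) (sub_nonneg.2 hA)
    have := mul_le_mul_of_nonneg_left h01 (sub_nonneg.2 hB)
    have := mul_le_mul_of_nonneg_right hc' hU
    linarith
  · rcases le_total A' (1 - B) with hA1 | hA1
    · have := mul_le_mul_of_nonneg_left (h01.trans h12) (sub_nonneg.2 hA)
      have := mul_le_mul_of_nonneg_left h01 (show 0 ≤ 1 - A' - B by linarith)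
      have := mul_le_mul_of_nonneg_right (show 1 - A' ≤ B' by linarith) hE
      have := mul_nonneg hc hU
      linarith
    · have := mul_le_mul_of_nonneg_left (h01.trans h12) (show 0 ≤ 1 - A - B by linarith)
      have := mul_le_mul_of_nonneg_right (show 1 - B ≤ A' by linarith) hP
      have := mul_le_mul_of_nonneg_right hB hE
      have := mul_nonneg hc hU
      linarith

/-- A dominated channel gives a dominated child. -/
lemma child_of_rep {C : Chan} {Z : ℝ} (h : Rep C.E A B Z) (h0 : -(1 / 2) ≤ lam) (h1 : lam ≤ 1) :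
    Child (mixG C lam h0 h1) lam A B Z := fun g hg => h.2.2.2 _ (hg.comp_mixv h0 h1)

/-- A regular node. -/
theorem node_regular {C : ℝ} (hD : Child D lam A B C) (h0 : -(1 / 2) ≤ lam) (h1 : lam ≤ 1)
    (hA : 0 ≤ A) (hB : 0 ≤ B) (hC : 0 ≤ C) (d : ℕ) (n0 : ∀ k, 0 ≤ regularLaw d k)
    (n1 : HasSum (regularLaw d) 1) {g : (Fin 3 → ℝ) → ℝ} (hg : IsTest g) :
    (D.node (regularLaw d) n0 n1).E g ≤
      ∑ j ∈ range (d + 1), (d.choose j : ℝ) * C ^ (d - j) * powS lam A B j g := by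
  have h := D.hasSum_node (regularLaw d) n0 n1 hg.adm hg.smul
  have e : HasSum (fun k => regularLaw d k * (D.pw k).E g) ((D.pw d).E g) := by
    refine (hasSum_ite_eq d ((D.pw d).E g)).congr_fun fun k => ?_
    unfold regularLaw
    split_ifs with hk <;> simp [hk]
  rw [h.unique e, ← step_pow]
  exact pw_le_iter hD h0 h1 hA hB hC d g (.test hg)

/-- The exponential series with intensities `IA`, `IB`. -/
noncomputable def poiTerm (lam IA IB : ℝ) (g : (Fin 3 → ℝ) → ℝ) (j : ℕ) : ℝ :=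
  Real.exp (-(IA + IB)) * powS lam IA IB j g / j.factorial

lemma powS_scale (lam M A B : ℝ) (j : ℕ) (g : (Fin 3 → ℝ) → ℝ) :
    powS lam (M * A) (M * B) j g = M ^ j * powS lam A B j g := by
  rw [powS_eq, powS_eq, mul_sum]
  refine sum_congr rfl fun p hp => ?_
  obtain ⟨i, rfl⟩ := Nat.exists_eq_add_of_le (Nat.lt_succ_iff.1 (mem_range.1 hp))
  rw [Nat.add_sub_cancel_left, mul_pow, mul_pow, pow_add]
  ring

lemma poiTerm_nonneg {IA IB : ℝ} (h0 : -(1 / 2) ≤ lam) (h1 : lam ≤ 1) (hA : 0 ≤ IA) (hB : 0 ≤ IB)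
    {g : (Fin 3 → ℝ) → ℝ} (hg : IsTest g) (j : ℕ) : 0 ≤ poiTerm lam IA IB g j :=
  div_nonneg (mul_nonneg (Real.exp_nonneg _) (powS_nonneg h0 h1 hA hB j hg)) (Nat.cast_nonneg _)

lemma poiTerm_le {IA IB : ℝ} (h0 : -(1 / 2) ≤ lam) (h1 : lam ≤ 1) (hA : 0 ≤ IA) (hB : 0 ≤ IB)
    {g : (Fin 3 → ℝ) → ℝ} (hg : IsTest g) (j : ℕ) :
    poiTerm lam IA IB g j ≤ poissonLaw (IA + IB) j * orb g eP := by
  refine le_trans ?_ (le_of_eq (div_mul_eq_mul_div _ _ _).symm)
  refine div_le_div_of_nonneg_right ?_ (Nat.cast_nonneg _)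
  rw [mul_assoc]
  exact mul_le_mul_of_nonneg_left (powS_tail h0 h1 hA hB j hg) (Real.exp_nonneg _)

lemma poiTerm_summable {IA IB : ℝ} (h0 : -(1 / 2) ≤ lam) (h1 : lam ≤ 1) (hA : 0 ≤ IA)
    (hB : 0 ≤ IB) {g : (Fin 3 → ℝ) → ℝ} (hg : IsTest g) : Summable (poiTerm lam IA IB g) :=
  Summable.of_nonneg_of_le (poiTerm_nonneg h0 h1 hA hB hg) (poiTerm_le h0 h1 hA hB hg)
    ((hasSum_poissonLaw (IA + IB)).summable.mul_right _)

/-- A Poisson mixture of iterates of `step` is the exponential series. -/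
theorem poisson_mix (h0 : -(1 / 2) ≤ lam) (h1 : lam ≤ 1) {M : ℝ} (hM : 0 ≤ M) (hA : 0 ≤ A)
    (hB : 0 ≤ B) (hs : A + B ≤ 1) {g : (Fin 3 → ℝ) → ℝ} (hg : IsTest g) :
    HasSum (fun k => poissonLaw M k * ((step lam A B (1 - A - B))^[k] g) eU)
      (∑' j, poiTerm lam (M * A) (M * B) g j) := by
  have hf := poiTerm_summable h0 h1 (mul_nonneg hM hA) (mul_nonneg hM hB) hg
  have hq := hasSum_poissonLaw (M * (1 - A - B))
  have fn := hf.norm
  have gn : Summable fun i => ‖poissonLaw (M * (1 - A - B)) i‖ := hq.summable.norm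
  have e := tsum_mul_tsum_eq_tsum_sum_range_of_summable_norm fn gn
  rw [hq.tsum_eq, mul_one] at e
  rw [e]
  refine ((summable_norm_sum_mul_range_of_summable_norm fn gn).of_norm.hasSum).congr_fun fun k => ?_
  rw [step_pow, mul_sum]
  refine sum_congr rfl fun j hj => ?_
  obtain ⟨i, rfl⟩ := Nat.exists_eq_add_of_le (Nat.lt_succ_iff.1 (mem_range.1 hj))
  rw [Nat.add_sub_cancel_left, poiTerm, powS_scale]
  have hc := Nat.add_choose_mul_factorial_mul_factorial j i
  rw [← Nat.choose_symm_add] at hc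
  have hc' : ((j + i).choose j : ℝ) * j.factorial * i.factorial = (j + i).factorial := by
    exact_mod_cast hc
  simp only [poissonLaw, mul_pow, pow_add]
  rw [show Real.exp (-M) =
      Real.exp (-(M * A + M * B)) * Real.exp (-(M * (1 - A - B))) by
    rw [← Real.exp_add]; congr 1; ring]
  have f2 : (j.factorial : ℝ) ≠ 0 := by exact_mod_cast j.factorial_ne_zero
  have f3 : (i.factorial : ℝ) ≠ 0 := by exact_mod_cast i.factorial_ne_zero
  have f1 : ((j + i).choose j : ℝ) ≠ 0 := by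
    exact_mod_cast (Nat.choose_pos (Nat.le_add_right j i)).ne'
  rw [← hc']
  field_simp

/-- The exponential series grows with the intensities. -/
theorem tsum_poiTerm_mono {a b a' b' : ℝ} (h0 : -(1 / 2) ≤ lam) (h1 : lam ≤ 1) (ha : 0 ≤ a)
    (hb : 0 ≤ b) (haa : a ≤ a') (hbb : b ≤ b') {g : (Fin 3 → ℝ) → ℝ} (hg : IsTest g) :
    ∑' j, poiTerm lam a b g j ≤ ∑' j, poiTerm lam a' b' g j := by
  have ha' := ha.trans haa
  have hb' := hb.trans hbb
  set M := a' + b' + 1 with hM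
  have hM0 : 0 < M := by linarith
  have hs' : a' / M + b' / M ≤ 1 := by rw [← add_div, div_le_one hM0]; linarith
  have hA : a / M ≤ a' / M := div_le_div_of_nonneg_right haa hM0.le
  have hB : b / M ≤ b' / M := div_le_div_of_nonneg_right hbb hM0.le
  have s1 := poisson_mix h0 h1 hM0.le (div_nonneg ha hM0.le) (div_nonneg hb hM0.le)
    (by linarith) hg
  have s2 := poisson_mix h0 h1 hM0.le (div_nonneg ha' hM0.le) (div_nonneg hb' hM0.le) hs' hg
  simp only [mul_div_cancel₀ _ hM0.ne'] at s1 s2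
  exact hasSum_le (fun k => mul_le_mul_of_nonneg_left
    (iter_le h0 h1 (div_nonneg ha hM0.le) (div_nonneg hb hM0.le) hA hB hs' (.test hg) k eU eU_nonneg)
    (poissonLaw_nonneg hM0.le k)) s1 s2

/-- A Poisson node. -/
theorem node_poisson (hD : Child D lam A B (1 - A - B)) (h0 : -(1 / 2) ≤ lam) (h1 : lam ≤ 1)
    (hA : 0 ≤ A) (hB : 0 ≤ B) (hs : A + B ≤ 1) {m IA IB : ℝ} (hm : 0 ≤ m) (hIA : m * A ≤ IA)
    (hIB : m * B ≤ IB) (n0 : ∀ k, 0 ≤ poissonLaw m k) (n1 : HasSum (poissonLaw m) 1)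
    {g : (Fin 3 → ℝ) → ℝ} (hg : IsTest g) :
    (D.node (poissonLaw m) n0 n1).E g ≤ ∑' j, poiTerm lam IA IB g j :=
  le_trans (hasSum_le (fun k => mul_le_mul_of_nonneg_left
      (pw_le_iter hD h0 h1 hA hB (by linarith) k g (.test hg)) (n0 k))
      (D.hasSum_node (poissonLaw m) n0 n1 hg.adm hg.smul) (poisson_mix h0 h1 hm hA hB hs hg))
    (tsum_poiTerm_mono h0 h1 (mul_nonneg hm hA) (mul_nonneg hm hB) hIA hIB hg)

/-- One level of a regular tree: `l` is the parameter of the tree, `lam` that of the bound. -/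
theorem chanG_regular_succ {l C : ℝ} {d : ℕ} (l0 : -(1 / 2) ≤ l) (l1 : l ≤ 1)
    (n0 : ∀ k, 0 ≤ regularLaw d k) (n1 : HasSum (regularLaw d) 1) (n : ℕ)
    (hD : Child (mixG (chanG l0 l1 n0 n1 n) l l0 l1) lam A B C) (h0 : -(1 / 2) ≤ lam)
    (h1 : lam ≤ 1) (hA : 0 ≤ A) (hB : 0 ≤ B) (hC : 0 ≤ C) {g : (Fin 3 → ℝ) → ℝ} (hg : IsTest g) :
    (chanG l0 l1 n0 n1 (n + 1)).E g ≤
      ∑ j ∈ range (d + 1), (d.choose j : ℝ) * C ^ (d - j) * powS lam A B j g := by
  rw [chanG_succ]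
  exact node_regular hD h0 h1 hA hB hC d n0 n1 hg

/-- One level of a Poisson tree: `l` is the parameter of the tree, `lam` that of the bound. -/
theorem chanG_poisson_succ {l m IA IB : ℝ} (l0 : -(1 / 2) ≤ l) (l1 : l ≤ 1) (hm : 0 ≤ m)
    (n0 : ∀ k, 0 ≤ poissonLaw m k) (n1 : HasSum (poissonLaw m) 1) (n : ℕ)
    (hD : Child (mixG (chanG l0 l1 n0 n1 n) l l0 l1) lam A B (1 - A - B)) (h0 : -(1 / 2) ≤ lam)
    (h1 : lam ≤ 1) (hA : 0 ≤ A) (hB : 0 ≤ B) (hs : A + B ≤ 1) (hIA : m * A ≤ IA)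
    (hIB : m * B ≤ IB) {g : (Fin 3 → ℝ) → ℝ} (hg : IsTest g) :
    (chanG l0 l1 n0 n1 (n + 1)).E g ≤ ∑' j, poiTerm lam IA IB g j := by
  rw [chanG_succ]
  exact node_poisson hD h0 h1 hA hB hs hm hIA hIB n0 n1 hg

end Vale.Agent.P154.LN
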