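import Vale.Agent.P154.LN.Child

/-!
A child at the parameter `b * lk` is a child at the knot `lk` of the vector scaled by `b`.
The weights of the scaled extreme observations, their monotonicity in `b` in the comparison order,
and endpoint bounds for the forms appearing in the recursion.
-/

namespace Vale.Agent.P154.LN

/-- Weight of `eP` in the perfect observation scaled by `b`. -/
noncomputable def sP (b : ℝ) : ℝ := (b ^ 2 + 2 * b ^ 3) / 3
/-- Weight of `eE` in the perfect observation scaled by `b`. -/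
noncomputable def sE (b : ℝ) : ℝ := 8 * (b ^ 2 - b ^ 3) / 3
/-- Weight of `eP` in the excluding observation scaled by `b`. -/
noncomputable def tP (b : ℝ) : ℝ := (b ^ 2 - b ^ 3) / 12
/-- Weight of `eE` in the excluding observation scaled by `b`. -/
noncomputable def tE (b : ℝ) : ℝ := (2 * b ^ 2 + b ^ 3) / 3

lemma pP_eP : pP eP = 1 := by simp [pP, eP]
lemma pP_eE : pP eE = 1 := by simp [pP, eE]
lemma pP_eU : pP eU = 1 := by simp [pP, eU]; norm_num

lemma wP_mixv_eP (b : ℝ) : wP (mixv b eP) = sP b := by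
  simp only [wP, fB_mixv, fM_mixv]
  simp [fB, fM, pP, eP, sP]
  ring

lemma wE_mixv_eP (b : ℝ) : wE (mixv b eP) = sE b := by
  simp only [wE, fB_mixv, fM_mixv]
  simp [fB, fM, pP, eP, sE]
  ring

lemma wP_mixv_eE (b : ℝ) : wP (mixv b eE) = tP b := by
  simp only [wP, fB_mixv, fM_mixv]
  simp [fB, fM, pP, eE, tP]
  ring

lemma wE_mixv_eE (b : ℝ) : wE (mixv b eE) = tE b := by
  simp only [wE, fB_mixv, fM_mixv]
  simp [fB, fM, pP, eE, tE]
  ring

lemma sP_nonneg {b : ℝ} (h0 : 0 ≤ b) : 0 ≤ sP b := by unfold sP; positivity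

lemma sE_nonneg {b : ℝ} (h1 : b ≤ 1) : 0 ≤ sE b := by
  have : sE b = b ^ 2 * (8 * (1 - b) / 3) := by unfold sE; ring
  rw [this]; exact mul_nonneg (sq_nonneg b) (by linarith)

lemma tP_nonneg {b : ℝ} (h1 : b ≤ 1) : 0 ≤ tP b := by
  have : tP b = b ^ 2 * ((1 - b) / 12) := by unfold tP; ring
  rw [this]; exact mul_nonneg (sq_nonneg b) (by linarith)

lemma tE_nonneg {b : ℝ} (h0 : 0 ≤ b) : 0 ≤ tE b := by unfold tE; positivity

lemma orb_comp_mixv (g : (Fin 3 → ℝ) → ℝ) (b : ℝ) (L : Fin 3 → ℝ) :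
    orb (fun M => g (mixv b M)) L = orb g (mixv b L) := by
  have e : ∀ i j k : Fin 3, pP ![L i, L j, L k] = pP L →
      mixv b ![L i, L j, L k] = ![mixv b L i, mixv b L j, mixv b L k] := by
    intro i j k h
    funext l; fin_cases l <;> simp [mixv, h]
  simp only [orb_def]
  rw [e 0 1 2 (by simp [pP]), e 1 2 0 (by simp [pP]; ring), e 2 0 1 (by simp [pP]; ring),
    e 1 0 2 (by simp [pP]; ring), e 0 2 1 (by simp [pP]; ring), e 2 1 0 (by simp [pP]; ring)]

/-- A vector with less scaling carries less. -/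
lemma orb_mixv_mono {g : (Fin 3 → ℝ) → ℝ} (hg : IsTest g) {b b' : ℝ} (h0 : 0 ≤ b) (hb : b ≤ b')
    (h1 : b' ≤ 1) {L : Fin 3 → ℝ} (hL : ∀ i, 0 ≤ L i) :
    orb g (mixv b L) ≤ orb g (mixv b' L) := by
  rcases (h0.trans hb).eq_or_lt with h | h
  · have : b = b' := by linarith
    rw [this]
  set X := mixv b' L with hX
  have nX : ∀ i, 0 ≤ X i := mixv_nonneg (h0.trans hb) h1 hL
  set t := b / b' with ht
  have t0 : 0 ≤ t := div_nonneg h0 h.le
  have t1 : 0 ≤ 1 - t := by rw [sub_nonneg, ht, div_le_one h]; exact hb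
  set Y : Fin 3 → ℝ := fun _ => pP L with hY
  have e : ∀ i, mixv b L i = t * X i + (1 - t) * Y i := by
    intro i
    simp only [hX, hY, ht, mixv]
    field_simp
    ring
  have nY : ∀ i, 0 ≤ Y i := fun _ => pP_nonneg hL
  have k : ∀ a a' a'' : Fin 3, g ![mixv b L a, mixv b L a', mixv b L a''] ≤
      t * g ![X a, X a', X a''] + (1 - t) * g Y := by
    intro a a' a''
    have ev : (![mixv b L a, mixv b L a', mixv b L a''] : Fin 3 → ℝ) =
        (fun i => t * ![X a, X a', X a''] i) + fun i => (1 - t) * Y i := by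
      funext i; fin_cases i <;> simp [e, hY]
    rw [ev]
    refine (hg.add_le (fun i => mul_nonneg t0 (vec_nonneg (nX a) (nX a') (nX a'') i))
      fun i => mul_nonneg t1 (nY i)).trans (le_of_eq ?_)
    rw [hg.smul, hg.smul]
  have hsum : orb g (mixv b L) ≤ t * orb g X + (1 - t) * g Y := by
    simp only [orb_def]
    linarith [k 0 1 2, k 1 2 0, k 2 0 1, k 1 0 2, k 0 2 1, k 2 1 0]
  have hU : g Y ≤ orb g X := by
    have h := hg.eU_le_orb nX
    have eo : orb g eU = g eU := by simp [orb_def, eU]; ring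
    have eY : Y = fun i => pP L * eU i := by funext i; fin_cases i <;> simp [hY, eU]
    rw [eY, hg.smul]
    rwa [eo, hX, pP_mixv] at h
  have := mul_le_mul_of_nonneg_left hU t1
  linarith

/-- A child of a channel below `(a, c)`, with edge parameter `b * lk`, is bounded at the knot `lk`
by the weights of the extreme observations scaled by any `b'` from `b` to `1`. -/
theorem child_of_below_mono {C : Chan} {a c b b' lk : ℝ} (hC : Below C a c) (h0 : 0 ≤ b)
    (hb : b ≤ b') (h1 : b' ≤ 1) (k0 : -(1 / 2) ≤ lk) (k1 : lk ≤ 1) (l0 : -(1 / 2) ≤ b * lk)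
    (l1 : b * lk ≤ 1) :
    ∃ A B : ℝ, 0 ≤ A ∧ 0 ≤ B ∧ A + B ≤ 1 ∧ A ≤ a * sP b' + c * tP b' ∧
      B ≤ a * sE b' + c * tE b' ∧ Child (mixG C (b * lk) l0 l1) lk A B (1 - A - B) := by
  obtain ⟨A, B, hA, hB, hs, hA0, hB0, -, hC⟩ := hC
  have hb0 : 0 ≤ b' := h0.trans hb
  have nP : ∀ i, 0 ≤ mixv b' eP i := mixv_nonneg hb0 h1 eP_nonneg
  have nE : ∀ i, 0 ≤ mixv b' eE i := mixv_nonneg hb0 h1 eE_nonneg
  have uP := (w_nonneg nP).2.2
  have uE := (w_nonneg nE).2.2
  simp only [wU, pP_mixv, pP_eP, pP_eE, wP_mixv_eP, wE_mixv_eP, wP_mixv_eE, wE_mixv_eE] at uP uE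
  have hU0 : 0 ≤ 1 - A - B := by linarith
  refine ⟨A * sP b' + B * tP b', A * sE b' + B * tE b', ?_, ?_, ?_, ?_, ?_, ?_⟩
  · exact add_nonneg (mul_nonneg hA0 (sP_nonneg hb0)) (mul_nonneg hB0 (tP_nonneg h1))
  · exact add_nonneg (mul_nonneg hA0 (sE_nonneg h1)) (mul_nonneg hB0 (tE_nonneg hb0))
  · have := mul_nonneg hA0 uP; have := mul_nonneg hB0 uE
    linarith
  · exact add_le_add (mul_le_mul_of_nonneg_right hA (sP_nonneg hb0))
      (mul_le_mul_of_nonneg_right hB (tP_nonneg h1))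
  · exact add_le_add (mul_le_mul_of_nonneg_right hA (sE_nonneg h1))
      (mul_le_mul_of_nonneg_right hB (tE_nonneg hb0))
  intro g hg
  set k := fun L => g (mixv lk L) with hk
  have kt : IsTest k := hg.comp_mixv k0 k1
  have e : (mixG C (b * lk) l0 l1).E g = C.E fun L => k (mixv b L) := by
    refine tsum_congr fun y => ?_
    simp only [hk, mixv_comp, mul_comm lk b]
    rfl
  have kb : IsTest fun L => k (mixv b L) := kt.comp_mixv (by linarith) (by linarith)
  rw [e]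
  refine (hC _ kb).trans ?_
  simp only [val, orb_comp_mixv]
  have eU' : mixv b eU = eU := by funext i; fin_cases i <;> simp [mixv, pP, eU] <;> ring
  rw [eU']
  have hP := (orb_mixv_mono kt h0 hb h1 eP_nonneg).trans (kt.three nP)
  have hE := (orb_mixv_mono kt h0 hb h1 eE_nonneg).trans (kt.three nE)
  simp only [wU, pP_mixv, pP_eP, pP_eE, wP_mixv_eP, wE_mixv_eP, wP_mixv_eE, wE_mixv_eE] at hP hE
  have := mul_le_mul_of_nonneg_left hP hA0
  have := mul_le_mul_of_nonneg_left hE hB0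
  linarith

/-- The same with the exact scaling. -/
theorem child_of_below {C : Chan} {a c b lk : ℝ} (hC : Below C a c) (h0 : 0 ≤ b)
    (h1 : b ≤ 1) (k0 : -(1 / 2) ≤ lk) (k1 : lk ≤ 1) (l0 : -(1 / 2) ≤ b * lk)
    (l1 : b * lk ≤ 1) :
    ∃ A B : ℝ, 0 ≤ A ∧ 0 ≤ B ∧ A + B ≤ 1 ∧ A ≤ a * sP b + c * tP b ∧
      B ≤ a * sE b + c * tE b ∧ Child (mixG C (b * lk) l0 l1) lk A B (1 - A - B) :=
  child_of_below_mono hC h0 le_rfl h1 k0 k1 l0 l1

/-! ## Endpoint bounds -/

lemma affine_le_max {α β b bl bh : ℝ} (hl : bl ≤ b) (hh : b ≤ bh) :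
    α + β * b ≤ max (α + β * bl) (α + β * bh) := by
  rcases le_total 0 β with h | h
  · exact le_max_of_le_right (by linarith [mul_le_mul_of_nonneg_left hh h])
  · exact le_max_of_le_left (by linarith [mul_le_mul_of_nonpos_left hl h])

lemma sPt_eq (a c b : ℝ) :
    a * sP b + c * tP b = b ^ 2 * ((a / 3 + c / 12) + (2 * a / 3 - c / 12) * b) := by
  unfold sP tP; ring

lemma sEt_eq (a c b : ℝ) :
    a * sE b + c * tE b = b ^ 2 * ((8 * a / 3 + 2 * c / 3) + (c / 3 - 8 * a / 3) * b) := by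
  unfold sE tE; ring

/-- Intensity of perfect children: `m = 1/(b*lk)^2` times the weight is affine in `b`. -/
lemma intensityA_le {a c b bl bh lk : ℝ} (hb : 0 < b) (hlk : lk ≠ 0) (hl : bl ≤ b) (hh : b ≤ bh) :
    (1 / (b * lk) ^ 2) * (a * sP b + c * tP b) ≤
      max (((a / 3 + c / 12) + (2 * a / 3 - c / 12) * bl) / lk ^ 2)
        (((a / 3 + c / 12) + (2 * a / 3 - c / 12) * bh) / lk ^ 2) := by
  rw [sPt_eq, max_div_div_right (sq_nonneg lk)]
  have : 0 < lk ^ 2 := by positivity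
  rw [show 1 / (b * lk) ^ 2 * (b ^ 2 * ((a / 3 + c / 12) + (2 * a / 3 - c / 12) * b))
    = ((a / 3 + c / 12) + (2 * a / 3 - c / 12) * b) / lk ^ 2 by field_simp]
  gcongr
  exact affine_le_max hl hh

/-- Intensity of excluding children. -/
lemma intensityB_le {a c b bl bh lk : ℝ} (hb : 0 < b) (hlk : lk ≠ 0) (hl : bl ≤ b) (hh : b ≤ bh) :
    (1 / (b * lk) ^ 2) * (a * sE b + c * tE b) ≤
      max (((8 * a / 3 + 2 * c / 3) + (c / 3 - 8 * a / 3) * bl) / lk ^ 2)
        (((8 * a / 3 + 2 * c / 3) + (c / 3 - 8 * a / 3) * bh) / lk ^ 2) := by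
  rw [sEt_eq, max_div_div_right (sq_nonneg lk)]
  rw [show 1 / (b * lk) ^ 2 * (b ^ 2 * ((8 * a / 3 + 2 * c / 3) + (c / 3 - 8 * a / 3) * b))
    = ((8 * a / 3 + 2 * c / 3) + (c / 3 - 8 * a / 3) * b) / lk ^ 2 by field_simp]
  have : 0 < lk ^ 2 := by positivity
  gcongr
  exact affine_le_max hl hh

end Vale.Agent.P154.LN
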