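import Vale.Agent.P154.LN.Comp
import Vale.Agent.P154.LN.Recursion
import Vale.Agent.P154.LN.Scale

/-!
From checked chains of fixed-point states to `Below` for the tree channels.
-/

namespace Vale.Agent.P154.LN

/-- Child coefficients at the scaling `p / q` for a regular tree with `d` children at the knot
`-n / D`. -/
def regKnotOK (d n D p q : ℕ) (k : Knot) : Bool :=
  k.cap == SC && (Nat.ble p q && (Nat.ble (D ^ 2 * q ^ 2) (d * n ^ 2 * p ^ 2)
    && (Nat.ble ((p ^ 2 * q + 2 * p ^ 3) * SC) (k.lo.1 * (3 * q ^ 3))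
    && (Nat.ble ((p ^ 2 * q - p ^ 3) * SC) (k.lo.2.1 * (12 * q ^ 3))
    && (Nat.ble (8 * (p ^ 2 * q - p ^ 3) * SC) (k.lo.2.2.1 * (3 * q ^ 3))
    && Nat.ble ((2 * p ^ 2 * q + p ^ 3) * SC) (k.lo.2.2.2 * (3 * q ^ 3)))))))

/-- Intensity coefficients at the scaling `p / q` for a Poisson tree at the knot `-n / D`. -/
def endOK (n D p q : ℕ) (c : ℕ × ℕ × ℕ × ℕ) : Bool :=
  Nat.ble p q && (Nat.ble ((q + 2 * p) * D ^ 2 * SC) (c.1 * (3 * q * n ^ 2))
    && (Nat.ble ((q - p) * D ^ 2 * SC) (c.2.1 * (12 * q * n ^ 2))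
    && (Nat.ble (8 * (q - p) * D ^ 2 * SC) (c.2.2.1 * (3 * q * n ^ 2))
    && Nat.ble ((2 * q + p) * D ^ 2 * SC) (c.2.2.2 * (3 * q * n ^ 2)))))

/-- The two ends of a Poisson knot and the largest mean. -/
def poiKnotOK (n D pl ph q : ℕ) (k : Knot) : Bool :=
  endOK n D pl q k.lo && (endOK n D ph q k.hi
    && Nat.ble (D ^ 2 * q ^ 2 * SC) (k.cap * (n ^ 2 * pl ^ 2)))

/-- A checked chain from `x` of the given length with the given last state. -/
def chainTo (f : ℕ × ℕ → ℕ × ℕ) (x : ℕ × ℕ) (L : List (ℕ × ℕ)) (len : ℕ) (y : ℕ × ℕ) : Bool :=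
  chainOK f (x :: L) && (L.length == len && L.getLastD x == y)

/-- A bound written in the scale. -/
noncomputable def BelowS (C : Chan) (s : ℕ × ℕ) : Prop :=
  Below C ((s.1 : ℝ) / SC) ((s.2 : ℝ) / SC)

lemma Below.mono {C : Chan} {a b a' b' : ℝ} (h : Below C a b) (ha : a ≤ a') (hb : b ≤ b') :
    Below C a' b' := by
  obtain ⟨A, B, h1, h2, h3⟩ := h
  exact ⟨A, B, h1.trans ha, h2.trans hb, h3⟩

/-- Depth zero. -/
theorem below_zero {l : ℝ} {ν : ℕ → ℝ} (h0 : -(1 / 2) ≤ l) (h1 : l ≤ 1) (hν : ∀ k, 0 ≤ ν k)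
    (hν1 : HasSum ν 1) : BelowS (chanG h0 h1 hν hν1 0) (SC, 0) := by
  refine ⟨1, 0, by simp [div_self SC_pos.ne'], by simp, by norm_num, zero_le_one, le_rfl,
    by norm_num, fun g hg => le_of_eq ?_⟩
  show (∑' y : Fin 3, g fun i => if y = i then 1 else 0) = _
  rw [tsum_fintype, Fin.sum_univ_three]
  have e : ∀ y : Fin 3, g (fun i => if y = i then 1 else 0) =
      g (fun i => (3 : ℝ) * if y = i then 1 else 0) / 3 := fun y => by
    rw [hg.smul]; ring
  have v0 : (fun i : Fin 3 => (3 : ℝ) * if 0 = i then 1 else 0) = ![3, 0, 0] := by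
    funext i; fin_cases i <;> simp
  have v1 : (fun i : Fin 3 => (3 : ℝ) * if 1 = i then 1 else 0) = ![0, 3, 0] := by
    funext i; fin_cases i <;> simp
  have v2 : (fun i : Fin 3 => (3 : ℝ) * if 2 = i then 1 else 0) = ![0, 0, 3] := by
    funext i; fin_cases i <;> simp
  rw [e 0, e 1, e 2, v0, v1, v2]
  simp [val, orb_def, eP]
  ring

/-- Weight may be moved from the excluding to the perfect observation. -/
lemma Child.shift {X : Chan} {lam A B C δ : ℝ} (hD : Child X lam A B C) (h0 : -(1 / 2) ≤ lam)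
    (h1 : lam ≤ 1) (hδ : 0 ≤ δ) : Child X lam (A + δ) (B - δ) C := by
  intro g hg
  have := mul_le_mul_of_nonneg_left (hg.comp_mixv h0 h1).eE_le_eP hδ
  refine (hD g hg).trans ?_
  simp only [val]
  linarith

lemma le_scaled {x : ℝ} {num den v : ℕ} (hd : 0 < den) (h : x ≤ (num : ℝ) / den)
    (hb : Nat.ble (num * SC) (v * den) = true) : x ≤ (v : ℝ) / SC := by
  refine h.trans ?_
  rw [div_le_div_iff₀ (by exact_mod_cast hd) SC_pos]
  exact_mod_cast Nat.le_of_ble_eq_true hb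

variable {n D : ℕ} {t : Tab} {k : Knot}

lemma knot_bounds (hD : 0 < D) (hn : 2 * n ≤ D) :
    -(1 / 2 : ℝ) ≤ -((n : ℝ) / D) ∧ -((n : ℝ) / D) ≤ 1 := by
  have hD' : (0 : ℝ) < D := by exact_mod_cast hD
  have h : (n : ℝ) / D ≤ 1 / 2 := by
    rw [div_le_div_iff₀ hD' two_pos]
    exact_mod_cast (by omega : n * 2 ≤ 1 * D)
  have : (0 : ℝ) ≤ (n : ℝ) / D := by positivity
  constructor <;> linarith

/-! ## Regular trees -/

/-- One level of a regular tree at the critical parameter. -/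
theorem regStep {d p q : ℕ} (hd : 0 < d) (hn0 : 0 < n) (hD : 0 < D) (hn : 2 * n ≤ D) (hq : 0 < q)
    (ht : TabOK (-((n : ℝ) / D)) t) (hk : regKnotOK d n D p q k = true)
    {l : ℝ} (l0 : -(1 / 2) ≤ l) (l1 : l ≤ 1) (hl : l = -(Real.sqrt d)⁻¹)
    (m : ℕ) {u : ℕ × ℕ}
    (hu : BelowS (chanG l0 l1 (regularLaw_nonneg d) (hasSum_regularLaw d) m) u) :
    BelowS (chanG l0 l1 (regularLaw_nonneg d) (hasSum_regularLaw d) (m + 1)) (nextReg d t k u) := by
  obtain ⟨k0, k1⟩ := knot_bounds hD hn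
  simp only [regKnotOK, Bool.and_eq_true, beq_iff_eq] at hk
  obtain ⟨hcap, hpq, hsq, c1, c2, c3, c4⟩ := hk
  have hD' : (0 : ℝ) < D := by exact_mod_cast hD
  have hn' : (0 : ℝ) < n := by exact_mod_cast hn0
  have hd' : (0 : ℝ) < Real.sqrt d := Real.sqrt_pos.2 (by exact_mod_cast hd)
  have hq' : (0 : ℝ) < q := by exact_mod_cast hq
  set b : ℝ := (D : ℝ) / (n * Real.sqrt d) with hb
  have hlb : l = b * (-((n : ℝ) / D)) := by rw [hl, hb]; field_simp
  have hb0 : 0 ≤ b := by positivity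
  have hp1 : (p : ℝ) / q ≤ 1 := by
    rw [div_le_one hq']; exact_mod_cast Nat.le_of_ble_eq_true hpq
  have hbp : b ≤ (p : ℝ) / q := by
    have h2 : ((D : ℝ) * q) ^ 2 ≤ ((n : ℝ) * Real.sqrt d * p) ^ 2 := by
      rw [mul_pow, mul_pow, mul_pow, Real.sq_sqrt (Nat.cast_nonneg d)]
      have : ((D ^ 2 * q ^ 2 : ℕ) : ℝ) ≤ ((d * n ^ 2 * p ^ 2 : ℕ) : ℝ) :=
        Nat.cast_le.2 (Nat.le_of_ble_eq_true hsq)
      push_cast at this
      linarith
    rw [hb, div_le_div_iff₀ (by positivity) hq', mul_comm (p : ℝ)]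
    exact (pow_le_pow_iff_left₀ (by positivity) (by positivity) two_ne_zero).1 h2
  subst hlb
  obtain ⟨A, B, hA0, hB0, hs, hA, hB, hc⟩ :=
    child_of_below_mono (hu : Below _ _ _) hb0 hbp hp1 k0 k1 l0 l1
  have h3 : (p : ℝ) ^ 3 ≤ (p : ℝ) ^ 2 * q := by
    rw [pow_succ]
    exact mul_le_mul_of_nonneg_left (by exact_mod_cast Nat.le_of_ble_eq_true hpq) (sq_nonneg _)
  have hsub : ((p ^ 2 * q - p ^ 3 : ℕ) : ℝ) = (p : ℝ) ^ 2 * q - (p : ℝ) ^ 3 := by
    rw [Nat.cast_sub (by exact_mod_cast h3)]; push_cast; ring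
  have q3 : 0 < 3 * q ^ 3 := by positivity
  have e1 : sP ((p : ℝ) / q) ≤ (k.lo.1 : ℝ) / SC := by
    refine le_scaled q3 (le_of_eq ?_) c1
    simp only [sP]; push_cast; field_simp
  have e2 : tP ((p : ℝ) / q) ≤ (k.lo.2.1 : ℝ) / SC := by
    refine le_scaled (by positivity) (le_of_eq ?_) c2
    rw [hsub]; simp only [tP]; push_cast; field_simp
  have e3 : sE ((p : ℝ) / q) ≤ (k.lo.2.2.1 : ℝ) / SC := by
    refine le_scaled q3 (le_of_eq ?_) c3
    rw [Nat.cast_mul 8, hsub]; simp only [sE]; push_cast; field_simp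
  have e4 : tE ((p : ℝ) / q) ≤ (k.lo.2.2.2 : ℝ) / SC := by
    refine le_scaled q3 (le_of_eq ?_) c4
    simp only [tE]; push_cast; field_simp
  have u1 : (0 : ℝ) ≤ (u.1 : ℝ) / SC := div_nonneg (Nat.cast_nonneg _) SC_pos.le
  have u2 : (0 : ℝ) ≤ (u.2 : ℝ) / SC := div_nonneg (Nat.cast_nonneg _) SC_pos.le
  obtain ⟨r1, r2⟩ := k.run_sound u (θ := 1) (A := A) (B := B) (a0 := (u.1 : ℝ) / SC)
    (e0 := (u.2 : ℝ) / SC) zero_le_one le_rfl le_rfl le_rfl hB0
    (by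
      refine hA.trans ((add_le_add (mul_le_mul_of_nonneg_left e1 u1)
        (mul_le_mul_of_nonneg_left e2 u2)).trans (le_of_eq ?_))
      ring)
    (by
      refine hB.trans ((add_le_add (mul_le_mul_of_nonneg_left e3 u1)
        (mul_le_mul_of_nonneg_left e4 u2)).trans (le_of_eq ?_))
      ring)
    (by rw [hcap, div_self SC_pos.ne']; exact hs)
  have hsum : (k.run u).1 + (k.run u).2 ≤ SC := hcap ▸ k.run_le u
  rw [Nat.cast_add, add_div] at r2
  set Ar : ℝ := ((k.run u).1 : ℝ) / SC with hAr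
  set Br : ℝ := ((k.run u).2 : ℝ) / SC with hBr
  have hAr0 : 0 ≤ Ar := div_nonneg (Nat.cast_nonneg _) SC_pos.le
  have hBr0 : 0 ≤ Br := div_nonneg (Nat.cast_nonneg _) SC_pos.le
  have hrs : Ar + Br ≤ 1 := by
    rw [hAr, hBr, ← add_div, div_le_one SC_pos]
    exact_mod_cast hsum
  set δ := max 0 (B - Br) with hδ
  have hδ0 : 0 ≤ δ := le_max_left _ _
  have hδA : A + δ ≤ Ar := by
    rw [hδ, ← max_add_add_left]; exact max_le (by linarith) (by linarith)
  have hδB : B - δ ≤ Br := by linarith [le_max_right 0 (B - Br)]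
  have hc2 := hc.shift k0 k1 hδ0
  rw [show 1 - A - B = 1 - (A + δ) - (B - δ) by ring] at hc2
  have hc3 := hc2.up k0 k1 (by linarith) hδA hδB (sub_nonneg.2 (by linarith : Br ≤ 1 - Ar)) le_rfl
  refine stepReg_below k0 k1 ht hsum fun g hg => ?_
  rw [step_pow]
  exact chanG_regular_succ l0 l1 _ _ m hc3 k0 k1 hAr0 hBr0 (by linarith) hg

/-! ## Poisson trees -/

lemma convex_coord {bl bh b : ℝ} (hl : bl ≤ b) (hh : b ≤ bh) :
    ∃ θ : ℝ, 0 ≤ θ ∧ θ ≤ 1 ∧ b = θ * bl + (1 - θ) * bh := by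
  rcases eq_or_lt_of_le (hl.trans hh) with h | h
  · exact ⟨1, zero_le_one, le_rfl, by linarith⟩
  · refine ⟨(bh - b) / (bh - bl), div_nonneg (by linarith) (by linarith),
      (div_le_one (by linarith)).2 (by linarith), ?_⟩
    have := (sub_pos.2 h).ne'
    field_simp
    ring

lemma end_bounds {p q : ℕ} {c : ℕ × ℕ × ℕ × ℕ} (hn0 : 0 < n) (hq : 0 < q)
    (h : endOK n D p q c = true) :
    (1 + 2 * ((p : ℝ) / q)) / (3 * ((n : ℝ) / D) ^ 2) ≤ (c.1 : ℝ) / SC ∧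
    (1 - (p : ℝ) / q) / (12 * ((n : ℝ) / D) ^ 2) ≤ (c.2.1 : ℝ) / SC ∧
    8 * (1 - (p : ℝ) / q) / (3 * ((n : ℝ) / D) ^ 2) ≤ (c.2.2.1 : ℝ) / SC ∧
    (2 + (p : ℝ) / q) / (3 * ((n : ℝ) / D) ^ 2) ≤ (c.2.2.2 : ℝ) / SC := by
  simp only [endOK, Bool.and_eq_true] at h
  obtain ⟨hpq, c1, c2, c3, c4⟩ := h
  have hn' : (n : ℝ) ≠ 0 := by positivity
  have hq' : (q : ℝ) ≠ 0 := by positivity
  have hs : ((q - p : ℕ) : ℝ) = (q : ℝ) - p := Nat.cast_sub (Nat.le_of_ble_eq_true hpq)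
  refine ⟨le_scaled (by positivity) (le_of_eq ?_) c1, le_scaled (by positivity) (le_of_eq ?_) c2,
    le_scaled (by positivity) (le_of_eq ?_) c3, le_scaled (by positivity) (le_of_eq ?_) c4⟩
  all_goals
    simp only [Nat.cast_mul, Nat.cast_add, Nat.cast_pow, Nat.cast_ofNat, hs]
    rcases eq_or_ne (D : ℝ) 0 with hD | hD
    · simp [hD]
    · field_simp

/-- One level of a critical Poisson tree with parameter in the range of a knot. -/
theorem poiStep {pl ph q : ℕ} (hn0 : 0 < n) (hD : 0 < D) (hn : 2 * n ≤ D) (hpl : 0 < pl)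
    (hq : 0 < q) (ht : TabOK (-((n : ℝ) / D)) t) (hk : poiKnotOK n D pl ph q k = true)
    {l mean : ℝ} (l0 : -(1 / 2) ≤ l) (l1 : l ≤ 1) (hm : 0 ≤ mean) (hml : mean * l ^ 2 = 1)
    (hlo : -((ph : ℝ) / q * ((n : ℝ) / D)) ≤ l) (hhi : l ≤ -((pl : ℝ) / q * ((n : ℝ) / D)))
    (m : ℕ) {u : ℕ × ℕ}
    (hu : BelowS (chanG l0 l1 (poissonLaw_nonneg hm) (hasSum_poissonLaw mean) m) u) :
    BelowS (chanG l0 l1 (poissonLaw_nonneg hm) (hasSum_poissonLaw mean) (m + 1))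
      (nextPoi t k u) := by
  obtain ⟨k0, k1⟩ := knot_bounds hD hn
  simp only [poiKnotOK, Bool.and_eq_true] at hk
  obtain ⟨he1, he2, hcap⟩ := hk
  have hD' : (0 : ℝ) < D := by exact_mod_cast hD
  have hn' : (0 : ℝ) < n := by exact_mod_cast hn0
  have hq' : (0 : ℝ) < q := by exact_mod_cast hq
  have hph : (ph : ℝ) / q ≤ 1 := by
    simp only [endOK, Bool.and_eq_true] at he2
    rw [div_le_one hq']; exact_mod_cast Nat.le_of_ble_eq_true he2.1
  set bl : ℝ := (pl : ℝ) / q with hbl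
  set bh : ℝ := (ph : ℝ) / q with hbh
  have hbl0 : 0 < bl := by rw [hbl]; positivity
  set b : ℝ := -l * D / n with hb
  have hlb : l = b * (-((n : ℝ) / D)) := by rw [hb]; field_simp
  have hn2 : (0 : ℝ) < (n : ℝ) / D := by positivity
  have hb1 : bl ≤ b := by
    rw [hlb] at hhi
    exact le_of_mul_le_mul_right (by linarith : bl * ((n : ℝ) / D) ≤ b * ((n : ℝ) / D)) hn2
  have hb2 : b ≤ bh := by
    rw [hlb] at hlo
    exact le_of_mul_le_mul_right (by linarith : b * ((n : ℝ) / D) ≤ bh * ((n : ℝ) / D)) hn2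
  clear_value b
  subst hlb
  have hb0 : 0 < b := lt_of_lt_of_le hbl0 hb1
  obtain ⟨A, B, hA0, hB0, hs, hA, hB, hc⟩ :=
    child_of_below_mono (hu : Below _ _ _) hb0.le le_rfl (hb2.trans hph) k0 k1 l0 l1
  obtain ⟨θ, t0, t1, hθ⟩ := convex_coord hb1 hb2
  obtain ⟨a1, a2, a3, a4⟩ := end_bounds hn0 hq he1
  obtain ⟨b1, b2, b3, b4⟩ := end_bounds hn0 hq he2
  rw [← hbl] at a1 a2 a3 a4
  rw [← hbh] at b1 b2 b3 b4
  set L : ℝ := (n : ℝ) / D with hL
  have u1 : (0 : ℝ) ≤ (u.1 : ℝ) / SC := div_nonneg (Nat.cast_nonneg _) SC_pos.le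
  have u2 : (0 : ℝ) ≤ (u.2 : ℝ) / SC := div_nonneg (Nat.cast_nonneg _) SC_pos.le
  have hmean : mean = 1 / (b * L) ^ 2 := by
    rw [eq_div_iff (by positivity), ← hml]; ring
  obtain ⟨r1, r2⟩ := k.run_sound u (θ := θ) (A := mean * A) (B := mean * B)
    (a0 := (u.1 : ℝ) / SC) (e0 := (u.2 : ℝ) / SC) t0 t1 le_rfl le_rfl (mul_nonneg hm hB0)
    (by
      refine (mul_le_mul_of_nonneg_left hA hm).trans (le_trans (le_of_eq ?_)
        ((add_le_add (mul_le_mul_of_nonneg_left (add_le_add (mul_le_mul_of_nonneg_left a1 u1)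
          (mul_le_mul_of_nonneg_left a2 u2)) t0) (mul_le_mul_of_nonneg_left (add_le_add
          (mul_le_mul_of_nonneg_left b1 u1) (mul_le_mul_of_nonneg_left b2 u2))
            (sub_nonneg.2 t1))).trans (le_of_eq (by ring))))
      rw [hmean]; simp only [sP, tP]
      field_simp
      rw [hθ]; ring)
    (by
      refine (mul_le_mul_of_nonneg_left hB hm).trans (le_trans (le_of_eq ?_)
        ((add_le_add (mul_le_mul_of_nonneg_left (add_le_add (mul_le_mul_of_nonneg_left a3 u1)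
          (mul_le_mul_of_nonneg_left a4 u2)) t0) (mul_le_mul_of_nonneg_left (add_le_add
          (mul_le_mul_of_nonneg_left b3 u1) (mul_le_mul_of_nonneg_left b4 u2))
            (sub_nonneg.2 t1))).trans (le_of_eq (by ring))))
      rw [hmean]; simp only [sE, tE]
      field_simp
      rw [hθ]; ring)
    (by
      rw [← mul_add]
      refine (mul_le_of_le_one_right hm hs).trans ?_
      rw [hmean]
      refine le_trans (one_div_le_one_div_of_le (by positivity)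
        (pow_le_pow_left₀ (by positivity) (mul_le_mul_of_nonneg_right hb1 hn2.le) 2)) ?_
      refine le_scaled (num := D ^ 2 * q ^ 2) (den := n ^ 2 * pl ^ 2) (by positivity)
        (le_of_eq ?_) hcap
      rw [hL, hbl]; push_cast; field_simp)
  rw [Nat.cast_add, add_div] at r2
  set IA : ℝ := ((k.run u).1 : ℝ) / SC with hIA
  set IB : ℝ := ((k.run u).2 : ℝ) / SC with hIB
  have hIB0 : 0 ≤ IB := div_nonneg (Nat.cast_nonneg _) SC_pos.le
  have hm0 : 0 < mean := lt_of_le_of_ne hm fun h => by rw [← h] at hml; simp at hml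
  set δ := max 0 (B - IB / mean) with hδ
  have hδ0 : 0 ≤ δ := le_max_left _ _
  have hδB : B - δ ≤ IB / mean := by linarith [le_max_right 0 (B - IB / mean)]
  have hδle : δ ≤ B := max_le hB0 (by linarith [div_nonneg hIB0 hm])
  have hA' : mean * (A + δ) ≤ IA := by
    rw [hδ, mul_add, mul_max_of_nonneg _ _ hm, mul_zero, ← max_add_add_left]
    refine max_le (by linarith) ?_
    rw [mul_sub, mul_div_cancel₀ _ hm0.ne']
    linarith
  have hB' : mean * (B - δ) ≤ IB := by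
    have := mul_le_mul_of_nonneg_left hδB hm
    rwa [mul_div_cancel₀ _ hm0.ne'] at this
  have hc2 := hc.shift k0 k1 hδ0
  rw [show 1 - A - B = 1 - (A + δ) - (B - δ) by ring] at hc2
  refine stepPoi_below k0 k1 ht fun g hg => ?_
  exact chanG_poisson_succ l0 l1 hm _ _ m hc2 k0 k1 (by linarith) (by linarith) (by linarith)
    hA' hB' hg

/-! ## Chains -/

/-- A checked chain for a regular tree. -/
theorem regChain {d p q : ℕ} (hd : 0 < d) (hn0 : 0 < n) (hD : 0 < D) (hn : 2 * n ≤ D) (hq : 0 < q)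
    (ht : TabOK (-((n : ℝ) / D)) t) (hk : regKnotOK d n D p q k = true)
    {l : ℝ} (l0 : -(1 / 2) ≤ l) (l1 : l ≤ 1) (hl : l = -(Real.sqrt d)⁻¹)
    {N len : ℕ} {x y : ℕ × ℕ} {L : List (ℕ × ℕ)} (hc : chainTo (nextReg d t k) x L len y = true)
    (hx : BelowS (chanG l0 l1 (regularLaw_nonneg d) (hasSum_regularLaw d) N) x) :
    BelowS (chanG l0 l1 (regularLaw_nonneg d) (hasSum_regularLaw d) (N + len))
      y := by
  simp only [chainTo, Bool.and_eq_true, beq_iff_eq] at hc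
  obtain ⟨hc, rfl, rfl⟩ := hc
  rw [← List.getLast_eq_getLastD (List.cons_ne_nil x L)]
  exact chain_sound (P := fun i s =>
      BelowS (chanG l0 l1 (regularLaw_nonneg d) (hasSum_regularLaw d) i) s)
    (fun i _ _ hu h1 h2 => (regStep hd hn0 hD hn hq ht hk l0 l1 hl i hu).mono
      (div_le_div_of_nonneg_right (Nat.cast_le.2 h1) SC_pos.le)
      (div_le_div_of_nonneg_right (Nat.cast_le.2 h2) SC_pos.le)) L x N hc hx

/-- A checked chain for a critical Poisson tree. -/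
theorem poiChain {pl ph q : ℕ} (hn0 : 0 < n) (hD : 0 < D) (hn : 2 * n ≤ D) (hpl : 0 < pl)
    (hq : 0 < q) (ht : TabOK (-((n : ℝ) / D)) t) (hk : poiKnotOK n D pl ph q k = true)
    {l mean : ℝ} (l0 : -(1 / 2) ≤ l) (l1 : l ≤ 1) (hm : 0 ≤ mean) (hml : mean * l ^ 2 = 1)
    (hlo : -((ph : ℝ) / q * ((n : ℝ) / D)) ≤ l) (hhi : l ≤ -((pl : ℝ) / q * ((n : ℝ) / D)))
    {N len : ℕ} {x y : ℕ × ℕ} {L : List (ℕ × ℕ)} (hc : chainTo (nextPoi t k) x L len y = true)
    (hx : BelowS (chanG l0 l1 (poissonLaw_nonneg hm) (hasSum_poissonLaw mean) N) x) :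
    BelowS (chanG l0 l1 (poissonLaw_nonneg hm) (hasSum_poissonLaw mean) (N + len))
      y := by
  simp only [chainTo, Bool.and_eq_true, beq_iff_eq] at hc
  obtain ⟨hc, rfl, rfl⟩ := hc
  rw [← List.getLast_eq_getLastD (List.cons_ne_nil x L)]
  exact chain_sound (P := fun i s =>
      BelowS (chanG l0 l1 (poissonLaw_nonneg hm) (hasSum_poissonLaw mean) i) s)
    (fun i _ _ hu h1 h2 => (poiStep hn0 hD hn hpl hq ht hk l0 l1 hm hml hlo hhi i hu).mono
      (div_le_div_of_nonneg_right (Nat.cast_le.2 h1) SC_pos.le)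
      (div_le_div_of_nonneg_right (Nat.cast_le.2 h2) SC_pos.le)) L x N hc hx

end Vale.Agent.P154.LN
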