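import Vale.Agent.P154.LN.Basic

/-!
Independent copies of a child observation that is dominated by a mixture of the three extreme
observations seen through the kernel.
-/

namespace Vale.Agent.P154.LN

open Finset

/-- Nonnegative combinations of test functionals. -/
inductive IsComb : ((Fin 3 → ℝ) → ℝ) → Prop
  | test {g} (h : IsTest g) : IsComb g
  | add {g h} (a : IsComb g) (b : IsComb h) : IsComb fun L => g L + h L
  | smul {g} (c : ℝ) (hc : 0 ≤ c) (a : IsComb g) : IsComb fun L => c * g L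

/-- A child observation, the edge included, is dominated by the weights `A, B, C`. -/
def Child (D : Chan) (lam A B C : ℝ) : Prop :=
  ∀ g, IsTest g → D.E g ≤ val A B C fun L => g (mixv lam L)

variable {g h : (Fin 3 → ℝ) → ℝ}

lemma IsComb.nonneg (hg : IsComb g) : ∀ L : Fin 3 → ℝ, (∀ i, 0 ≤ L i) → 0 ≤ g L := by
  induction hg with
  | test h => exact fun L hL => h.nonneg hL
  | add _ _ ih₁ ih₂ => exact fun L hL => add_nonneg (ih₁ L hL) (ih₂ L hL)
  | smul c hc _ ih => exact fun L hL => mul_nonneg hc (ih L hL)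

lemma IsComb.adm (hg : IsComb g) : Adm g := by
  induction hg with
  | test h => exact h.adm
  | add _ _ ih₁ ih₂ =>
    obtain ⟨a, ha⟩ := ih₁
    obtain ⟨b, hb⟩ := ih₂
    exact ⟨a + b, fun L hL => (abs_add_le _ _).trans (by rw [add_mul]; exact add_le_add (ha L hL) (hb L hL))⟩
  | smul c hc _ ih =>
    obtain ⟨a, ha⟩ := ih
    refine ⟨c * a, fun L hL => ?_⟩
    rw [abs_mul, abs_of_nonneg hc, mul_assoc]
    exact mul_le_mul_of_nonneg_left (ha L hL) hc

lemma IsComb.smul_arg (hg : IsComb g) : ∀ (r : ℝ) (L : Fin 3 → ℝ),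
    g (fun i => r * L i) = r * g L := by
  induction hg with
  | test h => exact fun r L => h.smul r L
  | add _ _ ih₁ ih₂ => exact fun r L => by beta_reduce; rw [ih₁, ih₂]; ring
  | smul c hc _ ih => exact fun r L => by beta_reduce; rw [ih]; ring

lemma IsComb.comp_mul (hg : IsComb g) {M : Fin 3 → ℝ} (hM : ∀ i, 0 ≤ M i) :
    IsComb fun L => g fun i => L i * M i := by
  induction hg with
  | test h => exact .test (h.comp_mul hM)
  | add _ _ ih₁ ih₂ => exact ih₁.add ih₂
  | smul c hc _ ih => exact ih.smul c hc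

lemma IsComb.comp_mixv (hg : IsComb g) {lam : ℝ} (h0 : -(1 / 2) ≤ lam) (h1 : lam ≤ 1) :
    IsComb fun L => g (mixv lam L) := by
  induction hg with
  | test h => exact .test (h.comp_mixv h0 h1)
  | add _ _ ih₁ ih₂ => exact ih₁.add ih₂
  | smul c hc _ ih => exact ih.smul c hc

lemma IsComb.eU_le_orb (hg : IsComb g) : ∀ L : Fin 3 → ℝ, (∀ i, 0 ≤ L i) →
    pP L * orb g eU ≤ orb g L := by
  induction hg with
  | test h => exact fun L hL => h.eU_le_orb hL
  | add _ _ ih₁ ih₂ =>
    intro L hL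
    have := ih₁ L hL; have := ih₂ L hL
    simp only [orb_def] at *
    linarith
  | @smul g c hc _ ih =>
    intro L hL
    have := mul_le_mul_of_nonneg_left (ih L hL) hc
    have e : ∀ M, orb (fun L => c * g L) M = c * orb g M := fun M => by simp only [orb_def]; ring
    rw [e, e]; linarith

lemma IsComb.orb_le_eP (hg : IsComb g) : ∀ L : Fin 3 → ℝ, (∀ i, 0 ≤ L i) →
    orb g L ≤ pP L * orb g eP := by
  induction hg with
  | test h => exact fun L hL => h.orb_le_eP hL
  | add _ _ ih₁ ih₂ =>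
    intro L hL
    have := ih₁ L hL; have := ih₂ L hL
    simp only [orb_def] at *
    linarith
  | @smul g c hc _ ih =>
    intro L hL
    have := mul_le_mul_of_nonneg_left (ih L hL) hc
    have e : ∀ M, orb (fun L => c * g L) M = c * orb g M := fun M => by simp only [orb_def]; ring
    rw [e, e]; linarith

lemma avg6_mixv (g : (Fin 3 → ℝ) → ℝ) (lam : ℝ) (L M : Fin 3 → ℝ) :
    avg6 g L (mixv lam M) = orb (fun N => g fun i => L i * mixv lam N i) M := by
  have e : ∀ a b c : ℝ, pP ![a, b, c] = pP M →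
      (fun i => L i * mixv lam ![a, b, c] i) =
        ![L 0 * (lam * a + (1 - lam) * pP M), L 1 * (lam * b + (1 - lam) * pP M),
          L 2 * (lam * c + (1 - lam) * pP M)] := fun a b c h => by
    funext i; fin_cases i <;> simp [mixv, h]
  simp only [orb_def]
  rw [e _ _ _ (by simp [pP]), e _ _ _ (by simp [pP]; ring), e _ _ _ (by simp [pP]; ring),
    e _ _ _ (by simp [pP]; ring), e _ _ _ (by simp [pP]; ring), e _ _ _ (by simp [pP]; ring)]
  simp only [avg6, mixv]

lemma avg6_eU (g : (Fin 3 → ℝ) → ℝ) (L : Fin 3 → ℝ) (lam : ℝ) : avg6 g L (mixv lam eU) = g L := by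
  have e : mixv lam eU = fun _ => 1 := by
    funext i; fin_cases i <;> simp [mixv, pP, eU] <;> norm_num
  simp only [avg6, e, mul_one]
  rw [vec_eta]; ring

/-- `step` preserves nonnegative combinations of tests. -/
lemma IsComb.step (hg : IsComb g) {lam A B C : ℝ} (h0 : -(1 / 2) ≤ lam) (h1 : lam ≤ 1)
    (hA : 0 ≤ A) (hB : 0 ≤ B) (hC : 0 ≤ C) : IsComb (step lam A B C g) := by
  have key : ∀ M : Fin 3 → ℝ, (∀ i, 0 ≤ M i) → IsComb fun L => avg6 g L M := by
    intro M hM
    have h := fun i j k => hg.comp_mul (vec_nonneg (hM i) (hM j) (hM k))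
    have := (((((h 0 1 2).add (h 1 2 0)).add (h 2 0 1)).add (h 1 0 2)).add (h 0 2 1)).add
      (h 2 1 0) |>.smul (1 / 6) (by norm_num)
    convert this using 1
    funext L
    have e : ∀ a b c : ℝ, ![L 0 * a, L 1 * b, L 2 * c] = fun i => L i * ![a, b, c] i :=
      fun a b c => by funext i; fin_cases i <;> rfl
    simp only [avg6, e]; ring
  have kP := (key _ (mixv_nonneg' h0 h1 eP_nonneg)).smul A hA
  have kE := (key _ (mixv_nonneg' h0 h1 eE_nonneg)).smul B hB
  have kU := (key _ (mixv_nonneg' h0 h1 eU_nonneg)).smul C hC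
  exact (kP.add kE).add kU

lemma IsComb.iter (hg : IsComb g) {lam A B C : ℝ} (h0 : -(1 / 2) ≤ lam) (h1 : lam ≤ 1)
    (hA : 0 ≤ A) (hB : 0 ≤ B) (hC : 0 ≤ C) : ∀ k, IsComb ((LN.step lam A B C)^[k] g) := by
  intro k
  induction k with
  | zero => exact hg
  | succ k ih => rw [Function.iterate_succ_apply']; exact ih.step h0 h1 hA hB hC

/-- Larger weights of the same total give more, one child. -/
lemma step_le {lam A B A' B' : ℝ} (h0 : -(1 / 2) ≤ lam) (h1 : lam ≤ 1) (hA : A ≤ A') (hB : B ≤ B')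
    (hg : IsComb g) {L : Fin 3 → ℝ} (hL : ∀ i, 0 ≤ L i) :
    step lam A B (1 - A - B) g L ≤ step lam A' B' (1 - A' - B') g L := by
  have hc : IsComb fun N => g fun i => L i * mixv lam N i := by
    have := (hg.comp_mul hL).comp_mixv h0 h1
    convert this using 1
    funext N
    exact congrArg g (funext fun i => mul_comm _ _)
  have hE := hc.eU_le_orb _ eE_nonneg
  have hP := hc.eU_le_orb _ eP_nonneg
  rw [← avg6_mixv, ← avg6_mixv] at hE hP
  have eE' : pP eE = 1 := by simp [pP, eE]
  have eP' : pP eP = 1 := by simp [pP, eP]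
  rw [eE', one_mul] at hE
  rw [eP', one_mul] at hP
  have := mul_le_mul_of_nonneg_left hP (sub_nonneg.2 hA)
  have := mul_le_mul_of_nonneg_left hE (sub_nonneg.2 hB)
  simp only [step]
  linarith

lemma step_congr_le {lam A B C : ℝ} (h0 : -(1 / 2) ≤ lam) (h1 : lam ≤ 1) (hA : 0 ≤ A) (hB : 0 ≤ B)
    (hC : 0 ≤ C) (hle : ∀ L : Fin 3 → ℝ, (∀ i, 0 ≤ L i) → g L ≤ h L) {L : Fin 3 → ℝ}
    (hL : ∀ i, 0 ≤ L i) : step lam A B C g L ≤ step lam A B C h L := by
  have key : ∀ M : Fin 3 → ℝ, (∀ i, 0 ≤ M i) → avg6 g L M ≤ avg6 h L M := by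
    intro M hM
    have q := fun i j k => hle _ (vec_nonneg (mul_nonneg (hL 0) (hM i)) (mul_nonneg (hL 1) (hM j))
      (mul_nonneg (hL 2) (hM k)))
    have := q 0 1 2; have := q 1 2 0; have := q 2 0 1
    have := q 1 0 2; have := q 0 2 1; have := q 2 1 0
    simp only [avg6]; linarith
  exact add_le_add (add_le_add (mul_le_mul_of_nonneg_left (key _ (mixv_nonneg' h0 h1 eP_nonneg)) hA)
    (mul_le_mul_of_nonneg_left (key _ (mixv_nonneg' h0 h1 eE_nonneg)) hB))
    (mul_le_mul_of_nonneg_left (key _ (mixv_nonneg' h0 h1 eU_nonneg)) hC)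

/-- Larger weights of the same total give more, any number of children. -/
lemma iter_le {lam A B A' B' : ℝ} (h0 : -(1 / 2) ≤ lam) (h1 : lam ≤ 1) (a0 : 0 ≤ A) (b0 : 0 ≤ B)
    (hA : A ≤ A') (hB : B ≤ B') (hs : A' + B' ≤ 1) (hg : IsComb g) :
    ∀ (k : ℕ) (L : Fin 3 → ℝ), (∀ i, 0 ≤ L i) →
      ((step lam A B (1 - A - B))^[k] g) L ≤ ((step lam A' B' (1 - A' - B'))^[k] g) L := by
  intro k
  induction k with
  | zero => exact fun L _ => le_rfl
  | succ k ih =>
    intro L hL
    rw [Function.iterate_succ_apply', Function.iterate_succ_apply']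
    refine (step_congr_le h0 h1 a0 b0 (by linarith) ih hL).trans ?_
    exact step_le h0 h1 hA hB (hg.iter h0 h1 (by linarith) (by linarith) (by linarith) k) hL

lemma child_comb {D : Chan} {lam A B C : ℝ} (hD : Child D lam A B C) (hg : IsComb g) :
    D.E g ≤ val A B C fun L => g (mixv lam L) := by
  induction hg with
  | test h => exact hD _ h
  | @add g h a b ih₁ ih₂ =>
    have e : D.E (fun L => g L + h L) = D.E g + D.E h :=
      ((D.summable a.adm).hasSum.add (D.summable b.adm).hasSum).tsum_eq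
    rw [e]
    simp only [val, orb_def] at *
    linarith
  | @smul g c hc a ih =>
    have e : D.E (fun L => c * g L) = c * D.E g := tsum_mul_left
    rw [e]
    have := mul_le_mul_of_nonneg_left ih hc
    have eo : ∀ M, orb (fun L => c * g (mixv lam L)) M = c * orb (fun L => g (mixv lam L)) M :=
      fun M => by simp only [orb_def]; ring
    simp only [val, eo] at *
    linarith

/-- One child more. -/
lemma star_le_step {D : Chan} {lam A B C : ℝ} (hD : Child D lam A B C) (h0 : -(1 / 2) ≤ lam)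
    (h1 : lam ≤ 1) (hA : 0 ≤ A) (hB : 0 ≤ B) (hC : 0 ≤ C) (E : Chan) (hg : IsComb g) :
    (D.star E).E g ≤ E.E (step lam A B C g) := by
  obtain ⟨c, hc⟩ := hg.adm
  have hs : Summable fun y : D.ι × E.ι => g ((D.star E).V y) := (D.star E).summable hg.adm
  have hs' : Summable fun y : E.ι × D.ι => g ((D.star E).V (y.2, y.1)) :=
    (Equiv.prodComm E.ι D.ι).summable_iff.mpr hs
  have hfib : ∀ z, HasSum (fun y : D.ι => g ((D.star E).V (y, z)))
      (D.E fun L => g fun i => L i * E.V z i) := fun z =>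
    (D.summable (hg.comp_mul (E.nonneg z)).adm).hasSum
  have e : HasSum (fun z => D.E fun L => g fun i => L i * E.V z i) ((D.star E).E g) := by
    have := ((Equiv.prodComm E.ι D.ι).hasSum_iff (f := fun y => g ((D.star E).V y))).mpr hs.hasSum
    exact this.prod_fiberwise hfib
  refine hasSum_le (fun z => ?_) e (E.summable (hg.step h0 h1 hA hB hC).adm).hasSum
  refine (child_comb hD (hg.comp_mul (E.nonneg z))).trans (le_of_eq ?_)
  simp only [val, step, avg6_mixv, mul_comm]

/-- Any number of children. -/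
theorem pw_le_iter {D : Chan} {lam A B C : ℝ} (hD : Child D lam A B C) (h0 : -(1 / 2) ≤ lam)
    (h1 : lam ≤ 1) (hA : 0 ≤ A) (hB : 0 ≤ B) (hC : 0 ≤ C) : ∀ (k : ℕ) (g : (Fin 3 → ℝ) → ℝ),
    IsComb g → (D.pw k).E g ≤ ((step lam A B C)^[k] g) eU := by
  intro k
  induction k with
  | zero =>
    intro g _
    rw [D.E_pw_zero]
    exact le_of_eq (congrArg g (by funext i; fin_cases i <;> simp [eU]))
  | succ k ih =>
    intro g hg
    rw [D.E_pw_succ, Function.iterate_succ_apply]
    exact (star_le_step hD h0 h1 hA hB hC _ hg).trans (ih _ (hg.step h0 h1 hA hB hC))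

end Vale.Agent.P154.LN
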