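import Vale.Agent.P154.LN.CompTab

/-!
Soundness of the fixed-point steps of `LN/Fix.lean`: they give `Below` from the recursion
inequalities.
-/

namespace Vale.Agent.P154.LN

open Finset

/-- Bounds, up to the factor `f`, by three rounded-up weights of total `tot`. -/
def Bd (T : ((Fin 3 → ℝ) → ℝ) → ℝ) (tot f : ℝ) (z : V3) : Prop :=
  ∃ P E U : ℝ, Rep T P E U ∧ P + E + U = tot ∧
    P / f ≤ (z.p : ℝ) / SC ∧ E / f ≤ (z.e : ℝ) / SC ∧ U / f ≤ (z.u : ℝ) / SC

lemma Xi_pP (lam : ℝ) (p q : ℕ) : Xi lam p q pP = 1 := by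
  rw [Xi_op, Module.End.mul_apply, pow_pP (by rw [pP_mixv]; simp [pP, eE]),
    pow_pP (by rw [pP_mixv]; simp [pP, eP])]
  simp [pP, eU]; norm_num

lemma powS_total (lam A B : ℝ) (j : ℕ) :
    powS lam A B j wP + powS lam A B j wE + powS lam A B j wU = (A + B) ^ j := by
  have e : wP + wE + wU = pP := by funext L; simp [wU]
  have : powS lam A B j (wP + wE + wU) = (A + B) ^ j := by
    rw [e, powS_eq, add_pow]
    exact sum_congr rfl fun p _ => by rw [Xi_pP]; ring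
  rw [← this, powS_op, powS_op, powS_op, powS_op, map_add, map_add]
  rfl

variable {lam : ℝ} {t : Tab} {a b : ℕ}

lemma powTab_bd (h0 : -(1 / 2) ≤ lam) (h1 : lam ≤ 1) (ht : TabOK lam t) {j den : ℕ}
    (hj : j ≤ t.J) (hden : 0 < den) :
    Bd (powS lam ((a : ℝ) / SC) ((b : ℝ) / SC) j) (((a : ℝ) / SC + (b : ℝ) / SC) ^ j) den
      (powTab t a b j den) := by
  set A : ℝ := (a : ℝ) / SC with hA
  set B : ℝ := (b : ℝ) / SC with hB
  have A0 : 0 ≤ A := div_nonneg (Nat.cast_nonneg _) SC_pos.le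
  have B0 : 0 ≤ B := div_nonneg (Nat.cast_nonneg _) SC_pos.le
  refine ⟨_, _, _, powS_rep h0 h1 A0 B0 j, powS_total lam A B j, ?_⟩
  have key : ∀ (w : (Fin 3 → ℝ) → ℝ) (g : ℕ → ℕ),
      (∀ p, p ≤ j → Xi lam p (j - p) w ≤ (g p : ℝ) / SC) →
      powS lam A B j w / den ≤ ((cdiv (sumN (fun p => bc j p * a ^ p * b ^ (j - p) * g p) (j + 1))
        (SC ^ j * den) : ℕ) : ℝ) / SC := by
    intro w g hg
    have hS : (SC : ℝ) ≠ 0 := SC_pos.ne'
    rw [le_div_iff₀ SC_pos]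
    refine le_cdiv' (by have : 0 < SC := by norm_num [SC]
                        positivity) ?_
    rw [powS_eq, cast_sumN]
    push_cast
    rw [div_mul_eq_mul_div, sum_mul, sum_div, sum_div]
    refine sum_le_sum fun p hp => ?_
    have hpj : p ≤ j := Nat.lt_succ_iff.1 (mem_range.1 hp)
    rw [bc_eq, hA, hB]
    refine le_trans (div_le_div_of_nonneg_right (mul_le_mul_of_nonneg_right
      (mul_le_mul_of_nonneg_left (hg p hpj) (by positivity)) SC_pos.le) (Nat.cast_nonneg _))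
      (le_of_eq ?_)
    have : (SC : ℝ) ^ j = (SC : ℝ) ^ p * (SC : ℝ) ^ (j - p) := by
      rw [← pow_add]; congr 1; omega
    rw [this, div_pow, div_pow]
    field_simp
  exact ⟨key _ _ fun p hp => (ht.1 p j hp hj).1, key _ _ fun p hp => (ht.1 p j hp hj).2.1,
    key _ _ fun p hp => (ht.1 p j hp hj).2.2⟩

lemma next_coord {A B f : ℝ} (hA : A = (a : ℝ) / SC) (hB : B = (b : ℝ) / SC) (hf : 0 < f)
    {k : ℕ} (hk : 0 < k) {P E U eP' eE' eU' fP fE fU : ℝ} {z : V3} {m1 m2 m3 n1 n2 n3 : ℕ}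
    (hP : P / f ≤ (z.p : ℝ) / SC) (hE : E / f ≤ (z.e : ℝ) / SC) (hU : U / f ≤ (z.u : ℝ) / SC)
    (p0 : 0 ≤ eP') (p1 : 0 ≤ eE') (p2 : 0 ≤ eU') (q0 : 0 ≤ fP) (q1 : 0 ≤ fE) (q2 : 0 ≤ fU)
    (a1 : eP' ≤ (m1 : ℝ) / SC) (a2 : eE' ≤ (m2 : ℝ) / SC) (a3 : eU' ≤ (m3 : ℝ) / SC)
    (b1 : fP ≤ (n1 : ℝ) / SC) (b2 : fE ≤ (n2 : ℝ) / SC) (b3 : fU ≤ (n3 : ℝ) / SC) :
    (P * (A * eP' + B * fP) + E * (A * eE' + B * fE) + U * (A * eU' + B * fU)) / (f * k) ≤
      ((cdiv (z.p * (a * m1 + b * n1) + z.e * (a * m2 + b * n2) + z.u * (a * m3 + b * n3))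
        (SC ^ 2 * k) : ℕ) : ℝ) / SC := by
  have hS := SC_pos
  rw [le_div_iff₀ hS]
  refine le_cdiv' (by have : 0 < SC := by norm_num [SC]
                      positivity) ?_
  push_cast
  have A0 : 0 ≤ A := by rw [hA]; positivity
  have B0 : 0 ≤ B := by rw [hB]; positivity
  have t : ∀ {X x u v m n : ℝ}, X / f ≤ x / SC → 0 ≤ u → 0 ≤ v → u ≤ m / SC → v ≤ n / SC →
      0 ≤ x → X / f * (A * u + B * v) ≤ x / SC * (A * (m / SC) + B * (n / SC)) :=
    fun hX u0 v0 hu hv x0 => mul_le_mul hX (add_le_add (mul_le_mul_of_nonneg_left hu A0)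
      (mul_le_mul_of_nonneg_left hv B0)) (by positivity) (by positivity)
  have T1 := t hP p0 q0 a1 b1 (Nat.cast_nonneg _)
  have T2 := t hE p1 q1 a2 b2 (Nat.cast_nonneg _)
  have T3 := t hU p2 q2 a3 b3 (Nat.cast_nonneg _)
  calc _ = (P / f * (A * eP' + B * fP) + E / f * (A * eE' + B * fE)
          + U / f * (A * eU' + B * fU)) * (SC / k) := by field_simp
    _ ≤ _ := mul_le_mul_of_nonneg_right (add_le_add (add_le_add T1 T2) T3) (by positivity)
    _ = _ := by rw [hA, hB]; field_simp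

lemma next_bd (h0 : -(1 / 2) ≤ lam) (h1 : lam ≤ 1) (ht : TabOK lam t) {j k : ℕ} (hk : 0 < k)
    {f tot : ℝ} (hf : 0 < f) {z : V3}
    (hz : Bd (powS lam ((a : ℝ) / SC) ((b : ℝ) / SC) j) tot f z) :
    Bd (powS lam ((a : ℝ) / SC) ((b : ℝ) / SC) (j + 1)) (tot * ((a : ℝ) / SC + (b : ℝ) / SC))
      (f * k) (next t a b k z) := by
  obtain ⟨P, E, U, hr, htot, hP, hE, hU⟩ := hz
  set A : ℝ := (a : ℝ) / SC with hA
  set B : ℝ := (b : ℝ) / SC with hB
  have A0 : 0 ≤ A := div_nonneg (Nat.cast_nonneg _) SC_pos.le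
  have B0 : 0 ≤ B := div_nonneg (Nat.cast_nonneg _) SC_pos.le
  obtain ⟨-, ⟨⟨x1, x2, x3⟩, ⟨y1, y2, y3⟩, ⟨z1, z2, z3⟩⟩,
    ⟨⟨u1, u2, u3⟩, ⟨v1, v2, v3⟩, ⟨w1, w2, w3⟩⟩⟩ := ht
  have en := fun {c r : Fin 3 → ℝ} (hc : ∀ i, 0 ≤ c i) (hr : ∀ i, 0 ≤ r i) =>
    (⟨entry_nonneg h0 h1 hc hr fun L hL => (w_nonneg hL).1,
      entry_nonneg h0 h1 hc hr fun L hL => (w_nonneg hL).2.1,
      entry_nonneg h0 h1 hc hr fun L hL => (w_nonneg hL).2.2⟩ :
      0 ≤ entry lam c r wP ∧ 0 ≤ entry lam c r wE ∧ 0 ≤ entry lam c r wU)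
  have nPP := en eP_nonneg eP_nonneg; have nPE := en eP_nonneg eE_nonneg
  have nPU := en eP_nonneg eU_nonneg; have nEP := en eE_nonneg eP_nonneg
  have nEE := en eE_nonneg eE_nonneg; have nEU := en eE_nonneg eU_nonneg
  refine ⟨_, _, _, powS_succ_rep h0 h1 A0 B0 hr, ?_, ?_, ?_, ?_⟩
  · have hsum : ∀ c r : Fin 3 → ℝ, entry lam c r wP + entry lam c r wE + entry lam c r wU =
        pP r * pP (mixv lam c) := fun c r => by
      rw [← avg6_pP]; simp only [entry, avg6, wU]; ring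
    have q1 : pP (mixv lam eP) = 1 := by rw [pP_mixv]; simp [pP, eP]
    have q2 : pP (mixv lam eE) = 1 := by rw [pP_mixv]; simp [pP, eE]
    have r1 : pP eP = 1 := by simp [pP, eP]
    have r2 : pP eE = 1 := by simp [pP, eE]
    have r3 : pP eU = 1 := by simp [pP, eU]; norm_num
    have h11 := hsum eP eP; have h12 := hsum eP eE; have h13 := hsum eP eU
    have h21 := hsum eE eP; have h22 := hsum eE eE; have h23 := hsum eE eU
    rw [q1, r1, mul_one] at h11
    rw [q1, r2, mul_one] at h12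
    rw [q1, r3, mul_one] at h13
    rw [q2, r1, mul_one] at h21
    rw [q2, r2, mul_one] at h22
    rw [q2, r3, mul_one] at h23
    rw [← htot]
    linear_combination P * A * h11 + P * B * h21 + E * A * h12 + E * B * h22 + U * A * h13
      + U * B * h23
  · exact next_coord hA hB hf hk hP hE hU nPP.1 nPE.1 nPU.1 nEP.1 nEE.1 nEU.1 x1 y1 z1 u1 v1 w1
  · exact next_coord hA hB hf hk hP hE hU nPP.2.1 nPE.2.1 nPU.2.1 nEP.2.1 nEE.2.1 nEU.2.1
      x2 y2 z2 u2 v2 w2
  · exact next_coord hA hB hf hk hP hE hU nPP.2.2 nPE.2.2 nPU.2.2 nEP.2.2 nEE.2.2 nEU.2.2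
      x3 y3 z3 u3 v3 w3

lemma zR_bd (h0 : -(1 / 2) ≤ lam) (h1 : lam ≤ 1) (ht : TabOK lam t) (j : ℕ) :
    Bd (powS lam ((a : ℝ) / SC) ((b : ℝ) / SC) j) (((a : ℝ) / SC + (b : ℝ) / SC) ^ j) 1
      (zR t a b j) := by
  induction j with
  | zero => simpa [zR] using powTab_bd (a := a) (b := b) h0 h1 ht (Nat.zero_le t.J) one_pos
  | succ j ih =>
    rw [zR]
    cases hb : Nat.ble (j + 1) t.J with
    | true =>
      simpa using powTab_bd (a := a) (b := b) h0 h1 ht (Nat.le_of_ble_eq_true hb) one_pos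
    | false => simpa [pow_succ] using next_bd h0 h1 ht one_pos one_pos ih

lemma zF_bd (h0 : -(1 / 2) ≤ lam) (h1 : lam ≤ 1) (ht : TabOK lam t) (j : ℕ) :
    Bd (powS lam ((a : ℝ) / SC) ((b : ℝ) / SC) j) (((a : ℝ) / SC + (b : ℝ) / SC) ^ j)
      (j.factorial : ℕ) (zF t a b j) := by
  induction j with
  | zero => simpa [zF] using powTab_bd (a := a) (b := b) h0 h1 ht (Nat.zero_le t.J) one_pos
  | succ j ih =>
    rw [zF]
    cases hb : Nat.ble (j + 1) t.J with
    | true =>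
      exact powTab_bd (a := a) (b := b) h0 h1 ht (Nat.le_of_ble_eq_true hb) (Nat.factorial_pos _)
    | false =>
      have := next_bd h0 h1 ht (k := j + 1) (by omega) (by exact_mod_cast Nat.factorial_pos j) ih
      rw [pow_succ, Nat.factorial_succ, Nat.mul_comm, Nat.cast_mul]
      exact this

/-! ## Regular -/

/-- One step with `d` children. -/
theorem stepReg_below (h0 : -(1 / 2) ≤ lam) (h1 : lam ≤ 1) (ht : TabOK lam t) {C : Chan} {d : ℕ}
    (hab : a + b ≤ SC)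
    (hC : ∀ g, IsTest g → C.E g ≤
      ((step lam ((a : ℝ) / SC) ((b : ℝ) / SC) (1 - (a : ℝ) / SC - (b : ℝ) / SC))^[d] g) eU) :
    Below C ((stepReg d t a b).1 / SC) ((stepReg d t a b).2 / SC) := by
  set A : ℝ := (a : ℝ) / SC with hA
  set B : ℝ := (b : ℝ) / SC with hB
  have A0 : 0 ≤ A := div_nonneg (Nat.cast_nonneg _) SC_pos.le
  have B0 : 0 ≤ B := div_nonneg (Nat.cast_nonneg _) SC_pos.le
  have hc : 1 - A - B = ((SC - a - b : ℕ) : ℝ) / SC := by
    rw [Nat.sub_sub, Nat.cast_sub hab, Nat.cast_add, hA, hB]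
    field_simp [SC_pos.ne']
    ring
  choose P E U hr htot hP hE hU using fun j => zR_bd (a := a) (b := b) h0 h1 ht j
  set w : ℕ → ℝ := fun j => (d.choose j : ℝ) * (1 - A - B) ^ (d - j) with hw
  have hC0 : 0 ≤ 1 - A - B := by rw [hc]; positivity
  have w0 : ∀ j, 0 ≤ w j := fun j => mul_nonneg (Nat.cast_nonneg _) (pow_nonneg hC0 _)
  have hsum : ∑ j ∈ range (d + 1), w j * P j + ∑ j ∈ range (d + 1), w j * E j
      + ∑ j ∈ range (d + 1), w j * U j = 1 := by
    rw [← sum_add_distrib, ← sum_add_distrib]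
    calc _ = ∑ j ∈ range (d + 1), (A + B) ^ j * (1 - A - B) ^ (d - j) * (d.choose j : ℝ) :=
          sum_congr rfl fun j _ => by rw [← htot j]; simp only [hw]; ring
      _ = 1 := by rw [← add_pow]; simp
  have bound : ∀ (X : ℕ → ℝ) (z : ℕ → ℕ), (∀ j, X j / 1 ≤ (z j : ℝ) / SC) →
      ∑ j ∈ range (d + 1), w j * X j ≤
        ((cdiv (sumN (fun j => coef d a b j * z j) (d + 1)) (SC ^ d) : ℕ) : ℝ) / SC := by
    intro X z hX
    rw [le_div_iff₀ SC_pos]
    refine le_cdiv' (by have : 0 < SC := by norm_num [SC]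
                        positivity) ?_
    rw [cast_sumN, sum_mul]
    push_cast
    rw [sum_div]
    refine sum_le_sum fun j hj => ?_
    have hjd : j ≤ d := Nat.lt_succ_iff.1 (mem_range.1 hj)
    have := hX j
    rw [div_one] at this
    refine le_trans (mul_le_mul_of_nonneg_right (mul_le_mul_of_nonneg_left this (w0 j)) SC_pos.le)
      (le_of_eq ?_)
    have : (SC : ℝ) ^ d = (SC : ℝ) ^ (d - j) * (SC : ℝ) ^ j := by
      rw [← pow_add]; congr 1; omega
    have hne := SC_pos.ne'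
    simp only [hw, coef, bc_eq, Nat.cast_mul, Nat.cast_pow, hc, div_pow, this]
    field_simp
  have nn : ∀ j, 0 ≤ P j ∧ 0 ≤ E j ∧ 0 ≤ U j := fun j => ⟨(hr j).1, (hr j).2.1, (hr j).2.2.1⟩
  refine ⟨∑ j ∈ range (d + 1), w j * P j, ∑ j ∈ range (d + 1), w j * E j, bound _ _ hP,
    bound _ _ hE, ?_, ?_, ?_, ?_, fun g hg => ?_⟩
  · have : 0 ≤ ∑ j ∈ range (d + 1), w j * U j :=
      sum_nonneg fun j _ => mul_nonneg (w0 j) (nn j).2.2
    linarith
  · exact sum_nonneg fun j _ => mul_nonneg (w0 j) (nn j).1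
  · exact sum_nonneg fun j _ => mul_nonneg (w0 j) (nn j).2.1
  · have : 0 ≤ ∑ j ∈ range (d + 1), w j * U j :=
      sum_nonneg fun j _ => mul_nonneg (w0 j) (nn j).2.2
    linarith
  · refine (hC g hg).trans ?_
    rw [step_pow, show (1 : ℝ) - ∑ j ∈ range (d + 1), w j * P j - ∑ j ∈ range (d + 1), w j * E j
      = ∑ j ∈ range (d + 1), w j * U j by linarith, val, sum_mul, sum_mul, sum_mul,
      ← sum_add_distrib, ← sum_add_distrib]
    refine sum_le_sum fun j _ => le_trans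
      (mul_le_mul_of_nonneg_left ((hr j).2.2.2 g hg) (w0 j)) (le_of_eq ?_)
    simp only [val]; ring

/-! ## Poisson -/

lemma expLo_le (s j : ℕ) : (expLo s j : ℝ) / SC ≤ ((s : ℝ) / SC) ^ j / (j.factorial : ℕ) := by
  have hS := SC_pos
  induction j with
  | zero => simp [expLo, hS.ne']
  | succ j ih =>
    rw [expLo]
    refine le_trans (div_le_div_of_nonneg_right Nat.cast_div_le hS.le) ?_
    push_cast [Nat.factorial_succ]
    rw [pow_succ]
    calc _ = (expLo s j : ℝ) / SC * ((s : ℝ) / SC / (j + 1)) := by field_simp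
      _ ≤ ((s : ℝ) / SC) ^ j / (j.factorial : ℕ) * ((s : ℝ) / SC / (j + 1)) :=
          mul_le_mul_of_nonneg_right ih (by positivity)
      _ = _ := by field_simp

lemma le_expHi (s j : ℕ) : ((s : ℝ) / SC) ^ j / (j.factorial : ℕ) ≤ (expHi s j : ℝ) / SC := by
  have hS := SC_pos
  induction j with
  | zero => simp [expHi, hS.ne']
  | succ j ih =>
    rw [expHi]
    refine le_trans ?_ (div_le_div_of_nonneg_right (le_cdiv (by
      have : 0 < SC := by norm_num [SC]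
      positivity)) hS.le)
    push_cast [Nat.factorial_succ]
    rw [pow_succ]
    calc _ = ((s : ℝ) / SC) ^ j / (j.factorial : ℕ) * ((s : ℝ) / SC / (j + 1)) := by field_simp
      _ ≤ (expHi s j : ℝ) / SC * ((s : ℝ) / SC / (j + 1)) :=
          mul_le_mul_of_nonneg_right ih (by positivity)
      _ = _ := by field_simp

lemma cut_ok (s : ℕ) : s < (cut s + 2) * SC := by
  have hS : 0 < SC := by norm_num [SC]
  have := Nat.lt_mul_div_succ s hS
  have : SC * (s / SC + 1) ≤ (cut s + 2) * SC := by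
    rw [Nat.mul_comm]; exact Nat.mul_le_mul_right _ (by simp only [cut]; omega)
  omega

lemma geom_tail {x : ℝ} (x0 : 0 ≤ x) (m : ℕ) (hr : x / (m + 1 : ℕ) < 1) :
    ∑' i : ℕ, x ^ (i + m) / ((i + m).factorial : ℕ) ≤
      x ^ m / (m.factorial : ℕ) * (1 - x / (m + 1 : ℕ))⁻¹ := by
  have h1 : ∀ i : ℕ, x ^ (i + m) / ((i + m).factorial : ℕ) ≤
      x ^ m / (m.factorial : ℕ) * (x / (m + 1 : ℕ)) ^ i := fun i => by
    have h : ((m.factorial * (m + 1) ^ i : ℕ) : ℝ) ≤ ((i + m).factorial : ℕ) := by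
      rw [Nat.cast_le, Nat.add_comm i m]
      exact Nat.factorial_mul_pow_le_factorial
    have hpos : (0 : ℝ) < ((m.factorial * (m + 1) ^ i : ℕ) : ℝ) :=
      Nat.cast_pos.2 (Nat.mul_pos (Nat.factorial_pos m) (pow_pos m.succ_pos i))
    refine le_trans (div_le_div_of_nonneg_left (pow_nonneg x0 _) hpos h) (le_of_eq ?_)
    rw [div_pow, pow_add, Nat.cast_mul, Nat.cast_pow]
    field_simp
  refine (Summable.tsum_le_tsum h1 ((Real.summable_pow_div_factorial x).comp_injective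
    (add_left_injective m))
    ((summable_geometric_of_lt_one (div_nonneg x0 (Nat.cast_nonneg _)) hr).mul_left _)).trans ?_
  rw [tsum_mul_left, tsum_geometric_of_lt_one (div_nonneg x0 (Nat.cast_nonneg _)) hr]

lemma exp_tail (s : ℕ) :
    ∑' i : ℕ, ((s : ℝ) / SC) ^ (i + (cut s + 1)) / ((i + (cut s + 1)).factorial : ℕ) ≤
      (expTail s : ℝ) / SC := by
  have hS := SC_pos
  have hr : (s : ℝ) / SC / ((cut s + 1 + 1 : ℕ) : ℝ) < 1 := by
    rw [div_lt_one (Nat.cast_pos.2 (Nat.succ_pos _)), div_lt_iff₀ hS]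
    have : (s : ℝ) < (((cut s + 2) * SC : ℕ) : ℝ) := Nat.cast_lt.2 (cut_ok s)
    push_cast at this ⊢
    linarith
  refine (geom_tail (div_nonneg (Nat.cast_nonneg _) hS.le) _ hr).trans ?_
  refine le_trans (mul_le_mul_of_nonneg_right (le_expHi s (cut s + 1))
    (inv_nonneg.2 (sub_nonneg.2 hr.le))) ?_
  rw [expTail, le_div_iff₀ hS]
  refine le_trans (le_of_eq ?_) (le_cdiv (by have := cut_ok s; omega))
  have hlt := cut_ok s
  have hne : ((cut s : ℝ) + 2) * SC - s ≠ 0 := by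
    have : (s : ℝ) < (((cut s + 2) * SC : ℕ) : ℝ) := by exact_mod_cast hlt
    push_cast at this
    linarith
  rw [Nat.cast_mul, Nat.cast_sub hlt.le]
  push_cast
  rw [show (cut s : ℝ) + 1 + 1 = cut s + 2 by ring]
  have : (cut s : ℝ) + 2 ≠ 0 := by positivity
  field_simp

/-- One step with a Poisson number of children of intensities `a, b`. -/
theorem stepPoi_below (h0 : -(1 / 2) ≤ lam) (h1 : lam ≤ 1) (ht : TabOK lam t) {C : Chan}
    (hC : ∀ g, IsTest g → C.E g ≤ ∑' j : ℕ, Real.exp (-((a : ℝ) / SC + (b : ℝ) / SC))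
      * powS lam ((a : ℝ) / SC) ((b : ℝ) / SC) j g / j.factorial) :
    Below C ((stepPoi t a b).1 / SC) ((stepPoi t a b).2 / SC) := by
  set A : ℝ := (a : ℝ) / SC with hA
  set B : ℝ := (b : ℝ) / SC with hB
  have hS := SC_pos
  have A0 : 0 ≤ A := div_nonneg (Nat.cast_nonneg _) hS.le
  have B0 : 0 ≤ B := div_nonneg (Nat.cast_nonneg _) hS.le
  choose P E U hr htot hP hE hU using fun j => zF_bd (a := a) (b := b) h0 h1 ht j
  set K := cut (a + b) with hK
  set x : ℝ := A + B with hx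
  have hxs : ((a + b : ℕ) : ℝ) / SC = x := by rw [Nat.cast_add, add_div]
  set e : ℝ := Real.exp (-x) with he
  have e0 : 0 < e := Real.exp_pos _
  -- coefficients: exact up to the cut, everything to `eP` after it
  set PP : ℕ → ℝ := fun j => if j ≤ K then P j else x ^ j with hPP
  set EE : ℕ → ℝ := fun j => if j ≤ K then E j else 0 with hEE
  set UU : ℕ → ℝ := fun j => if j ≤ K then U j else 0 with hUU
  have x0 : 0 ≤ x := add_nonneg A0 B0
  have nn : ∀ j, 0 ≤ PP j ∧ 0 ≤ EE j ∧ 0 ≤ UU j ∧ PP j + EE j + UU j = x ^ j := fun j => by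
    simp only [hPP, hEE, hUU]
    split_ifs
    · exact ⟨(hr j).1, (hr j).2.1, (hr j).2.2.1, htot j⟩
    · exact ⟨pow_nonneg x0 _, le_rfl, le_rfl, by ring⟩
  have sx := Real.summable_pow_div_factorial x
  have sm : ∀ X : ℕ → ℝ, (∀ j, 0 ≤ X j) → (∀ j, X j ≤ x ^ j) →
      Summable fun j => X j / (j.factorial : ℕ) := fun X p q =>
    Summable.of_nonneg_of_le (fun j => div_nonneg (p j) (Nat.cast_nonneg _))
      (fun j => div_le_div_of_nonneg_right (q j) (Nat.cast_nonneg _)) sx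
  have sP := sm PP (fun j => (nn j).1) fun j => by
    linarith [(nn j).2.2.2, (nn j).2.1, (nn j).2.2.1]
  have sE := sm EE (fun j => (nn j).2.1) fun j => by
    linarith [(nn j).2.2.2, (nn j).1, (nn j).2.2.1]
  have sU := sm UU (fun j => (nn j).2.2.1) fun j => by
    linarith [(nn j).2.2.2, (nn j).1, (nn j).2.1]
  set α := e * ∑' j, PP j / (j.factorial : ℕ) with hα
  set β := e * ∑' j, EE j / (j.factorial : ℕ) with hβ
  set γ := e * ∑' j, UU j / (j.factorial : ℕ) with hγ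
  have one : α + β + γ = 1 := by
    rw [hα, hβ, hγ, ← mul_add, ← mul_add, ← sP.tsum_add sE, ← (sP.add sE).tsum_add sU]
    rw [tsum_congr (g := fun j => x ^ j / (j.factorial : ℕ)) fun j => by
      rw [← add_div, ← add_div, (nn j).2.2.2]]
    rw [← congrFun NormedSpace.exp_eq_tsum_div x, ← Real.exp_eq_exp_ℝ, he, ← Real.exp_add]
    simp
  -- the lower bound of the exponential
  set L : ℕ := sumN (expLo (a + b)) (K + 1) with hL
  have L0 : 0 < L := by
    have : ∀ n, SC ≤ sumN (expLo (a + b)) (n + 1) := fun n => by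
      induction n with
      | zero => simp [sumN, expLo]
      | succ n ih => rw [sumN]; omega
    exact lt_of_lt_of_le (by norm_num [SC]) (this K)
  have L0' : (0 : ℝ) < L := by exact_mod_cast L0
  have eb : e ≤ (SC : ℝ) / L := by
    have : (L : ℝ) / SC ≤ Real.exp x := by
      rw [hL, cast_sumN, sum_div]
      refine le_trans (sum_le_sum fun j _ => ?_) (Real.sum_le_exp_of_nonneg x0 (K + 1))
      exact hxs ▸ expLo_le (a + b) j
    rw [he, Real.exp_neg, inv_le_comm₀ (Real.exp_pos _) (by positivity), inv_div]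
    exact this
  have fin : ∀ (X : ℕ → ℝ) (z : ℕ → ℕ) (r : ℕ), (∀ j, 0 ≤ X j) →
      (∀ j, X j / (j.factorial : ℕ) ≤ (z j : ℝ) / SC) → ∀ R : ℝ, 0 ≤ R → R ≤ (r : ℝ) / SC →
      e * (∑ j ∈ range (K + 1), X j / (j.factorial : ℕ) + R) ≤
        ((cdiv ((sumN z (K + 1) + r) * SC) L : ℕ) : ℝ) / SC := by
    intro X z r X0 hX R R0 hR
    have hh : ∑ j ∈ range (K + 1), X j / (j.factorial : ℕ) + R ≤
        ((sumN z (K + 1) + r : ℕ) : ℝ) / SC := by
      rw [Nat.cast_add, add_div, cast_sumN, sum_div]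
      exact add_le_add (sum_le_sum fun j _ => hX j) hR
    refine le_trans (mul_le_mul eb hh (add_nonneg (sum_nonneg fun j _ =>
      div_nonneg (X0 j) (Nat.cast_nonneg _)) R0) (by positivity)) ?_
    rw [le_div_iff₀ hS]
    refine le_cdiv' L0 (le_of_eq ?_)
    rw [Nat.cast_mul]
    field_simp
  have bα : α ≤ ((stepPoi t a b).1 : ℝ) / SC := by
    rw [hα, ← sP.sum_add_tsum_nat_add (K + 1)]
    refine le_trans (le_of_eq ?_) (fin P (fun j => (zF t a b j).p) (expTail (a + b))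
      (fun j => (hr j).1) hP _ (tsum_nonneg fun i => by positivity) (hxs ▸ exp_tail (a + b)))
    congr 2
    · exact sum_congr rfl fun j hj => by
        simp only [hPP]; rw [if_pos (Nat.lt_succ_iff.1 (mem_range.1 hj))]
    · exact tsum_congr fun i => by
        simp only [hPP]; rw [if_neg (by omega), ← hxs]
  have bβ : β ≤ ((stepPoi t a b).2 : ℝ) / SC := by
    rw [hβ, tsum_eq_sum (s := range (K + 1)) fun j hj => by
      simp only [hEE]; rw [if_neg (by simpa using hj)]; simp]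
    refine le_trans (le_of_eq ?_) (le_trans (fin E (fun j => (zF t a b j).e) 0
      (fun j => (hr j).2.1) hE 0 le_rfl (by simp)) (le_of_eq (by rw [stepPoi, add_zero])))
    rw [add_zero]
    congr 1
    exact sum_congr rfl fun j hj => by
      simp only [hEE]; rw [if_pos (Nat.lt_succ_iff.1 (mem_range.1 hj))]
  have a0 : 0 ≤ α := mul_nonneg e0.le (tsum_nonneg fun j => div_nonneg (nn j).1 (Nat.cast_nonneg _))
  have b0 : 0 ≤ β :=
    mul_nonneg e0.le (tsum_nonneg fun j => div_nonneg (nn j).2.1 (Nat.cast_nonneg _))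
  have c0 : 0 ≤ γ :=
    mul_nonneg e0.le (tsum_nonneg fun j => div_nonneg (nn j).2.2.1 (Nat.cast_nonneg _))
  refine ⟨α, β, bα, bβ, by linarith, a0, b0, by linarith, fun g hg => ?_⟩
  rw [show 1 - α - β = γ by linarith]
  have le1 : ∀ j, powS lam A B j g ≤ val (PP j) (EE j) (UU j) g := fun j => by
    simp only [hPP, hEE, hUU]
    split_ifs
    · exact (hr j).2.2.2 g hg
    · simpa [val, hx] using powS_tail h0 h1 A0 B0 j hg
  have sv : Summable fun j => e * (PP j / (j.factorial : ℕ) * orb g eP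
      + EE j / (j.factorial : ℕ) * orb g eE + UU j / (j.factorial : ℕ) * orb g eU) :=
    (((sP.mul_right _).add (sE.mul_right _)).add (sU.mul_right _)).mul_left e
  have le2 : ∀ j : ℕ, e * powS lam A B j g / (j.factorial : ℕ) ≤ e * (PP j / (j.factorial : ℕ)
      * orb g eP + EE j / (j.factorial : ℕ) * orb g eE + UU j / (j.factorial : ℕ) * orb g eU) :=
    fun j => le_trans (div_le_div_of_nonneg_right (mul_le_mul_of_nonneg_left (le1 j) e0.le)
      (Nat.cast_nonneg _)) (le_of_eq (by simp only [val]; ring))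
  have sl : Summable fun j : ℕ => e * powS lam A B j g / (j.factorial : ℕ) :=
    Summable.of_nonneg_of_le (fun j => div_nonneg (mul_nonneg e0.le
      (powS_nonneg h0 h1 A0 B0 j hg)) (Nat.cast_nonneg _)) le2 sv
  refine (hC g hg).trans ((sl.tsum_le_tsum le2 sv).trans (le_of_eq ?_))
  rw [tsum_mul_left, ((sP.mul_right _).add (sE.mul_right _)).tsum_add (sU.mul_right _),
    (sP.mul_right _).tsum_add (sE.mul_right _), tsum_mul_right, tsum_mul_right, tsum_mul_right]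
  simp only [val, hα, hβ, hγ]
  ring

/-! ## States -/

/-- The child map dominates every convex combination of its two ends, below the cap. -/
theorem Knot.run_sound (k : Knot) (s : ℕ × ℕ) {θ A B a0 e0 : ℝ} (t0 : 0 ≤ θ) (t1 : θ ≤ 1)
    (ha : a0 ≤ (s.1 : ℝ) / SC) (he : e0 ≤ (s.2 : ℝ) / SC) (hB0 : 0 ≤ B)
    (hA : A ≤ θ * (a0 * k.lo.1 / SC + e0 * k.lo.2.1 / SC)
      + (1 - θ) * (a0 * k.hi.1 / SC + e0 * k.hi.2.1 / SC))
    (hB : B ≤ θ * (a0 * k.lo.2.2.1 / SC + e0 * k.lo.2.2.2 / SC)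
      + (1 - θ) * (a0 * k.hi.2.2.1 / SC + e0 * k.hi.2.2.2 / SC))
    (hcap : A + B ≤ (k.cap : ℝ) / SC) :
    A ≤ ((k.run s).1 : ℝ) / SC ∧
      A + B ≤ (((k.run s).1 + (k.run s).2 : ℕ) : ℝ) / SC := by
  have hS := SC_pos
  have hS' : 0 < SC := by norm_num [SC]
  have one : ∀ c1 c2 : ℕ,
      a0 * c1 / SC + e0 * c2 / SC ≤ ((cdiv (s.1 * c1 + s.2 * c2) SC : ℕ) : ℝ) / SC := by
    intro c1 c2
    rw [← add_div]
    refine div_le_div_of_nonneg_right (le_trans ?_ (le_cdiv hS')) hS.le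
    push_cast
    rw [le_div_iff₀ hS] at ha he
    rw [le_div_iff₀ hS]
    linarith [mul_le_mul_of_nonneg_right ha (Nat.cast_nonneg (α := ℝ) c1),
      mul_le_mul_of_nonneg_right he (Nat.cast_nonneg (α := ℝ) c2)]
  have two : ∀ (l1 l2 h1 h2 : ℕ) {X : ℝ}, X ≤ θ * (a0 * l1 / SC + e0 * l2 / SC)
      + (1 - θ) * (a0 * h1 / SC + e0 * h2 / SC) →
      X ≤ ((max (cdiv (s.1 * l1 + s.2 * l2) SC) (cdiv (s.1 * h1 + s.2 * h2) SC) : ℕ) : ℝ) / SC := by
    intro l1 l2 h1 h2 X hX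
    rw [Nat.cast_max, ← max_div_div_right hS.le]
    have := mul_le_mul_of_nonneg_left ((one l1 l2).trans (le_max_left _
      ((cdiv (s.1 * h1 + s.2 * h2) SC : ℝ) / SC))) t0
    have := mul_le_mul_of_nonneg_left ((one h1 h2).trans (le_max_right
      ((cdiv (s.1 * l1 + s.2 * l2) SC : ℝ) / SC) _)) (sub_nonneg.2 t1)
    linarith
  have hA' := two _ _ _ _ hA
  have hB' := two _ _ _ _ hB
  simp only [Knot.run]
  set X := max (cdiv (s.1 * k.lo.1 + s.2 * k.lo.2.1) SC) (cdiv (s.1 * k.hi.1 + s.2 * k.hi.2.1) SC)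
  set Y := max (cdiv (s.1 * k.lo.2.2.1 + s.2 * k.lo.2.2.2) SC)
    (cdiv (s.1 * k.hi.2.2.1 + s.2 * k.hi.2.2.2) SC)
  rcases le_total k.cap X with h | h
  · rw [min_eq_left h, Nat.sub_self, Nat.zero_min, Nat.add_zero]
    exact ⟨le_trans (by linarith) hcap, hcap⟩
  · rw [min_eq_right h]
    refine ⟨hA', ?_⟩
    rcases le_total (k.cap - X) Y with h' | h'
    · rw [min_eq_left h', Nat.add_sub_cancel' h]; exact hcap
    · rw [min_eq_right h', Nat.cast_add, add_div]; linarith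

/-- The child weights respect the cap. -/
theorem Knot.run_le (k : Knot) (s : ℕ × ℕ) : (k.run s).1 + (k.run s).2 ≤ k.cap := by
  simp only [Knot.run]
  omega

/-- A checked chain propagates an invariant. -/
theorem chain_sound {f : ℕ × ℕ → ℕ × ℕ} {P : ℕ → ℕ × ℕ → Prop}
    (hstep : ∀ n u v, P n u → (f u).1 ≤ v.1 → (f u).2 ≤ v.2 → P (n + 1) v) :
    ∀ (l : List (ℕ × ℕ)) (x : ℕ × ℕ) (n : ℕ), chainOK f (x :: l) = true → P n x →
      P (n + l.length) ((x :: l).getLast (List.cons_ne_nil x l))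
  | [], x, n, _, hx => hx
  | y :: l, x, n, h, hx => by
    simp only [chainOK, pairLE, Bool.and_eq_true, Nat.ble_eq] at h
    have := chain_sound hstep l y (n + 1) h.2 (hstep n x y hx h.1.1 h.1.2)
    rw [List.getLast_cons (List.cons_ne_nil y l)]
    simpa [Nat.add_assoc, Nat.add_comm 1] using this

end Vale.Agent.P154.LN
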