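import Mathlib

/-!
Fixed-point evaluation, in natural numbers of scale `SC` and rounded upwards, of one step of the
three-type recursion. All functions here are meant to be evaluated by the kernel.
-/

namespace Vale.Agent.P154.LN

/-- The scale. -/
def SC : ℕ := 10 ^ 12

/-- Division rounded upwards. -/
def cdiv (a b : ℕ) : ℕ := (a + (b - 1)) / b

/-- Sum of `f` below `n`. -/
def sumN (f : ℕ → ℕ) : ℕ → ℕ
  | 0 => 0
  | n + 1 => sumN f n + f n

/-- Binomial coefficient. -/
def bc (j p : ℕ) : ℕ := j.descFactorial p / p.factorial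

/-- Three weights, of `eP, eE, eU`. -/
structure V3 where
  p : ℕ
  e : ℕ
  u : ℕ
deriving DecidableEq

/-- Zero weights. -/
def V3.zero : V3 := ⟨0, 0, 0⟩

/-- The tables of one knot: the values up to `J` children and the two one-child matrices. -/
structure Tab where
  J : ℕ
  rows : List (List V3)
  mP : V3 × V3 × V3
  mE : V3 × V3 × V3
deriving DecidableEq

/-! ## Merged atom lists -/

/-- An atom: a multiplicity and a sorted integer vector. -/
abbrev Atom := ℕ × V3

/-- Sort three numbers. -/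
def sort3 (a b c : ℕ) : V3 :=
  bif Nat.ble a b then
    bif Nat.ble b c then ⟨a, b, c⟩ else bif Nat.ble a c then ⟨a, c, b⟩ else ⟨c, a, b⟩
  else
    bif Nat.ble a c then ⟨b, a, c⟩ else bif Nat.ble b c then ⟨b, c, a⟩ else ⟨c, b, a⟩

/-- Equality test of vectors. -/
def V3.eqb (x y : V3) : Bool := x.p == y.p && (x.e == y.e && x.u == y.u)

/-- Add an atom to a list, merging equal vectors. -/
def ins (w : ℕ) (k : V3) : List Atom → List Atom
  | [] => [(w, k)]
  | x :: l => bif k.eqb x.2 then (w + x.1, x.2) :: l else x :: ins w k l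

/-- Multiply every atom by the three rearrangements of `(a, b, b)`. -/
def expand (a b : ℕ) : List Atom → List Atom
  | [] => []
  | x :: l =>
    ins x.1 (sort3 (x.2.p * a) (x.2.e * b) (x.2.u * b))
      (ins x.1 (sort3 (x.2.p * b) (x.2.e * a) (x.2.u * b))
        (ins x.1 (sort3 (x.2.p * b) (x.2.e * b) (x.2.u * a)) (expand a b l)))

/-- `2 D` times the first child vector at parameter `-n / D`: one coordinate. -/
def cPa (n D : ℕ) : ℕ := 2 * D - 4 * n
/-- The two other coordinates. -/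
def cPb (n D : ℕ) : ℕ := 2 * D + 2 * n
/-- `2 D` times the second child vector: one coordinate. -/
def cEa (n D : ℕ) : ℕ := 2 * D + 2 * n
/-- The two other coordinates. -/
def cEb (n D : ℕ) : ℕ := 2 * D - n

/-- Atoms of `p` children of the first kind. -/
def atomsP (n D : ℕ) : ℕ → List Atom
  | 0 => [(1, ⟨1, 1, 1⟩)]
  | p + 1 => expand (cPa n D) (cPb n D) (atomsP n D p)

/-- Atoms of `p` children of the first kind and `q` of the second. -/
def atomsPE (n D p : ℕ) : ℕ → List Atom
  | 0 => atomsP n D p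
  | q + 1 => expand (cEa n D) (cEb n D) (atomsPE n D p q)

/-- Weight of `eP`, times `den`, in scale `SC`, rounded up. -/
def upP (k : V3) (w den : ℕ) : ℕ :=
  cdiv (w * SC * (6 * (k.p ^ 3 + k.e ^ 3 + k.u ^ 3) + (k.p + k.e + k.u) ^ 3
      - 5 * ((k.p ^ 2 + k.e ^ 2 + k.u ^ 2) * (k.p + k.e + k.u))))
    (6 * (k.p + k.e + k.u) ^ 2 * den)

/-- Weight of `eE`. -/
def upE (k : V3) (w den : ℕ) : ℕ :=
  cdiv (w * SC * (16 * ((k.p ^ 2 + k.e ^ 2 + k.u ^ 2) * (k.p + k.e + k.u))
      - (12 * (k.p ^ 3 + k.e ^ 3 + k.u ^ 3) + 4 * (k.p + k.e + k.u) ^ 3)))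
    (3 * (k.p + k.e + k.u) ^ 2 * den)

/-- Weight of `eU`. -/
def upU (k : V3) (w den : ℕ) : ℕ :=
  cdiv (w * SC * (9 * (k.p * k.e * k.u))) ((k.p + k.e + k.u) ^ 2 * den)

/-- Totals of an atom list with common denominator `den`. -/
def totals (den : ℕ) : List Atom → V3
  | [] => V3.zero
  | x :: l => ⟨upP x.2 x.1 den + (totals den l).p, upE x.2 x.1 den + (totals den l).e,
      upU x.2 x.1 den + (totals den l).u⟩

/-- One entry of the table. -/
def tabEntry (n D p q : ℕ) : V3 := totals ((6 * D) ^ (p + q)) (atomsPE n D p q)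

/-- One matrix: the rows for a parent `eP`, `eE`, `eU`. -/
def matOf (D a b : ℕ) : V3 × V3 × V3 :=
  (totals (6 * D) (expand a b [(1, ⟨3, 0, 0⟩)]),
    totals (12 * D) (expand a b [(1, ⟨0, 3, 3⟩)]),
    totals (6 * D) (expand a b [(1, ⟨1, 1, 1⟩)]))

/-- The tables at parameter `-n / D`. -/
def mkTab (n D J : ℕ) : Tab :=
  ⟨J, (List.range (J + 1)).map fun j => (List.range (j + 1)).map fun p => tabEntry n D p (j - p),
    matOf D (cPa n D) (cPb n D), matOf D (cEa n D) (cEb n D)⟩

/-! ## One step -/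

/-- A table value. -/
def Tab.at' (t : Tab) (p j : ℕ) : V3 := (t.rows.getD j []).getD p V3.zero

/-- Values for `j` children read from the table; `den` is `1` or `j!`. -/
def powTab (t : Tab) (A B j den : ℕ) : V3 :=
  ⟨cdiv (sumN (fun p => bc j p * A ^ p * B ^ (j - p) * (t.at' p j).p) (j + 1)) (SC ^ j * den),
    cdiv (sumN (fun p => bc j p * A ^ p * B ^ (j - p) * (t.at' p j).e) (j + 1)) (SC ^ j * den),
    cdiv (sumN (fun p => bc j p * A ^ p * B ^ (j - p) * (t.at' p j).u) (j + 1)) (SC ^ j * den)⟩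

/-- One more child. -/
def next (t : Tab) (A B k : ℕ) (z : V3) : V3 :=
  ⟨cdiv (z.p * (A * t.mP.1.p + B * t.mE.1.p) + z.e * (A * t.mP.2.1.p + B * t.mE.2.1.p)
      + z.u * (A * t.mP.2.2.p + B * t.mE.2.2.p)) (SC ^ 2 * k),
    cdiv (z.p * (A * t.mP.1.e + B * t.mE.1.e) + z.e * (A * t.mP.2.1.e + B * t.mE.2.1.e)
      + z.u * (A * t.mP.2.2.e + B * t.mE.2.2.e)) (SC ^ 2 * k),
    cdiv (z.p * (A * t.mP.1.u + B * t.mE.1.u) + z.e * (A * t.mP.2.1.u + B * t.mE.2.1.u)
      + z.u * (A * t.mP.2.2.u + B * t.mE.2.2.u)) (SC ^ 2 * k)⟩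

/-- Bounds for `powS`, `j` children. -/
def zR (t : Tab) (A B : ℕ) : ℕ → V3
  | 0 => powTab t A B 0 1
  | j + 1 => bif Nat.ble (j + 1) t.J then powTab t A B (j + 1) 1
      else next t A B 1 (zR t A B j)

/-- Bounds for `powS / j!`. -/
def zF (t : Tab) (A B : ℕ) : ℕ → V3
  | 0 => powTab t A B 0 1
  | j + 1 => bif Nat.ble (j + 1) t.J then powTab t A B (j + 1) (j + 1).factorial
      else next t A B (j + 1) (zF t A B j)

/-- The weight of exactly `j` informative children among `d`, times `SC ^ d`. -/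
def coef (d A B j : ℕ) : ℕ := bc d j * (SC - A - B) ^ (d - j) * SC ^ j

/-- One step with `d` children, child weights `A, B` with `A + B ≤ SC`. -/
def stepReg (d : ℕ) (t : Tab) (A B : ℕ) : ℕ × ℕ :=
  (cdiv (sumN (fun j => coef d A B j * (zR t A B j).p) (d + 1)) (SC ^ d),
    cdiv (sumN (fun j => coef d A B j * (zR t A B j).e) (d + 1)) (SC ^ d))

/-- Terms of the exponential series, rounded down. -/
def expLo (s : ℕ) : ℕ → ℕ
  | 0 => SC
  | j + 1 => expLo s j * s / (SC * (j + 1))

/-- Terms of the exponential series, rounded up. -/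
def expHi (s : ℕ) : ℕ → ℕ
  | 0 => SC
  | j + 1 => cdiv (expHi s j * s) (SC * (j + 1))

/-- The number of terms kept. -/
def cut (s : ℕ) : ℕ := 2 * (s / SC) + 16

/-- Bound for the tail of the exponential series after the kept terms. -/
def expTail (s : ℕ) : ℕ :=
  cdiv (expHi s (cut s + 1) * ((cut s + 2) * SC)) ((cut s + 2) * SC - s)

/-- One step with a Poisson number of children, intensities `A, B`. -/
def stepPoi (t : Tab) (A B : ℕ) : ℕ × ℕ :=
  (cdiv ((sumN (fun j => (zF t A B j).p) (cut (A + B) + 1) + expTail (A + B)) * SC)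
      (sumN (expLo (A + B)) (cut (A + B) + 1)),
    cdiv (sumN (fun j => (zF t A B j).e) (cut (A + B) + 1) * SC)
      (sumN (expLo (A + B)) (cut (A + B) + 1)))

/-! ## States -/

/-- The child map of a knot: coefficients at the two ends of the range and the largest total. -/
structure Knot where
  lo : ℕ × ℕ × ℕ × ℕ
  hi : ℕ × ℕ × ℕ × ℕ
  cap : ℕ

/-- Child weights from the state. -/
def Knot.run (k : Knot) (s : ℕ × ℕ) : ℕ × ℕ :=
  (min k.cap (max (cdiv (s.1 * k.lo.1 + s.2 * k.lo.2.1) SC)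
      (cdiv (s.1 * k.hi.1 + s.2 * k.hi.2.1) SC)),
    min (k.cap - min k.cap (max (cdiv (s.1 * k.lo.1 + s.2 * k.lo.2.1) SC)
      (cdiv (s.1 * k.hi.1 + s.2 * k.hi.2.1) SC)))
      (max (cdiv (s.1 * k.lo.2.2.1 + s.2 * k.lo.2.2.2) SC)
        (cdiv (s.1 * k.hi.2.2.1 + s.2 * k.hi.2.2.2) SC)))

/-- The state after one step with `d` children. -/
def nextReg (d : ℕ) (t : Tab) (k : Knot) (s : ℕ × ℕ) : ℕ × ℕ :=
  stepReg d t (k.run s).1 (k.run s).2

/-- The state after one step with a Poisson number of children. -/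
def nextPoi (t : Tab) (k : Knot) (s : ℕ × ℕ) : ℕ × ℕ :=
  stepPoi t (k.run s).1 (k.run s).2

/-- Componentwise comparison. -/
def pairLE (u v : ℕ × ℕ) : Bool := Nat.ble u.1 v.1 && Nat.ble u.2 v.2

/-- Every state is at least the image of the previous one. -/
def chainOK (f : ℕ × ℕ → ℕ × ℕ) : List (ℕ × ℕ) → Bool
  | [] => true
  | [_] => true
  | a :: b :: l => pairLE (f a) b && chainOK f (b :: l)

end Vale.Agent.P154.LN
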