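import Vale.Agent.P154.LN.Pow
import Vale.Agent.P154.LN.Fix

/-!
The integer tables of `LN/Fix.lean` bound the three weights of every small number of children.
-/

namespace Vale.Agent.P154.LN

/-! ## Arithmetic -/

lemma SC_pos : (0 : ℝ) < SC := by norm_num [SC]

lemma le_cdiv {a b : ℕ} (hb : 0 < b) : (a : ℝ) / b ≤ (cdiv a b : ℕ) := by
  have hm := Nat.mod_lt (a + (b - 1)) hb
  have hd := Nat.div_add_mod (a + (b - 1)) b
  have h : a ≤ cdiv a b * b := by
    rw [cdiv, Nat.mul_comm]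
    omega
  rw [div_le_iff₀ (by exact_mod_cast hb)]
  exact_mod_cast h

lemma le_cdiv' {x : ℝ} {a b : ℕ} (hb : 0 < b) (h : x ≤ (a : ℝ) / b) : x ≤ (cdiv a b : ℕ) :=
  h.trans (le_cdiv hb)

lemma cast_sumN (f : ℕ → ℕ) (n : ℕ) : ((sumN f n : ℕ) : ℝ) = ∑ i ∈ Finset.range n, (f i : ℝ) := by
  induction n with
  | zero => simp [sumN]
  | succ n ih => rw [sumN, Nat.cast_add, ih, Finset.sum_range_succ]

lemma bc_eq (j p : ℕ) : bc j p = j.choose p := (Nat.choose_eq_descFactorial_div_factorial j p).symm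

/-! ## Atom lists -/

/-- A symmetric functional. -/
def Symm (h : (Fin 3 → ℝ) → ℝ) : Prop :=
  ∀ a b c : ℝ, h ![b, a, c] = h ![a, b, c] ∧ h ![a, c, b] = h ![a, b, c]

/-- The real vector of an integer key. -/
noncomputable def keyVec (den : ℕ) (k : V3) : Fin 3 → ℝ :=
  ![(k.p : ℝ) / den, (k.e : ℝ) / den, (k.u : ℝ) / den]

/-- The value of an atom list. -/
noncomputable def evalA (h : (Fin 3 → ℝ) → ℝ) (den : ℕ) : List Atom → ℝ
  | [] => 0
  | x :: l => (x.1 : ℝ) * h (keyVec den x.2) + evalA h den l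

lemma V3.eqb_eq {x y : V3} (h : x.eqb y = true) : x = y := by
  obtain ⟨a, b, c⟩ := x
  obtain ⟨a', b', c'⟩ := y
  simp [V3.eqb] at h
  obtain ⟨rfl, rfl, rfl⟩ := h
  rfl

lemma evalA_ins (h : (Fin 3 → ℝ) → ℝ) (den w : ℕ) (k : V3) (l : List Atom) :
    evalA h den (ins w k l) = (w : ℝ) * h (keyVec den k) + evalA h den l := by
  induction l with
  | nil => simp [ins, evalA]
  | cons x l ih =>
    cases he : k.eqb x.2 with
    | true =>
      rw [ins, he, cond_true, evalA, evalA, V3.eqb_eq he]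
      push_cast; ring
    | false => rw [ins, he, cond_false, evalA, evalA, ih]; ring

lemma evalA_sort {h : (Fin 3 → ℝ) → ℝ} (hs : Symm h) (den a b c : ℕ) :
    h (keyVec den (sort3 a b c)) = h ![(a : ℝ) / den, (b : ℝ) / den, (c : ℝ) / den] := by
  have s01 := fun x y z => (hs x y z).1
  have s12 := fun x y z => (hs x y z).2
  unfold sort3
  cases Nat.ble a b <;> cases Nat.ble b c <;> cases Nat.ble a c <;>
    simp only [cond_true, cond_false, keyVec]
  all_goals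
    set x : ℝ := (a : ℝ) / den
    set y : ℝ := (b : ℝ) / den
    set z : ℝ := (c : ℝ) / den
  all_goals
    first
      | rfl
      | rw [s01 x y z]
      | rw [s12 x y z]
      | rw [s12 y x z, s01 x y z]
      | rw [s01 x z y, s12 x y z]
      | rw [s01 y z x, s12 y x z, s01 x y z]

lemma avg6_symm {h : (Fin 3 → ℝ) → ℝ} (hs : Symm h) (M : Fin 3 → ℝ) :
    Symm fun L => avg6 h L M := by
  intro a b c
  have s01 := fun x y z => (hs x y z).1
  have s12 := fun x y z => (hs x y z).2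
  simp only [avg6, Matrix.cons_val_zero, Matrix.cons_val_one, Matrix.cons_val]
  constructor
  · rw [s01 (a * M 1) (b * M 0) (c * M 2), s01 (a * M 2) (b * M 1) (c * M 0),
      s01 (a * M 0) (b * M 2) (c * M 1), s01 (a * M 0) (b * M 1) (c * M 2),
      s01 (a * M 2) (b * M 0) (c * M 1), s01 (a * M 1) (b * M 2) (c * M 0)]
    ring
  · rw [s12 (a * M 0) (b * M 2) (c * M 1), s12 (a * M 1) (b * M 0) (c * M 2),
      s12 (a * M 2) (b * M 1) (c * M 0), s12 (a * M 1) (b * M 2) (c * M 0),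
      s12 (a * M 0) (b * M 1) (c * M 2), s12 (a * M 2) (b * M 0) (c * M 1)]
    ring

lemma evalA_expand {h : (Fin 3 → ℝ) → ℝ} (hs : Symm h) (den a b : ℕ) {s : ℕ}
    {M : Fin 3 → ℝ} (hM : M = ![(a : ℝ) / s, (b : ℝ) / s, (b : ℝ) / s]) (l : List Atom) :
    evalA h (den * s) (expand a b l) = 3 * evalA (fun L => avg6 h L M) den l := by
  induction l with
  | nil => simp [expand, evalA]
  | cons x l ih =>
    rw [expand, evalA_ins, evalA_ins, evalA_ins, evalA_sort hs, evalA_sort hs, evalA_sort hs, ih,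
      evalA]
    subst hM
    simp only [avg6, keyVec, Matrix.cons_val_zero, Matrix.cons_val_one, Matrix.cons_val,
      Nat.cast_mul, div_mul_div_comm]
    ring

variable {n D : ℕ}

lemma mixv_eP_eq (hD : 0 < D) (hn : 2 * n ≤ D) :
    mixv (-((n : ℝ) / D)) eP =
      ![(cPa n D : ℝ) / (2 * D : ℕ), (cPb n D : ℝ) / (2 * D : ℕ), (cPb n D : ℝ) / (2 * D : ℕ)] := by
  have h0 : (D : ℝ) ≠ 0 := by positivity
  have h : ((cPa n D : ℕ) : ℝ) = 2 * D - 4 * n := by
    rw [cPa, Nat.cast_sub (by omega)]; push_cast; ring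
  funext i
  fin_cases i <;> simp [mixv, eP, pP, h] <;> (try simp [cPb]) <;> field_simp <;> ring

lemma mixv_eE_eq (hD : 0 < D) (hn : 2 * n ≤ D) :
    mixv (-((n : ℝ) / D)) eE =
      ![(cEa n D : ℝ) / (2 * D : ℕ), (cEb n D : ℝ) / (2 * D : ℕ), (cEb n D : ℝ) / (2 * D : ℕ)] := by
  have h0 : (D : ℝ) ≠ 0 := by positivity
  have h : ((cEb n D : ℕ) : ℝ) = 2 * D - n := by
    rw [cEb, Nat.cast_sub (by omega)]; push_cast; ring
  funext i
  fin_cases i <;> simp [mixv, eE, pP, h] <;> (try simp [cEa]) <;> field_simp <;> ring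

lemma keyVec_one : keyVec 1 ⟨1, 1, 1⟩ = eU := by
  funext i; fin_cases i <;> simp [keyVec, eU]

lemma eval_atomsP (hD : 0 < D) (hn : 2 * n ≤ D) :
    ∀ (p : ℕ) {h : (Fin 3 → ℝ) → ℝ}, Symm h → evalA h ((2 * D) ^ p) (atomsP n D p) =
      3 ^ p * ((KP (-((n : ℝ) / D)))^[p] h) eU := by
  intro p
  induction p with
  | zero =>
    intro h _
    simp [atomsP, evalA, keyVec_one]
  | succ p ih =>
    intro h hs
    rw [atomsP, pow_succ (2 * D), evalA_expand hs _ _ _ (mixv_eP_eq hD hn),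
      ih (avg6_symm hs _), Function.iterate_succ_apply, pow_succ (3 : ℝ)]
    unfold KP
    ring

lemma eval_atomsPE (hD : 0 < D) (hn : 2 * n ≤ D) (p : ℕ) :
    ∀ (q : ℕ) {h : (Fin 3 → ℝ) → ℝ}, Symm h → evalA h ((2 * D) ^ (p + q)) (atomsPE n D p q) =
      3 ^ (p + q) * Xi (-((n : ℝ) / D)) p q h := by
  intro q
  induction q with
  | zero => exact fun hs => eval_atomsP hD hn p hs
  | succ q ih =>
    intro h hs
    rw [atomsPE, ← add_assoc, pow_succ (2 * D), evalA_expand hs _ _ _ (mixv_eE_eq hD hn),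
      ih (avg6_symm hs _), pow_succ (3 : ℝ), Xi, Xi, Function.iterate_succ_apply]
    unfold KE
    ring

/-! ## The three weights of a key -/

lemma symm_wP : Symm wP := fun a b c => by constructor <;> simp [wP, fB, fM, pP] <;> ring_nf

lemma symm_wE : Symm wE := fun a b c => by constructor <;> simp [wE, fB, fM, pP] <;> ring_nf

lemma symm_wU : Symm wU := fun a b c => by
  constructor <;> simp [wU, wP, wE, fB, fM, pP] <;> ring_nf

lemma le_natSub (a b : ℕ) : (a : ℝ) - b ≤ ((a - b : ℕ) : ℝ) := by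
  rcases le_total b a with h | h
  · rw [Nat.cast_sub h]
  · rw [Nat.sub_eq_zero_of_le h, Nat.cast_zero, sub_nonpos]; exact_mod_cast h

lemma up_core {x : ℝ} {w num d c f : ℕ} {S : ℕ} (hd : 0 < d) (hc : 0 < c) (hf : 0 < f)
    (h0 : S = 0 → x = 0)
    (hxn : S ≠ 0 → x * (f * (S : ℝ) ^ 2 * d) ≤ num) :
    (w : ℝ) * x / c ≤ ((cdiv (w * SC * num) (f * S ^ 2 * (c * d)) : ℕ) : ℝ) / SC := by
  rcases eq_or_ne S 0 with rfl | hS
  · rw [h0 rfl, mul_zero, zero_div]
    exact div_nonneg (Nat.cast_nonneg _) SC_pos.le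
  have hSp : (0 : ℝ) < S := by positivity
  rw [le_div_iff₀ SC_pos]
  refine le_cdiv' (by positivity) ?_
  push_cast
  rw [div_mul_eq_mul_div, div_le_div_iff₀ (by exact_mod_cast hc) (by positivity)]
  have := mul_le_mul_of_nonneg_left (hxn hS) (by positivity : (0 : ℝ) ≤ w * SC * c)
  linarith

lemma key_wP {d c : ℕ} (hd : 0 < d) (hc : 0 < c) (k : V3) (w : ℕ) :
    (w : ℝ) * wP (keyVec d k) / c ≤ (upP k w (c * d) : ℝ) / SC := by
  obtain ⟨x, y, z⟩ := k
  refine up_core hd hc (by norm_num) (fun h => ?_) (fun hS => ?_)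
  · obtain ⟨rfl, rfl, rfl⟩ : x = 0 ∧ y = 0 ∧ z = 0 := by simp only at h; omega
    simp [wP, fB, fM, pP, keyVec]
  · refine le_trans (le_of_eq ?_) (le_natSub _ _)
    have : (x : ℝ) + y + z ≠ 0 := by
      simp only at hS; exact_mod_cast hS
    have : (d : ℝ) ≠ 0 := by positivity
    simp only [wP, fB, fM, pP, keyVec, Matrix.cons_val_zero, Matrix.cons_val_one, Matrix.cons_val]
    push_cast
    field_simp
    ring

lemma key_wE {d c : ℕ} (hd : 0 < d) (hc : 0 < c) (k : V3) (w : ℕ) :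
    (w : ℝ) * wE (keyVec d k) / c ≤ (upE k w (c * d) : ℝ) / SC := by
  obtain ⟨x, y, z⟩ := k
  refine up_core hd hc (by norm_num) (fun h => ?_) (fun hS => ?_)
  · obtain ⟨rfl, rfl, rfl⟩ : x = 0 ∧ y = 0 ∧ z = 0 := by simp only at h; omega
    simp [wE, fB, fM, pP, keyVec]
  · refine le_trans (le_of_eq ?_) (le_natSub _ _)
    have : (x : ℝ) + y + z ≠ 0 := by
      simp only at hS; exact_mod_cast hS
    have : (d : ℝ) ≠ 0 := by positivity
    simp only [wE, fB, fM, pP, keyVec, Matrix.cons_val_zero, Matrix.cons_val_one, Matrix.cons_val]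
    push_cast
    field_simp
    ring

lemma key_wU {d c : ℕ} (hd : 0 < d) (hc : 0 < c) (k : V3) (w : ℕ) :
    (w : ℝ) * wU (keyVec d k) / c ≤ (upU k w (c * d) : ℝ) / SC := by
  obtain ⟨x, y, z⟩ := k
  have := up_core (x := wU (keyVec d ⟨x, y, z⟩)) (w := w) (num := 9 * (x * y * z))
    (f := 1) (S := x + y + z) hd hc one_pos (fun h => ?_) (fun hS => ?_)
  · simpa [upU] using this
  · obtain ⟨rfl, rfl, rfl⟩ : x = 0 ∧ y = 0 ∧ z = 0 := by omega
    simp [wU, wP, wE, fB, fM, pP, keyVec]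
  · refine le_of_eq ?_
    have : (x : ℝ) + y + z ≠ 0 := by exact_mod_cast hS
    have : (d : ℝ) ≠ 0 := by positivity
    simp only [wU, wP, wE, fB, fM, pP, keyVec, Matrix.cons_val_zero, Matrix.cons_val_one,
      Matrix.cons_val]
    push_cast
    field_simp
    ring

lemma totals_bound {den c : ℕ} (hd : 0 < den) (hc : 0 < c) (l : List Atom) :
    evalA wP den l / c ≤ ((totals (c * den) l).p : ℝ) / SC ∧
    evalA wE den l / c ≤ ((totals (c * den) l).e : ℝ) / SC ∧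
    evalA wU den l / c ≤ ((totals (c * den) l).u : ℝ) / SC := by
  induction l with
  | nil => simp [evalA, totals, V3.zero]
  | cons x l ih =>
    simp only [evalA, totals, Nat.cast_add, add_div]
    exact ⟨add_le_add (key_wP hd hc _ _) ih.1, add_le_add (key_wE hd hc _ _) ih.2.1,
      add_le_add (key_wU hd hc _ _) ih.2.2⟩

/-! ## Validity -/

/-- Bounds of one matrix. -/
def MatOK (lam : ℝ) (c : Fin 3 → ℝ) (m : V3 × V3 × V3) : Prop :=
  (entry lam c eP wP ≤ (m.1.p : ℝ) / SC ∧ entry lam c eP wE ≤ (m.1.e : ℝ) / SC ∧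
    entry lam c eP wU ≤ (m.1.u : ℝ) / SC) ∧
  (entry lam c eE wP ≤ (m.2.1.p : ℝ) / SC ∧ entry lam c eE wE ≤ (m.2.1.e : ℝ) / SC ∧
    entry lam c eE wU ≤ (m.2.1.u : ℝ) / SC) ∧
  (entry lam c eU wP ≤ (m.2.2.p : ℝ) / SC ∧ entry lam c eU wE ≤ (m.2.2.e : ℝ) / SC ∧
    entry lam c eU wU ≤ (m.2.2.u : ℝ) / SC)

/-- The tables bound the weights at parameter `lam`. -/
def TabOK (lam : ℝ) (t : Tab) : Prop :=
  (∀ p j, p ≤ j → j ≤ t.J →
    Xi lam p (j - p) wP ≤ ((t.at' p j).p : ℝ) / SC ∧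
    Xi lam p (j - p) wE ≤ ((t.at' p j).e : ℝ) / SC ∧
    Xi lam p (j - p) wU ≤ ((t.at' p j).u : ℝ) / SC) ∧
  MatOK lam eP t.mP ∧ MatOK lam eE t.mE

lemma tabEntry_bound (hD : 0 < D) (hn : 2 * n ≤ D) (p q : ℕ) :
    Xi (-((n : ℝ) / D)) p q wP ≤ ((tabEntry n D p q).p : ℝ) / SC ∧
    Xi (-((n : ℝ) / D)) p q wE ≤ ((tabEntry n D p q).e : ℝ) / SC ∧
    Xi (-((n : ℝ) / D)) p q wU ≤ ((tabEntry n D p q).u : ℝ) / SC := by
  have h := totals_bound (den := (2 * D) ^ (p + q)) (c := 3 ^ (p + q)) (by positivity)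
    (by positivity) (atomsPE n D p q)
  rw [← mul_pow, show 3 * (2 * D) = 6 * D by ring, eval_atomsPE hD hn p q symm_wP,
    eval_atomsPE hD hn p q symm_wE, eval_atomsPE hD hn p q symm_wU] at h
  have h3 : ((3 ^ (p + q) : ℕ) : ℝ) ≠ 0 := by positivity
  simpa [tabEntry, mul_div_assoc, div_self h3] using h

lemma row_bound {lam : ℝ} {c r : Fin 3 → ℝ} (a b : ℕ) {den : ℕ} (hden : 0 < den) (k : V3)
    (hc : mixv lam c = ![(a : ℝ) / (2 * D : ℕ), (b : ℝ) / (2 * D : ℕ), (b : ℝ) / (2 * D : ℕ)])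
    (hr : keyVec den k = r) (hD : 0 < D) :
    entry lam c r wP ≤ ((totals (3 * (den * (2 * D))) (expand a b [(1, k)])).p : ℝ) / SC ∧
    entry lam c r wE ≤ ((totals (3 * (den * (2 * D))) (expand a b [(1, k)])).e : ℝ) / SC ∧
    entry lam c r wU ≤ ((totals (3 * (den * (2 * D))) (expand a b [(1, k)])).u : ℝ) / SC := by
  have h := totals_bound (den := den * (2 * D)) (c := 3) (by positivity) (by norm_num)
    (expand a b [(1, k)])
  rw [evalA_expand symm_wP _ _ _ hc, evalA_expand symm_wE _ _ _ hc,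
    evalA_expand symm_wU _ _ _ hc] at h
  simpa [evalA, hr, entry] using h

lemma matOK_matOf {lam : ℝ} {c : Fin 3 → ℝ} (a b : ℕ) (hD : 0 < D)
    (hc : mixv lam c = ![(a : ℝ) / (2 * D : ℕ), (b : ℝ) / (2 * D : ℕ), (b : ℝ) / (2 * D : ℕ)]) :
    MatOK lam c (matOf D a b) := by
  have h1 := row_bound (r := eP) a b one_pos ⟨3, 0, 0⟩ hc
    (by funext i; fin_cases i <;> simp [keyVec, eP]) hD
  have h2 := row_bound (r := eE) a b (den := 2) two_pos ⟨0, 3, 3⟩ hc
    (by funext i; fin_cases i <;> simp [keyVec, eE]) hD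
  have h3 := row_bound (r := eU) a b one_pos ⟨1, 1, 1⟩ hc keyVec_one hD
  simp only [show 3 * (1 * (2 * D)) = 6 * D by ring, show 3 * (2 * (2 * D)) = 12 * D by ring]
    at h1 h2 h3
  exact ⟨h1, h2, h3⟩

/-- The computed tables are valid. -/
theorem tabOK_mkTab (hD : 0 < D) (hn : 2 * n ≤ D) (J : ℕ) :
    TabOK (-((n : ℝ) / D)) (mkTab n D J) := by
  refine ⟨fun p j hp hj => ?_, matOK_matOf _ _ hD (mixv_eP_eq hD hn),
    matOK_matOf _ _ hD (mixv_eE_eq hD hn)⟩
  have e : (mkTab n D J).at' p j = tabEntry n D p (j - p) := by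
    have hj' : j ≤ J := hj
    simp [Tab.at', mkTab, List.getD_eq_getElem?_getD, hp, hj']
  rw [e]
  exact tabEntry_bound hD hn p (j - p)

end Vale.Agent.P154.LN
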