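import Vale.Agent.P154.LN.Order

/-!
The comparison order used for the three-state channel with negative parameter: domination of all
functionals `fS v t` of `LN/Order.lean`: `L ↦ (∑ tᵢ vᵢ Lᵢ)² / ∑ vᵢ Lᵢ` (chi-square under every prior, the less noisy order).
-/

namespace Vale.Agent.P154.LN

/-- The class of test functionals. -/
def IsTest (g : (Fin 3 → ℝ) → ℝ) : Prop :=
  ∃ v t : Fin 3 → ℝ, (∀ i, 0 ≤ v i) ∧ g = fS v t

/-- Average of a functional over the rearrangements of a vector. -/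
noncomputable def orb (g : (Fin 3 → ℝ) → ℝ) (L : Fin 3 → ℝ) : ℝ :=
  avg6 g (fun _ => 1) L

/-- Perfect observation. -/
noncomputable def eP : Fin 3 → ℝ := ![3, 0, 0]
/-- Observation excluding one value. -/
noncomputable def eE : Fin 3 → ℝ := ![0, 3 / 2, 3 / 2]
/-- Useless observation. -/
noncomputable def eU : Fin 3 → ℝ := ![1, 1, 1]

/-- Third moment. -/
noncomputable def fM (L : Fin 3 → ℝ) : ℝ :=
  (L 0 ^ 3 + L 1 ^ 3 + L 2 ^ 3) / 3 / pP L ^ 2 - 3 * ((L 0 ^ 2 + L 1 ^ 2 + L 2 ^ 2) / 3 / pP L)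
    + 2 * pP L

/-- Weight of `eP` in the canonical upper bound of a vector. -/
noncomputable def wP (L : Fin 3 → ℝ) : ℝ := (fB L + 2 * fM L) / 6
/-- Weight of `eE` in the canonical upper bound of a vector. -/
noncomputable def wE (L : Fin 3 → ℝ) : ℝ := 4 * (fB L - fM L) / 3
/-- Weight of `eU` in the canonical upper bound of a vector. -/
noncomputable def wU (L : Fin 3 → ℝ) : ℝ := pP L - wP L - wE L

/-- Value of the functional `g` on the weights `A, B, C` of `eP, eE, eU`. -/
noncomputable def val (A B C : ℝ) (g : (Fin 3 → ℝ) → ℝ) : ℝ :=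
  A * orb g eP + B * orb g eE + C * orb g eU

/-- The functional `Φ` is dominated by the weights `A, B, C` on all test functionals. -/
def Rep (Φ : ((Fin 3 → ℝ) → ℝ) → ℝ) (A B C : ℝ) : Prop :=
  0 ≤ A ∧ 0 ≤ B ∧ 0 ≤ C ∧ ∀ g, IsTest g → Φ g ≤ val A B C g

/-- The channel is dominated by some mixture of `eP, eE, eU` with weights at most `a, b`. -/
def Below (C : Chan) (a b : ℝ) : Prop :=
  ∃ A B : ℝ, A ≤ a ∧ B ≤ b ∧ A + B ≤ 1 ∧ Rep C.E A B (1 - A - B)

/-- One child observation at parameter `lam`, with weights `A, B, C`. -/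
noncomputable def step (lam A B C : ℝ) (g : (Fin 3 → ℝ) → ℝ) : (Fin 3 → ℝ) → ℝ :=
  fun L => A * avg6 g L (mixv lam eP) + B * avg6 g L (mixv lam eE) + C * avg6 g L (mixv lam eU)

end Vale.Agent.P154.LN
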