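import Vale.Agent.P154.LN.EndgameGlue
import Vale.Agent.P154.LN.EgData

/-!
The tables of the endgame knots are at least the computed ones, so they bound the weights of the
products of children.
-/

namespace Vale.Agent.P154.LN.EgData

theorem eg0_fits : Endgame.fits eg0 500 1000 = true := by decide +kernel

theorem eg0_rows : Endgame.RowsOK eg0 := Endgame.rowsOK_of_fits eg0_fits

theorem eg1_fits : Endgame.fits eg1 492 1000 = true := by decide +kernel

theorem eg1_rows : Endgame.RowsOK eg1 := Endgame.rowsOK_of_fits eg1_fits

theorem eg2_fits : Endgame.fits eg2 479 1000 = true := by decide +kernel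

theorem eg2_rows : Endgame.RowsOK eg2 := Endgame.rowsOK_of_fits eg2_fits

theorem eg3_fits : Endgame.fits eg3 458 1000 = true := by decide +kernel

theorem eg3_rows : Endgame.RowsOK eg3 := Endgame.rowsOK_of_fits eg3_fits

theorem eg4_fits : Endgame.fits eg4 438 1000 = true := by decide +kernel

theorem eg4_rows : Endgame.RowsOK eg4 := Endgame.rowsOK_of_fits eg4_fits

theorem eg5_fits : Endgame.fits eg5 419 1000 = true := by decide +kernel

theorem eg5_rows : Endgame.RowsOK eg5 := Endgame.rowsOK_of_fits eg5_fits

theorem eg6_fits : Endgame.fits eg6 400 1000 = true := by decide +kernel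

theorem eg6_rows : Endgame.RowsOK eg6 := Endgame.rowsOK_of_fits eg6_fits

theorem eg7_fits : Endgame.fits eg7 382 1000 = true := by decide +kernel

theorem eg7_rows : Endgame.RowsOK eg7 := Endgame.rowsOK_of_fits eg7_fits

theorem eg8_fits : Endgame.fits eg8 365 1000 = true := by decide +kernel

theorem eg8_rows : Endgame.RowsOK eg8 := Endgame.rowsOK_of_fits eg8_fits

theorem eg9_fits : Endgame.fits eg9 349 1000 = true := by decide +kernel

theorem eg9_rows : Endgame.RowsOK eg9 := Endgame.rowsOK_of_fits eg9_fits

theorem eg10_fits : Endgame.fits eg10 333 1000 = true := by decide +kernel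

theorem eg10_rows : Endgame.RowsOK eg10 := Endgame.rowsOK_of_fits eg10_fits

theorem eg11_fits : Endgame.fits eg11 318 1000 = true := by decide +kernel

theorem eg11_rows : Endgame.RowsOK eg11 := Endgame.rowsOK_of_fits eg11_fits

theorem eg12_fits : Endgame.fits eg12 304 1000 = true := by decide +kernel

theorem eg12_rows : Endgame.RowsOK eg12 := Endgame.rowsOK_of_fits eg12_fits

theorem eg13_fits : Endgame.fits eg13 290 1000 = true := by decide +kernel

theorem eg13_rows : Endgame.RowsOK eg13 := Endgame.rowsOK_of_fits eg13_fits

theorem eg14_fits : Endgame.fits eg14 277 1000 = true := by decide +kernel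

theorem eg14_rows : Endgame.RowsOK eg14 := Endgame.rowsOK_of_fits eg14_fits

theorem eg15_fits : Endgame.fits eg15 265 1000 = true := by decide +kernel

theorem eg15_rows : Endgame.RowsOK eg15 := Endgame.rowsOK_of_fits eg15_fits

theorem eg16_fits : Endgame.fits eg16 253 1000 = true := by decide +kernel

theorem eg16_rows : Endgame.RowsOK eg16 := Endgame.rowsOK_of_fits eg16_fits

theorem eg17_fits : Endgame.fits eg17 242 1000 = true := by decide +kernel

theorem eg17_rows : Endgame.RowsOK eg17 := Endgame.rowsOK_of_fits eg17_fits

theorem eg18_fits : Endgame.fits eg18 231 1000 = true := by decide +kernel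

theorem eg18_rows : Endgame.RowsOK eg18 := Endgame.rowsOK_of_fits eg18_fits

theorem eg19_fits : Endgame.fits eg19 221 1000 = true := by decide +kernel

theorem eg19_rows : Endgame.RowsOK eg19 := Endgame.rowsOK_of_fits eg19_fits

theorem eg20_fits : Endgame.fits eg20 211 1000 = true := by decide +kernel

theorem eg20_rows : Endgame.RowsOK eg20 := Endgame.rowsOK_of_fits eg20_fits

theorem eg21_fits : Endgame.fits eg21 201 1000 = true := by decide +kernel

theorem eg21_rows : Endgame.RowsOK eg21 := Endgame.rowsOK_of_fits eg21_fits

theorem eg22_fits : Endgame.fits eg22 500 1000 = true := by decide +kernel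

theorem eg22_rows : Endgame.RowsOK eg22 := Endgame.rowsOK_of_fits eg22_fits

theorem eg23_fits : Endgame.fits eg23 448 1000 = true := by decide +kernel

theorem eg23_rows : Endgame.RowsOK eg23 := Endgame.rowsOK_of_fits eg23_fits

theorem eg24_fits : Endgame.fits eg24 409 1000 = true := by decide +kernel

theorem eg24_rows : Endgame.RowsOK eg24 := Endgame.rowsOK_of_fits eg24_fits

theorem eg25_fits : Endgame.fits eg25 378 1000 = true := by decide +kernel

theorem eg25_rows : Endgame.RowsOK eg25 := Endgame.rowsOK_of_fits eg25_fits

theorem eg26_fits : Endgame.fits eg26 354 1000 = true := by decide +kernel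

theorem eg26_rows : Endgame.RowsOK eg26 := Endgame.rowsOK_of_fits eg26_fits

theorem eg27_fits : Endgame.fits eg27 334 1000 = true := by decide +kernel

theorem eg27_rows : Endgame.RowsOK eg27 := Endgame.rowsOK_of_fits eg27_fits

theorem eg28_fits : Endgame.fits eg28 317 1000 = true := by decide +kernel

theorem eg28_rows : Endgame.RowsOK eg28 := Endgame.rowsOK_of_fits eg28_fits

theorem eg29_fits : Endgame.fits eg29 302 1000 = true := by decide +kernel

theorem eg29_rows : Endgame.RowsOK eg29 := Endgame.rowsOK_of_fits eg29_fits

theorem eg30_fits : Endgame.fits eg30 289 1000 = true := by decide +kernel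

theorem eg30_rows : Endgame.RowsOK eg30 := Endgame.rowsOK_of_fits eg30_fits

theorem eg31_fits : Endgame.fits eg31 278 1000 = true := by decide +kernel

theorem eg31_rows : Endgame.RowsOK eg31 := Endgame.rowsOK_of_fits eg31_fits

theorem eg32_fits : Endgame.fits eg32 268 1000 = true := by decide +kernel

theorem eg32_rows : Endgame.RowsOK eg32 := Endgame.rowsOK_of_fits eg32_fits

theorem eg33_fits : Endgame.fits eg33 259 1000 = true := by decide +kernel

theorem eg33_rows : Endgame.RowsOK eg33 := Endgame.rowsOK_of_fits eg33_fits

theorem eg34_fits : Endgame.fits eg34 251 1000 = true := by decide +kernel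

theorem eg34_rows : Endgame.RowsOK eg34 := Endgame.rowsOK_of_fits eg34_fits

theorem eg35_fits : Endgame.fits eg35 243 1000 = true := by decide +kernel

theorem eg35_rows : Endgame.RowsOK eg35 := Endgame.rowsOK_of_fits eg35_fits

theorem eg36_fits : Endgame.fits eg36 236 1000 = true := by decide +kernel

theorem eg36_rows : Endgame.RowsOK eg36 := Endgame.rowsOK_of_fits eg36_fits

theorem eg37_fits : Endgame.fits eg37 230 1000 = true := by decide +kernel

theorem eg37_rows : Endgame.RowsOK eg37 := Endgame.rowsOK_of_fits eg37_fits

theorem eg38_fits : Endgame.fits eg38 224 1000 = true := by decide +kernel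

theorem eg38_rows : Endgame.RowsOK eg38 := Endgame.rowsOK_of_fits eg38_fits

theorem eg39_fits : Endgame.fits eg39 219 1000 = true := by decide +kernel

theorem eg39_rows : Endgame.RowsOK eg39 := Endgame.rowsOK_of_fits eg39_fits

theorem eg40_fits : Endgame.fits eg40 214 1000 = true := by decide +kernel

theorem eg40_rows : Endgame.RowsOK eg40 := Endgame.rowsOK_of_fits eg40_fits

theorem eg41_fits : Endgame.fits eg41 209 1000 = true := by decide +kernel

theorem eg41_rows : Endgame.RowsOK eg41 := Endgame.rowsOK_of_fits eg41_fits

theorem eg42_fits : Endgame.fits eg42 205 1000 = true := by decide +kernel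

theorem eg42_rows : Endgame.RowsOK eg42 := Endgame.rowsOK_of_fits eg42_fits

theorem eg43_fits : Endgame.fits eg43 201 1000 = true := by decide +kernel

theorem eg43_rows : Endgame.RowsOK eg43 := Endgame.rowsOK_of_fits eg43_fits

end Vale.Agent.P154.LN.EgData
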