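import Vale.Agent.P154.LN.Bernstein

/-!
Second phase of the three-state recursion at a rational knot `-l`: inside the region `x ≤ x0`,
`-k1 x ≤ T ≤ k2 x` one step decreases `x` by `eta x ^ 2` and stays inside the region.

Coordinates: weights `A, B` of the perfect and of the excluding observation, `x = 2 A + B / 2`,
`T = 2 A - B / 4`. With `r = b T / x` the number of informative children has mean
`μ = x (3/2 - r) / l ^ 2` (Poisson, or binomial with `d` trials) and a child is perfect with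
probability `u = (1 + 2 r) / (9 - 6 r)`. Only upper bounds on the weights produced by `j`
informative children are used: exact ones for `j ≤ 1`, tables for `2 ≤ j ≤ J`, and `1` beyond.
-/

namespace Vale.Agent.P154.LN.Endgame

open Finset

/-- Probability that an informative child is perfect. -/
def uof {K : Type} [Field K] (r : K) : K := (1 + 2 * r) / (9 - 6 * r)

/-- A range of `r` with bounds on the increments valid on it. -/
structure Piece where
  r0 : ℚ
  r1 : ℚ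
  dX : List ℚ
  dA : List ℚ
  dB : List ℚ

/-- The data of one knot: `reg = none` for Poisson offspring, `some d` for `d` children.
The lists `za`, `zb` and those of the pieces start at `j = 2`; the entries of a row are indexed by
the number of perfect children. -/
structure Knot where
  l : ℚ
  reg : Option ℕ
  x0 : ℚ
  k1 : ℚ
  k2 : ℚ
  mu : ℚ
  eta : ℚ
  J : ℕ
  pieces : List Piece
  za : List (List ℚ)
  zb : List (List ℚ)

/-- Entry of a list starting at `2`. -/
def at2 (L : List ℚ) (j : ℕ) : ℚ := L.getD (j - 2) 0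

namespace Knot

variable (c : Knot)

/-- Bounds on the weight of the perfect observation for `j` informative children. -/
def rowA (j : ℕ) : List ℚ := c.za.getD (j - 2) []

/-- Bounds on the weight of the excluding observation for `j` informative children. -/
def rowB (j : ℕ) : List ℚ := c.zb.getD (j - 2) []

/-- `j` times the second moment of one child. -/
def linX (j : ℕ) : List ℚ := Bern.aff (j * (c.l ^ 2 / 2)) (3 * c.l ^ 2 / 2) (j + 1)

/-- `j` times the third moment of one child. -/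
def linT (j : ℕ) : List ℚ := Bern.aff (j * (c.l ^ 3 / 4)) (-(9 * c.l ^ 3 / 4)) (j + 1)

/-- Lower factor for two informative children. -/
def low : ℚ :=
  match c.reg with
  | none => (1 - c.mu / 8) ^ 8 / 2
  | some d => (1 - 1 / d) / 2 * (1 - c.mu / d) ^ (d - 2)

/-- The bounds of a piece on the increments for `j` children. -/
def rowOK (P : Piece) (j : ℕ) : Bool :=
  Bern.nonpos (uof P.r0) (uof P.r1) j
      (Bern.comb 1 (-(1 + at2 P.dX j / j)) (Bern.comb 2 (1 / 2) (c.rowA j) (c.rowB j))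
        (c.linX j)) &&
    (Bern.nonpos (uof P.r0) (uof P.r1) j
      (Bern.comb 6 (-1) (c.rowA j) (Bern.comb (1 + at2 P.dA j / j) 2 (c.linX j) (c.linT j))) &&
    Bern.nonpos (uof P.r0) (uof P.r1) j
      (Bern.comb (3 / 4) (-1) (c.rowB j)
        (Bern.comb (1 + at2 P.dB j / j) (-1) (c.linX j) (c.linT j))))

/-- Least second moment of one child on a piece. -/
def xmin (P : Piece) : ℚ := c.l ^ 2 * (1 + 3 * uof P.r0) / 2

/-- Largest second moment of one child on a piece. -/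
def xmax (P : Piece) : ℚ := c.l ^ 2 * (1 + 3 * uof P.r1) / 2

/-- The tail beyond `J`, divided by the `k`-th power of the mean. -/
def tail (k : ℕ) : ℚ :=
  c.mu ^ (c.J + 1 - k) / (c.J + 1).factorial * ((c.J + 2) / (c.J + 2 - c.mu))

/-- Relative second order decrease of `x`. -/
def cx (P : Piece) : ℚ :=
  at2 P.dX 2 * c.low
    + (∑ j ∈ Finset.range (c.J + 1),
        if j < 3 then 0 else max (at2 P.dX j) 0 * (c.mu ^ (j - 2) / j.factorial))
    + 2 * c.tail 2 / c.xmin P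

/-- Positive part of the increments. -/
def posSum (L : List ℚ) : ℚ :=
  ∑ j ∈ Finset.range (c.J + 1),
    if j < 2 then 0 else max (at2 L j) 0 * (c.mu ^ (j - 1) / j.factorial)

/-- The conditions on one piece. -/
def pieceOK (P : Piece) : Bool :=
  decide ((-c.k1 ≤ P.r0 ∧ P.r0 ≤ P.r1 ∧ P.r1 ≤ c.k2) ∧ at2 P.dX 2 ≤ 0 ∧
      c.cx P ≤ -(c.eta * c.xmax P) ∧
      1 - 2 * (c.l * P.r0) + c.posSum P.dA + 6 * c.tail 1 / c.xmin P ≤
        (1 + 2 * c.k2) * (1 - c.eta * c.x0) ∧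
      1 + c.l * P.r1 + c.posSum P.dB + 3 / 4 * c.tail 1 / c.xmin P ≤
        (1 + c.k1) * (1 - c.eta * c.x0)) &&
    (List.range (c.J + 1)).all fun j => decide (j < 2) || c.rowOK P j

end Knot

/-- The pieces cover the range from `a` to `b`. -/
def covers (b : ℚ) : List Piece → ℚ → Bool
  | [], a => decide (b < a)
  | [P], a => decide (P.r0 ≤ a ∧ b ≤ P.r1)
  | P :: Ps, a => decide (P.r0 ≤ a) && covers b Ps P.r1

/-- The law of the number of children is admissible. -/
def Knot.regOK (c : Knot) : Bool :=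
  match c.reg with
  | none => decide (c.mu ≤ 8)
  | some d => decide (2 ≤ d ∧ c.mu ≤ d)

/-- All conditions on a knot. -/
def Knot.ok (c : Knot) : Bool :=
  decide ((0 < c.l ∧ c.l ≤ 1 / 2) ∧ (0 ≤ c.k1 ∧ c.k1 ≤ 1 / 2) ∧ (0 ≤ c.k2 ∧ c.k2 ≤ 1 / 2) ∧
      (0 ≤ c.x0 ∧ c.x0 ≤ 1 / 2) ∧ (0 < c.eta ∧ c.eta * c.x0 < 1) ∧
      (0 < c.mu ∧ c.mu < c.J + 2 ∧ c.x0 * (3 / 2 + c.k1) ≤ c.mu * c.l ^ 2) ∧ 2 ≤ c.J ∧
      ∀ j < c.J + 1, 2 ≤ j → (c.rowA j).length = j + 1 ∧ (c.rowB j).length = j + 1) &&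
    (c.regOK && (covers c.k2 c.pieces (-c.k1) && c.pieces.all c.pieceOK))

lemma covers_sound {b : ℚ} : ∀ {Ps : List Piece} {a : ℚ}, covers b Ps a = true →
    ∀ r : ℝ, (a : ℝ) ≤ r → r ≤ b → ∃ P ∈ Ps, (P.r0 : ℝ) ≤ r ∧ r ≤ P.r1
  | [], a, h, r, h1, h2 => by
    have hb : b < a := of_decide_eq_true h
    have hb' : (b : ℝ) < a := by exact_mod_cast hb
    linarith
  | [P], a, h, r, h1, h2 => by
    obtain ⟨h0, hb⟩ : P.r0 ≤ a ∧ b ≤ P.r1 := of_decide_eq_true h
    exact ⟨P, List.mem_cons_self, le_trans (by exact_mod_cast h0) h1,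
      h2.trans (by exact_mod_cast hb)⟩
  | P :: Q :: Ps, a, h, r, h1, h2 => by
    simp only [covers, Bool.and_eq_true, decide_eq_true_eq] at h
    have h0 : (P.r0 : ℝ) ≤ a := by exact_mod_cast h.1
    rcases le_or_gt r (P.r1 : ℝ) with hr | hr
    · exact ⟨P, List.mem_cons_self, h0.trans h1, hr⟩
    · obtain ⟨R, hR, hR'⟩ := covers_sound (Ps := Q :: Ps) (a := P.r1)
        (by simpa [covers] using h.2) r hr.le h2
      exact ⟨R, List.mem_cons_of_mem _ hR, hR'⟩

/-! ## Laws of the number of informative children -/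

/-- What is used about the number of informative children. -/
structure Law (c : Knot) (μ : ℝ) (π : ℕ → ℝ) : Prop where
  nonneg : ∀ j, 0 ≤ π j
  total : HasSum π 1
  mean : HasSum (fun j : ℕ => (j : ℝ) * π j) μ
  le : ∀ j, π j ≤ μ ^ j / j.factorial
  two : (c.low : ℝ) * μ ^ 2 ≤ π 2

lemma poisson_law (c : Knot) (hc : c.reg = none) (hmu : c.mu ≤ 8) {μ : ℝ} (hμ : 0 ≤ μ)
    (h : μ ≤ c.mu) : Law c μ (fun j => Real.exp (-μ) * μ ^ j / j.factorial) where
  nonneg j := by positivity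
  total := by
    have h := (NormedSpace.expSeries_div_hasSum_exp μ).mul_left (Real.exp (-μ))
    rw [← Real.exp_eq_exp_ℝ, ← Real.exp_add, neg_add_cancel, Real.exp_zero] at h
    exact h.congr_fun fun k => mul_div_assoc _ _ _
  mean := by
    rw [← hasSum_nat_add_iff' 1]
    simp only [sum_range_one, Nat.cast_zero, zero_mul, sub_zero]
    have h := (NormedSpace.expSeries_div_hasSum_exp μ).mul_left (μ * Real.exp (-μ))
    rw [← Real.exp_eq_exp_ℝ, mul_assoc, ← Real.exp_add, neg_add_cancel, Real.exp_zero,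
      mul_one] at h
    refine h.congr_fun fun k => ?_
    have h1 : (k.factorial : ℝ) ≠ 0 := by exact_mod_cast k.factorial_ne_zero
    simp only [Nat.factorial_succ]
    push_cast
    field_simp
    ring
  le j := div_le_div_of_nonneg_right
    (mul_le_of_le_one_left (pow_nonneg hμ j) (Real.exp_le_one_iff.2 (by linarith)))
    (by positivity)
  two := by
    have h8 : (c.mu : ℝ) ≤ 8 := by exact_mod_cast hmu
    have h1 : (1 - (c.mu : ℝ) / 8) ^ 8 ≤ Real.exp (-μ) := by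
      refine (pow_le_pow_left₀ (by linarith) (Real.one_sub_le_exp_neg _) 8).trans ?_
      rw [← Real.exp_nat_mul]
      exact Real.exp_le_exp.2 (by push_cast; linarith)
    have := mul_le_mul_of_nonneg_right h1 (show 0 ≤ μ ^ 2 / 2 by positivity)
    simp only [Knot.low, hc, Nat.factorial_two]
    push_cast
    linarith

/-- The number of successes among `d` trials. -/
noncomputable def binom (d : ℕ) (s : ℝ) (j : ℕ) : ℝ := d.choose j * s ^ j * (1 - s) ^ (d - j)

lemma binom_law (c : Knot) {d : ℕ} (hc : c.reg = some d) (hd : 2 ≤ d) {s : ℝ} (hs : 0 ≤ s)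
    (hs1 : s ≤ 1) (h : d * s ≤ c.mu) (hmu : c.mu ≤ d) : Law c (d * s) (binom d s) := by
  have hq : 0 ≤ 1 - s := by linarith
  have hnn : ∀ j, 0 ≤ binom d s j := fun j =>
    mul_nonneg (mul_nonneg (Nat.cast_nonneg _) (pow_nonneg hs j)) (pow_nonneg hq _)
  have supp : ∀ j ∉ range (d + 1), binom d s j = 0 := fun j hj => by
    rw [mem_range] at hj
    simp [binom, Nat.choose_eq_zero_of_lt (show d < j by omega)]
  refine ⟨hnn, ?_, ?_, fun j => ?_, ?_⟩
  · have e : ∑ j ∈ range (d + 1), binom d s j = 1 := by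
      have := add_pow s (1 - s) d
      rw [add_sub_cancel, one_pow] at this
      refine Eq.trans (sum_congr rfl fun j _ => ?_) this.symm
      simp only [binom]; ring
    exact e ▸ hasSum_sum_of_ne_finset_zero supp
  · have e : ∑ j ∈ range (d + 1), (j : ℝ) * binom d s j = d * s := by
      obtain ⟨e', rfl⟩ : ∃ e', d = e' + 1 := ⟨d - 1, by omega⟩
      rw [sum_range_succ']
      simp only [Nat.cast_zero, zero_mul, add_zero]
      have := add_pow s (1 - s) e'
      rw [add_sub_cancel, one_pow] at this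
      rw [← mul_one (((e' + 1 : ℕ) : ℝ) * s), this, mul_sum]
      refine sum_congr rfl fun j hj => ?_
      have hc := Nat.add_one_mul_choose_eq e' j
      have hc' : ((e' + 1 : ℕ) : ℝ) * (e'.choose j : ℝ) =
          ((e' + 1).choose (j + 1) : ℝ) * ((j + 1 : ℕ) : ℝ) := by exact_mod_cast hc
      simp only [binom, show e' + 1 - (j + 1) = e' - j by omega, pow_succ]
      linear_combination -(s * s ^ j * (1 - s) ^ (e' - j)) * hc'
    exact e ▸ hasSum_sum_of_ne_finset_zero (f := fun j : ℕ => (j : ℝ) * binom d s j)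
      fun j hj => by rw [supp j hj, mul_zero]
  · have h1 : (d.choose j : ℝ) ≤ (d : ℝ) ^ j / j.factorial := Nat.choose_le_pow_div j d
    have h2 : (1 - s) ^ (d - j) ≤ 1 := pow_le_one₀ hq (by linarith)
    rw [mul_pow, mul_div_right_comm]
    exact (mul_le_of_le_one_right
      (mul_nonneg (Nat.cast_nonneg _) (pow_nonneg hs j)) h2).trans
      (mul_le_mul_of_nonneg_right h1 (pow_nonneg hs j))
  · have hdR : (2 : ℝ) ≤ d := by exact_mod_cast hd
    have h1 : s ≤ (c.mu : ℝ) / d := by rw [le_div_iff₀ (by positivity)]; linarith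
    have h2 : (c.mu : ℝ) / d ≤ 1 := by
      rw [div_le_one (by positivity)]; exact_mod_cast hmu
    have h3 := pow_le_pow_left₀ (by linarith : 0 ≤ 1 - (c.mu : ℝ) / d)
      (by linarith : 1 - (c.mu : ℝ) / d ≤ 1 - s) (d - 2)
    have h4 : 0 ≤ (1 - 1 / (d : ℝ)) / 2 * ((d : ℝ) * s) ^ 2 := by
      have : 1 / (d : ℝ) ≤ 1 := by rw [div_le_one (by positivity)]; linarith
      have : 0 ≤ 1 - 1 / (d : ℝ) := by linarith
      positivity
    simp only [Knot.low, hc, binom, Nat.cast_choose_two]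
    push_cast
    calc (1 - 1 / (d : ℝ)) / 2 * (1 - (c.mu : ℝ) / d) ^ (d - 2) * ((d : ℝ) * s) ^ 2
        = (1 - 1 / (d : ℝ)) / 2 * ((d : ℝ) * s) ^ 2 * (1 - (c.mu : ℝ) / d) ^ (d - 2) := by ring
      _ ≤ (1 - 1 / (d : ℝ)) / 2 * ((d : ℝ) * s) ^ 2 * (1 - s) ^ (d - 2) :=
          mul_le_mul_of_nonneg_left h3 h4
      _ = _ := by field_simp

/-- The tail of an admissible law. -/
lemma Law.tail_le {c : Knot} {μ : ℝ} {π : ℕ → ℝ} (L : Law c μ π) (hμ : 0 ≤ μ) {n : ℕ}
    (hn : μ < n + 1) :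
    ∑' i, π (i + n) ≤ μ ^ n / n.factorial * ((n + 1) / (n + 1 - μ)) := by
  have hq : μ / (n + 1) < 1 := (div_lt_one (by positivity)).2 hn
  have hg := (hasSum_geometric_of_lt_one (by positivity : 0 ≤ μ / (n + 1 : ℝ)) hq).mul_left
    (μ ^ n / n.factorial)
  have e : (1 - μ / (n + 1 : ℝ))⁻¹ = (n + 1) / (n + 1 - μ) := by
    rw [one_sub_div (by positivity), inv_div]
  rw [e] at hg
  refine hasSum_le (fun i => (L.le (i + n)).trans ?_)
    ((summable_nat_add_iff n).2 L.total.summable).hasSum hg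
  have hf : ((n.factorial : ℝ) * (n + 1) ^ i) ≤ (n + i).factorial := by
    exact_mod_cast Nat.factorial_mul_pow_le_factorial
  rw [add_comm i n, div_pow, div_mul_div_comm, ← pow_add]
  exact div_le_div_of_nonneg_left (by positivity) (by positivity) hf

/-- An average against an admissible law, compared with the linear function through the first
two values. -/
lemma Law.sum_le {c : Knot} {μ : ℝ} {π : ℕ → ℝ} (L : Law c μ π) (hμ : 0 ≤ μ) {J : ℕ}
    (hJ : μ < J + 2) {f e : ℕ → ℝ} {p K : ℝ} (hp : 0 ≤ p) (hK : 0 ≤ K)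
    (hf : Summable fun j => π j * f j) (hlow : ∀ j ≤ J, f j ≤ j * p + e j)
    (hhigh : ∀ j, J < j → f j ≤ K) :
    ∑' j, π j * f j ≤ μ * p + ∑ j ∈ range (J + 1), π j * e j
      + K * (μ ^ (J + 1) / (J + 1).factorial * ((J + 2) / (J + 2 - μ))) := by
  have t1 := L.tail_le hμ (n := J + 1) (by push_cast; linarith)
  push_cast at t1
  rw [show ((J : ℝ) + 1 + 1) = J + 2 by ring] at t1
  have sT : Summable fun i => π (i + (J + 1)) := (summable_nat_add_iff (J + 1)).2 L.total.summable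
  have split := hf.sum_add_tsum_nat_add (J + 1)
  have h2 : ∑' i, π (i + (J + 1)) * f (i + (J + 1)) ≤ K * ∑' i, π (i + (J + 1)) := by
    refine hasSum_le (fun i => ?_) ((summable_nat_add_iff (J + 1)).2 hf).hasSum
      (sT.hasSum.mul_left K)
    rw [mul_comm K]
    exact mul_le_mul_of_nonneg_left (hhigh _ (by omega)) (L.nonneg _)
  have h1 : ∑ j ∈ range (J + 1), π j * f j ≤
      p * (∑ j ∈ range (J + 1), (j : ℝ) * π j) + ∑ j ∈ range (J + 1), π j * e j := by
    rw [mul_sum, ← sum_add_distrib]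
    refine sum_le_sum fun j hj => ?_
    have := mul_le_mul_of_nonneg_left (hlow j (by have := mem_range.1 hj; omega)) (L.nonneg j)
    linarith
  have h3 := mul_le_mul_of_nonneg_left
    (sum_le_hasSum (f := fun j : ℕ => (j : ℝ) * π j) (range (J + 1))
      (fun j _ => mul_nonneg (Nat.cast_nonneg j) (L.nonneg j)) L.mean)
    hp
  have h4 := mul_le_mul_of_nonneg_left t1 hK
  rw [← split]
  linarith

/-! ## One step -/

/-- The region of the second phase. -/
def Region (c : Knot) (A B : ℝ) : Prop :=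
  2 * A + B / 2 ≤ c.x0 ∧ -(c.k1 * (2 * A + B / 2)) ≤ 2 * A - B / 4 ∧
    2 * A - B / 4 ≤ c.k2 * (2 * A + B / 2) ∧ 0 ≤ A ∧ 0 ≤ B

lemma uof_cast (r : ℚ) : ((uof r : ℚ) : ℝ) = uof (r : ℝ) := by
  simp only [uof]; push_cast; rfl

lemma uof_mono {r s : ℝ} (hs : s ≤ 1 / 2) (h : r ≤ s) : uof r ≤ uof s := by
  rw [uof, uof, div_le_div_iff₀ (by linarith) (by linarith)]
  nlinarith

lemma uof_spec {r : ℝ} (hr : 9 - 6 * r ≠ 0) : (9 - 6 * r) * uof r = 1 + 2 * r := by
  rw [uof, mul_comm, div_mul_cancel₀ _ hr]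

/-- The mean number of informative children. -/
noncomputable def mean (l : ℚ) (x r : ℝ) : ℝ := x * (3 / 2 - r) / (l : ℝ) ^ 2

/-- Intensity of perfect children. -/
lemma mean_mul_uof (l : ℚ) (x T b : ℝ) (hl : l ≠ 0) (hx : x ≠ 0)
    (hr : 9 - 6 * (b * T / x) ≠ 0) :
    mean l x (b * T / x) * uof (b * T / x) = (x + 2 * (b * T)) / (6 * (l : ℝ) ^ 2) := by
  have hl' : (l : ℝ) ≠ 0 := by exact_mod_cast hl
  generalize hq : b * T / x = q at hr ⊢
  have hbT : b * T = q * x := by rw [← hq, div_mul_cancel₀ _ hx]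
  have hu := uof_spec hr
  rw [hbT, mean, div_mul_eq_mul_div, div_eq_div_iff (pow_ne_zero 2 hl') (by positivity)]
  linear_combination (x * (l : ℝ) ^ 2) * hu

/-- Intensity of excluding children. -/
lemma mean_mul_one_sub_uof (l : ℚ) (x T b : ℝ) (hl : l ≠ 0) (hx : x ≠ 0)
    (hr : 9 - 6 * (b * T / x) ≠ 0) :
    mean l x (b * T / x) * (1 - uof (b * T / x)) = 4 * (x - b * T) / (3 * (l : ℝ) ^ 2) := by
  have hl' : (l : ℝ) ≠ 0 := by exact_mod_cast hl
  generalize hq : b * T / x = q at hr ⊢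
  have hbT : b * T = q * x := by rw [← hq, div_mul_cancel₀ _ hx]
  have hu := uof_spec hr
  rw [hbT, mean, div_mul_eq_mul_div, div_eq_div_iff (pow_ne_zero 2 hl') (by positivity)]
  linear_combination -(x * (l : ℝ) ^ 2 / 2) * hu

lemma pow_bound {μ : ℝ} {m : ℚ} (hμ : 0 ≤ μ) (h : μ ≤ m) {j k : ℕ} (hk : k ≤ j) :
    μ ^ j / j.factorial ≤ μ ^ k * ((m : ℝ) ^ (j - k) / j.factorial) := by
  rw [mul_div_assoc']
  refine div_le_div_of_nonneg_right ?_ (by positivity)
  calc μ ^ j = μ ^ k * μ ^ (j - k) := by rw [← pow_add, Nat.add_sub_cancel' hk]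
    _ ≤ μ ^ k * (m : ℝ) ^ (j - k) :=
      mul_le_mul_of_nonneg_left (pow_le_pow_left₀ hμ h _) (pow_nonneg hμ k)

lemma tail_bound (c : Knot) (hJ : 2 ≤ c.J) (hm : c.mu < c.J + 2) {μ : ℝ} (hμ : 0 ≤ μ)
    (h : μ ≤ c.mu) {k : ℕ} (hk : k ≤ 2) :
    μ ^ (c.J + 1) / (c.J + 1).factorial * ((c.J + 2) / (c.J + 2 - μ)) ≤
      μ ^ k * (c.tail k : ℝ) := by
  have hm' : (c.mu : ℝ) < c.J + 2 := by exact_mod_cast hm
  have h1 := pow_bound (m := c.mu) hμ h (j := c.J + 1) (k := k) (by omega)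
  have h2 : ((c.J : ℝ) + 2) / (c.J + 2 - μ) ≤ ((c.J : ℝ) + 2) / (c.J + 2 - c.mu) :=
    div_le_div_of_nonneg_left (by positivity) (by linarith) (by linarith)
  simp only [Knot.tail]
  push_cast
  rw [← mul_assoc]
  exact mul_le_mul h1 h2 (div_nonneg (by positivity) (by linarith))
    (mul_nonneg (pow_nonneg hμ k) (div_nonneg (pow_nonneg (le_trans hμ h) _) (by positivity)))

/-- One step of the recursion in the region, on one piece. -/
theorem piece_step (c : Knot) (hok : c.ok = true) {P : Piece} (hP : P ∈ c.pieces) {x r : ℝ}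
    (hx : 0 ≤ x) (hr0 : (P.r0 : ℝ) ≤ r) (hr1 : r ≤ P.r1) {π za zb : ℕ → ℝ}
    (hμmu : mean c.l x r ≤ c.mu) (L : Law c (mean c.l x r) π)
    (hz : ∀ j, 0 ≤ za j ∧ 0 ≤ zb j ∧ za j + zb j ≤ 1) (h0 : za 0 = 0 ∧ zb 0 = 0)
    (h1 : za 1 ≤ ((c.l : ℝ) ^ 2 * (1 + 3 * uof r) / 2
        + 2 * ((c.l : ℝ) ^ 3 * (1 - 9 * uof r) / 4)) / 6 ∧
      zb 1 ≤ 4 * ((c.l : ℝ) ^ 2 * (1 + 3 * uof r) / 2
        - (c.l : ℝ) ^ 3 * (1 - 9 * uof r) / 4) / 3)
    (hz2 : ∀ j ≤ c.J, 2 ≤ j → za j ≤ Bern.ev (uof r) j (Bern.castL (c.rowA j)) ∧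
      zb j ≤ Bern.ev (uof r) j (Bern.castL (c.rowB j))) :
    2 * (∑' j, π j * za j) + (∑' j, π j * zb j) / 2 ≤ x - c.eta * x ^ 2 ∧
      6 * (∑' j, π j * za j) ≤ (1 + 2 * c.k2) * (1 - c.eta * c.x0) * x ∧
      3 / 4 * (∑' j, π j * zb j) ≤ (1 + c.k1) * (1 - c.eta * c.x0) * x := by
  simp only [Knot.ok, Bool.and_eq_true, decide_eq_true_eq, List.all_eq_true] at hok
  obtain ⟨⟨⟨hl0, hl1⟩, ⟨hk10, hk1⟩, ⟨hk20, hk2⟩, -, ⟨heta, -⟩, ⟨hmu0, hmuJ, -⟩, hJ, hlen⟩, -, -,
    hpieces⟩ := hok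
  have hp := hpieces P hP
  simp only [Knot.pieceOK, Bool.and_eq_true, decide_eq_true_eq, List.all_eq_true] at hp
  obtain ⟨⟨⟨hPa, hPb, hPc⟩, hd2, hcx, hA, hB⟩, hrows⟩ := hp
  -- casts of the data
  have hl : (0 : ℝ) < c.l := by exact_mod_cast hl0
  have hl2 : (0 : ℝ) < (c.l : ℝ) ^ 2 := by positivity
  have hlh : (c.l : ℝ) ≤ 1 / 2 := by
    have : ((c.l : ℚ) : ℝ) ≤ ((1 / 2 : ℚ) : ℝ) := by exact_mod_cast hl1
    simpa using this
  have hP0 : (-(1 / 2) : ℝ) ≤ P.r0 := by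
    have : ((-(1 / 2) : ℚ) : ℝ) ≤ ((P.r0 : ℚ) : ℝ) := by exact_mod_cast (by linarith)
    simpa using this
  have hP1 : (P.r1 : ℝ) ≤ 1 / 2 := by
    have : ((P.r1 : ℚ) : ℝ) ≤ ((1 / 2 : ℚ) : ℝ) := by exact_mod_cast (hPc.trans hk2)
    simpa using this
  have hden : (9 : ℝ) - 6 * r ≠ 0 := by linarith
  set μ := mean c.l x r with hμdef
  set u := uof r with hu
  set x1 := (c.l : ℝ) ^ 2 * (1 + 3 * u) / 2 with hx1
  set t1 := (c.l : ℝ) ^ 3 * (1 - 9 * u) / 4 with ht1
  have hμ : 0 ≤ μ := div_nonneg (mul_nonneg hx (by linarith)) hl2.le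
  have hu0 : 0 ≤ u := div_nonneg (by linarith) (by linarith)
  have hx1p : 0 < x1 := by rw [hx1]; positivity
  have hus := uof_spec hden
  rw [← hu] at hus
  have hμx : μ * x1 = x := by
    rw [hμdef, mean, hx1, div_mul_div_comm, div_eq_iff (by positivity)]
    linear_combination (x * (c.l : ℝ) ^ 2 / 2) * hus
  have et1 : t1 = -(c.l * r * x1) := by
    rw [ht1, hx1]
    linear_combination -((c.l : ℝ) ^ 3 / 4) * hus
  have hrh : |r| ≤ 1 / 2 := abs_le.2 ⟨by linarith, by linarith⟩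
  have hlr : |(c.l : ℝ) * r| ≤ 1 / 4 := by
    rw [abs_mul, abs_of_pos hl]
    calc (c.l : ℝ) * |r| ≤ 1 / 2 * (1 / 2) := mul_le_mul hlh hrh (abs_nonneg r) (by norm_num)
      _ = 1 / 4 := by norm_num
  obtain ⟨hlr0, hlr1⟩ := abs_le.1 hlr
  have hpA : 0 ≤ x1 + 2 * t1 := by
    rw [et1, show x1 + 2 * -((c.l : ℝ) * r * x1) = x1 * (1 - 2 * (c.l * r)) by ring]
    exact mul_nonneg hx1p.le (by linarith)
  have hpB : 0 ≤ x1 - t1 := by
    rw [et1, show x1 - -((c.l : ℝ) * r * x1) = x1 * (1 + c.l * r) by ring]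
    exact mul_nonneg hx1p.le (by linarith)
  have hulo : ((uof P.r0 : ℚ) : ℝ) ≤ u := by
    rw [uof_cast]; exact uof_mono (by linarith) hr0
  have huhi : u ≤ ((uof P.r1 : ℚ) : ℝ) := by
    rw [uof_cast]; exact uof_mono hP1 hr1
  -- rows
  have evX : ∀ j : ℕ, Bern.ev u j (Bern.castL (c.linX j)) = j * x1 := fun j => by
    rw [Knot.linX, ← Bern.aff_cast, Bern.ev_aff, hx1]
    push_cast; ring
  have evT : ∀ j : ℕ, Bern.ev u j (Bern.castL (c.linT j)) = j * t1 := fun j => by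
    rw [Knot.linT, ← Bern.aff_cast, Bern.ev_aff, ht1]
    push_cast; ring
  have lenX : ∀ j, (Bern.castL (c.linX j)).length = j + 1 := fun j =>
    (List.length_map _).trans (Bern.aff_length _ _ _)
  have lenT : ∀ j, (Bern.castL (c.linT j)).length = j + 1 := fun j =>
    (List.length_map _).trans (Bern.aff_length _ _ _)
  have row : ∀ j, 2 ≤ j → j ≤ c.J →
      2 * za j + zb j / 2 ≤ j * x1 + (at2 P.dX j : ℝ) * x1 ∧
      6 * za j ≤ j * (x1 + 2 * t1) + (at2 P.dA j : ℝ) * x1 ∧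
      3 / 4 * zb j ≤ j * (x1 - t1) + (at2 P.dB j : ℝ) * x1 := by
    intro j hj2 hjJ
    have hr := hrows j (List.mem_range.2 (by omega))
    simp only [Bool.or_eq_true, decide_eq_true_eq, show ¬j < 2 by omega, false_or,
      Knot.rowOK, Bool.and_eq_true] at hr
    obtain ⟨l1, l2⟩ := hlen j (by omega) hj2
    have lA : (Bern.castL (c.rowA j)).length = j + 1 := (List.length_map _).trans l1
    have lB : (Bern.castL (c.rowB j)).length = j + 1 := (List.length_map _).trans l2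
    have lcomb : ∀ (a b : ℝ) (L M : List ℝ), L.length = j + 1 → M.length = j + 1 →
        (Bern.comb a b L M).length = j + 1 := fun a b L M hL hM => by
      simp [Bern.comb, hL, hM]
    obtain ⟨hza, hzb⟩ := hz2 j hjJ hj2
    have hj : (j : ℝ) ≠ 0 := by exact_mod_cast (show j ≠ 0 by omega)
    have g1 := Bern.ev_nonpos hulo huhi hr.1
    have g2 := Bern.ev_nonpos hulo huhi hr.2.1
    have g3 := Bern.ev_nonpos hulo huhi hr.2.2
    rw [← Bern.comb_cast, ← Bern.comb_cast,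
      Bern.ev_comb _ _ _ _ _ _ (by rw [lcomb _ _ _ _ lA lB, lenX]),
      Bern.ev_comb _ _ _ _ _ _ (by rw [lA, lB]), evX] at g1
    rw [← Bern.comb_cast, ← Bern.comb_cast,
      Bern.ev_comb _ _ _ _ _ _ (by rw [lA, lcomb _ _ _ _ (lenX j) (lenT j)]),
      Bern.ev_comb _ _ _ _ _ _ (by rw [lenX, lenT]), evX, evT] at g2
    rw [← Bern.comb_cast, ← Bern.comb_cast,
      Bern.ev_comb _ _ _ _ _ _ (by rw [lB, lcomb _ _ _ _ (lenX j) (lenT j)]),
      Bern.ev_comb _ _ _ _ _ _ (by rw [lenX, lenT]), evX, evT] at g3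
    push_cast at g1 g2 g3
    have ea : ((at2 P.dX j : ℝ) / j) * (j * x1) = (at2 P.dX j : ℝ) * x1 := by field_simp
    have eb : ((at2 P.dA j : ℝ) / j) * (j * x1) = (at2 P.dA j : ℝ) * x1 := by field_simp
    have ec : ((at2 P.dB j : ℝ) / j) * (j * x1) = (at2 P.dB j : ℝ) * x1 := by field_simp
    exact ⟨by linarith, by linarith, by linarith⟩
  -- summability
  have hsA : Summable fun j => π j * za j :=
    Summable.of_nonneg_of_le (fun j => mul_nonneg (L.nonneg j) (hz j).1)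
      (fun j => mul_le_of_le_one_right (L.nonneg j) (by linarith [(hz j).2.1, (hz j).2.2]))
      L.total.summable
  have hsB : Summable fun j => π j * zb j :=
    Summable.of_nonneg_of_le (fun j => mul_nonneg (L.nonneg j) (hz j).2.1)
      (fun j => mul_le_of_le_one_right (L.nonneg j) (by linarith [(hz j).1, (hz j).2.2]))
      L.total.summable
  have sX : HasSum (fun j => π j * (2 * za j + zb j / 2))
      (2 * (∑' j, π j * za j) + (∑' j, π j * zb j) / 2) :=
    ((hsA.hasSum.mul_left 2).add (hsB.hasSum.div_const 2)).congr_fun fun j => by ring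
  have sA : HasSum (fun j => π j * (6 * za j)) (6 * (∑' j, π j * za j)) :=
    (hsA.hasSum.mul_left 6).congr_fun fun j => by ring
  have sB : HasSum (fun j => π j * (3 / 4 * zb j)) (3 / 4 * (∑' j, π j * zb j)) :=
    (hsB.hasSum.mul_left (3 / 4)).congr_fun fun j => by ring
  have hmJ : μ < c.J + 2 := lt_of_le_of_lt hμmu (by exact_mod_cast hmuJ)
  have T2 := tail_bound c hJ hmuJ hμ hμmu (k := 2) le_rfl
  have T1 := tail_bound c hJ hmuJ hμ hμmu (k := 1) (by norm_num)
  rw [pow_one] at T1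
  have hxmR : (0 : ℝ) < c.xmin P := by
    simp only [Knot.xmin]; push_cast
    rw [uof_cast]
    have : 0 ≤ uof (P.r0 : ℝ) := div_nonneg (by linarith) (by linarith)
    positivity
  have hxminle : (c.xmin P : ℝ) ≤ x1 := by
    simp only [Knot.xmin]; push_cast; rw [hx1]
    gcongr
  have hxmaxge : x1 ≤ (c.xmax P : ℝ) := by
    simp only [Knot.xmax]; push_cast; rw [hx1]
    gcongr
  have one_le : 1 ≤ x1 / (c.xmin P : ℝ) := (one_le_div hxmR).2 hxminle
  have hT0 : ∀ k : ℕ, 0 ≤ (c.tail k : ℝ) := fun k => by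
    have : (c.mu : ℝ) < c.J + 2 := by exact_mod_cast hmuJ
    have h' : (0 : ℝ) < c.J + 2 - c.mu := by linarith
    have : (0 : ℝ) < c.mu := by exact_mod_cast hmu0
    simp only [Knot.tail]; push_cast; positivity
  have posb : ∀ D : List ℚ,
      ∑ j ∈ range (c.J + 1), π j * (if j < 2 then 0 else max (at2 D j : ℝ) 0 * x1) ≤
        x * (c.posSum D : ℝ) := by
    intro D
    simp only [Knot.posSum]
    push_cast [apply_ite (fun q : ℚ => (q : ℝ))]
    rw [mul_sum]
    refine sum_le_sum fun j _ => ?_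
    rcases lt_or_ge j 2 with h | h
    · simp [h]
    · rw [if_neg (by omega), if_neg (by omega), ← hμx]
      have hb := (L.le j).trans (pow_bound (m := c.mu) hμ hμmu (show 1 ≤ j by omega))
      rw [pow_one] at hb
      refine (mul_le_mul_of_nonneg_right hb
        (mul_nonneg (le_max_right _ _) hx1p.le)).trans (le_of_eq ?_)
      ring
  refine ⟨?_, ?_, ?_⟩
  · -- second moment
    have key := L.sum_le hμ hmJ (f := fun j => 2 * za j + zb j / 2)
      (e := fun j => if j < 2 then 0 else (at2 P.dX j : ℝ) * x1) (p := x1) (K := 2)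
      hx1p.le (by norm_num) sX.summable
      (fun j hj => by
        rcases lt_or_ge j 2 with h | h
        · interval_cases j
          · simp [h0.1, h0.2]
          · rw [if_pos h]; push_cast; linarith [h1.1, h1.2]
        · rw [if_neg (by omega)]; exact (row j h hj).1)
      (fun j _ => by linarith [(hz j).1, (hz j).2.1, (hz j).2.2])
    rw [sX.tsum_eq, hμx] at key
    refine key.trans ?_
    have hS : ∀ j ∈ range (c.J + 1),
        π j * (if j < 2 then 0 else (at2 P.dX j : ℝ) * x1) ≤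
        μ ^ 2 * x1 * ((if j = 2 then (at2 P.dX 2 : ℝ) * c.low else 0)
          + if j < 3 then 0 else
              max (at2 P.dX j : ℝ) 0 * ((c.mu : ℝ) ^ (j - 2) / j.factorial)) := by
      intro j _
      rcases lt_trichotomy j 2 with h | rfl | h
      · simp [h, show j ≠ 2 by omega, show j < 3 by omega]
      · rw [if_neg (lt_irrefl 2), if_pos rfl, if_pos (by norm_num), add_zero]
        have hn : (at2 P.dX 2 : ℝ) ≤ 0 := by exact_mod_cast hd2
        have := mul_le_mul_of_nonpos_right L.two (mul_nonpos_of_nonpos_of_nonneg hn hx1p.le)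
        linarith
      · rw [if_neg (by omega), if_neg (by omega), if_neg (by omega), zero_add]
        calc π j * ((at2 P.dX j : ℝ) * x1)
            ≤ π j * (max (at2 P.dX j : ℝ) 0 * x1) :=
              mul_le_mul_of_nonneg_left
                (mul_le_mul_of_nonneg_right (le_max_left _ _) hx1p.le) (L.nonneg j)
          _ ≤ μ ^ 2 * ((c.mu : ℝ) ^ (j - 2) / j.factorial) * (max (at2 P.dX j : ℝ) 0 * x1) :=
              mul_le_mul_of_nonneg_right
                ((L.le j).trans (pow_bound hμ hμmu (by omega)))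
                (mul_nonneg (le_max_right _ _) hx1p.le)
          _ = _ := by ring
    have hS' := sum_le_sum hS
    rw [← mul_sum, sum_add_distrib, sum_ite_eq', if_pos (mem_range.2 (by omega))] at hS'
    have hR : 2 * (μ ^ (c.J + 1) / (c.J + 1).factorial * ((c.J + 2) / (c.J + 2 - μ))) ≤
        μ ^ 2 * x1 * (2 * (c.tail 2 : ℝ) / (c.xmin P : ℝ)) := by
      refine (mul_le_mul_of_nonneg_left T2 zero_le_two).trans ?_
      calc 2 * (μ ^ 2 * (c.tail 2 : ℝ))
          ≤ 2 * (μ ^ 2 * (c.tail 2 : ℝ)) * (x1 / (c.xmin P : ℝ)) :=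
            le_mul_of_one_le_right (by have := hT0 2; positivity) one_le
        _ = _ := by ring
    have hcxR : ((c.cx P : ℚ) : ℝ) ≤ ((-(c.eta * c.xmax P) : ℚ) : ℝ) := by exact_mod_cast hcx
    simp only [Knot.cx] at hcxR
    push_cast [apply_ite (fun q : ℚ => (q : ℝ))] at hcxR
    have h5 := mul_le_mul_of_nonneg_left hcxR (show 0 ≤ μ ^ 2 * x1 by positivity)
    have hη : (c.eta : ℝ) * x ^ 2 ≤ μ ^ 2 * x1 * ((c.eta : ℝ) * c.xmax P) := by
      rw [← hμx]
      calc (c.eta : ℝ) * (μ * x1) ^ 2 = μ ^ 2 * x1 * ((c.eta : ℝ) * x1) := by ring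
        _ ≤ _ := mul_le_mul_of_nonneg_left
            (mul_le_mul_of_nonneg_left hxmaxge (by exact_mod_cast heta.le)) (by positivity)
    linarith
  · -- weight of the perfect observation
    have key := L.sum_le hμ hmJ (f := fun j => 6 * za j)
      (e := fun j => if j < 2 then 0 else max (at2 P.dA j : ℝ) 0 * x1) (p := x1 + 2 * t1) (K := 6)
      hpA (by norm_num) sA.summable
      (fun j hj => by
        rcases lt_or_ge j 2 with h | h
        · interval_cases j
          · simp [h0.1]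
          · rw [if_pos h]; push_cast; linarith [h1.1]
        · rw [if_neg (by omega)]
          linarith [(row j h hj).2.1,
            mul_le_mul_of_nonneg_right (le_max_left (at2 P.dA j : ℝ) 0) hx1p.le])
      (fun j _ => by linarith [(hz j).2.1, (hz j).2.2])
    rw [sA.tsum_eq] at key
    have e1 : μ * (x1 + 2 * t1) = x * (1 - 2 * ((c.l : ℝ) * r)) := by rw [← hμx, et1]; ring
    have hT : 6 * (μ ^ (c.J + 1) / (c.J + 1).factorial * ((c.J + 2) / (c.J + 2 - μ))) ≤
        x * (6 * (c.tail 1 : ℝ) / (c.xmin P : ℝ)) := by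
      refine (mul_le_mul_of_nonneg_left T1 (by norm_num)).trans ?_
      calc 6 * (μ * (c.tail 1 : ℝ))
          ≤ 6 * (μ * (c.tail 1 : ℝ)) * (x1 / (c.xmin P : ℝ)) :=
            le_mul_of_one_le_right (by have := hT0 1; positivity) one_le
        _ = _ := by rw [← hμx]; ring
    have hAR : ((1 - 2 * (c.l * P.r0) + c.posSum P.dA + 6 * c.tail 1 / c.xmin P : ℚ) : ℝ) ≤
        (((1 + 2 * c.k2) * (1 - c.eta * c.x0) : ℚ) : ℝ) := by exact_mod_cast hA
    push_cast at hAR
    have h6 : x * ((c.l : ℝ) * P.r0) ≤ x * ((c.l : ℝ) * r) :=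
      mul_le_mul_of_nonneg_left (mul_le_mul_of_nonneg_left hr0 hl.le) hx
    linarith [posb P.dA, mul_le_mul_of_nonneg_left hAR hx]
  · -- weight of the excluding observation
    have key := L.sum_le hμ hmJ (f := fun j => 3 / 4 * zb j)
      (e := fun j => if j < 2 then 0 else max (at2 P.dB j : ℝ) 0 * x1) (p := x1 - t1) (K := 3 / 4)
      hpB (by norm_num) sB.summable
      (fun j hj => by
        rcases lt_or_ge j 2 with h | h
        · interval_cases j
          · simp [h0.2]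
          · rw [if_pos h]; push_cast; linarith [h1.2]
        · rw [if_neg (by omega)]
          linarith [(row j h hj).2.2,
            mul_le_mul_of_nonneg_right (le_max_left (at2 P.dB j : ℝ) 0) hx1p.le])
      (fun j _ => by linarith [(hz j).1, (hz j).2.2])
    rw [sB.tsum_eq] at key
    have e1 : μ * (x1 - t1) = x * (1 + (c.l : ℝ) * r) := by rw [← hμx, et1]; ring
    have hT : 3 / 4 * (μ ^ (c.J + 1) / (c.J + 1).factorial * ((c.J + 2) / (c.J + 2 - μ))) ≤
        x * (3 / 4 * (c.tail 1 : ℝ) / (c.xmin P : ℝ)) := by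
      refine (mul_le_mul_of_nonneg_left T1 (by norm_num)).trans ?_
      calc 3 / 4 * (μ * (c.tail 1 : ℝ))
          ≤ 3 / 4 * (μ * (c.tail 1 : ℝ)) * (x1 / (c.xmin P : ℝ)) :=
            le_mul_of_one_le_right (by have := hT0 1; positivity) one_le
        _ = _ := by rw [← hμx]; ring
    have hBR : ((1 + c.l * P.r1 + c.posSum P.dB + 3 / 4 * c.tail 1 / c.xmin P : ℚ) : ℝ) ≤
        (((1 + c.k1) * (1 - c.eta * c.x0) : ℚ) : ℝ) := by exact_mod_cast hB
    push_cast at hBR
    have h6 : x * ((c.l : ℝ) * r) ≤ x * ((c.l : ℝ) * P.r1) :=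
      mul_le_mul_of_nonneg_left (mul_le_mul_of_nonneg_left hr1 hl.le) hx
    linarith [posb P.dB, mul_le_mul_of_nonneg_left hBR hx]

/-- One step of the recursion: from weights in the region, weights in the region that bound the
new ones and have `x` smaller by `eta x ^ 2`. -/
theorem step (c : Knot) (hok : c.ok = true) {A B b : ℝ} (hR : Region c A B) (hb0 : 0 ≤ b)
    (hb1 : b ≤ 1) {π za zb : ℕ → ℝ}
    (hL : ∀ μ, μ = mean c.l (2 * A + B / 2) (b * (2 * A - B / 4) / (2 * A + B / 2)) →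
      0 ≤ μ → μ ≤ c.mu → Law c μ π)
    (hz : ∀ j, 0 ≤ za j ∧ 0 ≤ zb j ∧ za j + zb j ≤ 1) (h0 : za 0 = 0 ∧ zb 0 = 0)
    (h1 : ∀ u, u = uof (b * (2 * A - B / 4) / (2 * A + B / 2)) →
      za 1 ≤ ((c.l : ℝ) ^ 2 * (1 + 3 * u) / 2 + 2 * ((c.l : ℝ) ^ 3 * (1 - 9 * u) / 4)) / 6 ∧
      zb 1 ≤ 4 * ((c.l : ℝ) ^ 2 * (1 + 3 * u) / 2 - (c.l : ℝ) ^ 3 * (1 - 9 * u) / 4) / 3)
    (hz2 : ∀ u, u = uof (b * (2 * A - B / 4) / (2 * A + B / 2)) → ∀ j ≤ c.J, 2 ≤ j →
      za j ≤ Bern.ev u j (Bern.castL (c.rowA j)) ∧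
      zb j ≤ Bern.ev u j (Bern.castL (c.rowB j))) :
    ∃ A' B' : ℝ, Region c A' B' ∧
      2 * A' + B' / 2 ≤ (2 * A + B / 2) - c.eta * (2 * A + B / 2) ^ 2 ∧ A' + B' ≤ 1 ∧
      ∑' j, π j * za j ≤ A' ∧ ∑' j, π j * zb j ≤ B' := by
  have hok' := hok
  simp only [Knot.ok, Bool.and_eq_true, decide_eq_true_eq] at hok'
  obtain ⟨⟨⟨hl0, -⟩, ⟨hk10, hk1⟩, ⟨hk20, hk2⟩, ⟨hx00, hx0h⟩, ⟨heta, hetax⟩, ⟨-, -, hmu⟩, -, -⟩, -,
    hcov, -⟩ := hok'
  obtain ⟨hx0, hT0, hT1, hA, hB⟩ := hR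
  set x := 2 * A + B / 2
  set T := 2 * A - B / 4
  have hx : 0 ≤ x := by positivity
  set r := b * T / x with hr
  have k1 : (0 : ℝ) ≤ c.k1 := by exact_mod_cast hk10
  have k2 : (0 : ℝ) ≤ c.k2 := by exact_mod_cast hk20
  have k1' : (c.k1 : ℝ) ≤ 1 / 2 := by
    have : ((c.k1 : ℚ) : ℝ) ≤ ((1 / 2 : ℚ) : ℝ) := by exact_mod_cast hk1
    simpa using this
  have k2' : (c.k2 : ℝ) ≤ 1 / 2 := by
    have : ((c.k2 : ℚ) : ℝ) ≤ ((1 / 2 : ℚ) : ℝ) := by exact_mod_cast hk2
    simpa using this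
  have hx0' : (c.x0 : ℝ) ≤ 1 / 2 := by
    have : ((c.x0 : ℚ) : ℝ) ≤ ((1 / 2 : ℚ) : ℝ) := by exact_mod_cast hx0h
    simpa using this
  have hrr : -(c.k1 : ℝ) ≤ r ∧ r ≤ c.k2 := by
    rcases hx.eq_or_lt with h | h
    · rw [hr, ← h, div_zero]; exact ⟨by linarith, k2⟩
    · rw [hr, le_div_iff₀ h, div_le_iff₀ h]
      constructor
      · nlinarith [mul_le_mul_of_nonneg_left hT0 hb0,
          mul_le_mul_of_nonneg_right hb1 (mul_nonneg k1 h.le)]
      · nlinarith [mul_le_mul_of_nonneg_left hT1 hb0,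
          mul_le_mul_of_nonneg_right hb1 (mul_nonneg k2 h.le)]
  obtain ⟨P, hP, hr0, hr1⟩ := covers_sound hcov r (by push_cast; exact hrr.1) hrr.2
  have hl2 : (0 : ℝ) < (c.l : ℝ) ^ 2 := by
    have : (0 : ℝ) < c.l := by exact_mod_cast hl0
    positivity
  have hμ0 : 0 ≤ mean c.l x r := div_nonneg (mul_nonneg hx (by linarith)) hl2.le
  have hμmu : mean c.l x r ≤ c.mu := by
    rw [mean, div_le_iff₀ hl2]
    calc x * (3 / 2 - r) ≤ (c.x0 : ℝ) * (3 / 2 + c.k1) :=
          mul_le_mul hx0 (by linarith [hrr.1]) (by linarith [hrr.2]) (by exact_mod_cast hx00)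
      _ ≤ _ := by
          have : ((c.x0 * (3 / 2 + c.k1) : ℚ) : ℝ) ≤ ((c.mu * c.l ^ 2 : ℚ) : ℝ) := by
            exact_mod_cast hmu
          push_cast at this
          linarith
  obtain ⟨hx', hA', hB'⟩ := piece_step c hok hP hx hr0 hr1 hμmu (hL _ rfl hμ0 hμmu) hz h0
    (h1 _ rfl) (hz2 _ rfl)
  set a := ∑' j, π j * za j
  set b' := ∑' j, π j * zb j
  have hη : (0 : ℝ) < c.eta := by exact_mod_cast heta
  have hηx : (c.eta : ℝ) * c.x0 < 1 := by exact_mod_cast hetax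
  set X := x - (c.eta : ℝ) * x ^ 2 with hX'
  have hlow : (1 - (c.eta : ℝ) * c.x0) * x ≤ X := by
    have := mul_le_mul_of_nonneg_left (mul_le_mul_of_nonneg_right hx0 hx) hη.le
    rw [hX']; linarith
  have hX0 : 0 ≤ X := le_trans (mul_nonneg (by linarith) hx) hlow
  have hXx : X ≤ x := by
    have : 0 ≤ (c.eta : ℝ) * x ^ 2 := by positivity
    rw [hX']; linarith
  have hA'' : 6 * a ≤ (1 + 2 * c.k2) * X := hA'.trans (by
    rw [mul_assoc]; exact mul_le_mul_of_nonneg_left hlow (by linarith))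
  have hB'' : 3 / 4 * b' ≤ (1 + c.k1) * X := hB'.trans (by
    rw [mul_assoc]; exact mul_le_mul_of_nonneg_left hlow (by linarith))
  set S := max (3 * a - X / 2) (-(c.k1 * X)) with hS
  have S0 : 3 * a - X / 2 ≤ S := le_max_left _ _
  have S1 : -(c.k1 * X) ≤ S := le_max_right _ _
  have hku := mul_nonneg k2 hX0
  have hkd := mul_nonneg k1 hX0
  have hu := mul_le_mul_of_nonneg_right k2' hX0
  have hd := mul_le_mul_of_nonneg_right k1' hX0
  have S2 : S ≤ c.k2 * X := max_le (by linarith) (by linarith)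
  have S3 : S ≤ X - 3 / 4 * b' := max_le (by linarith) (by linarith)
  have eT : 2 * ((X + 2 * S) / 6) - 4 * (X - S) / 3 / 4 = S := by ring
  have eX : 2 * ((X + 2 * S) / 6) + 4 * (X - S) / 3 / 2 = X := by ring
  refine ⟨(X + 2 * S) / 6, 4 * (X - S) / 3, ?_, ?_, ?_, ?_, ?_⟩
  · refine ⟨?_, ?_, ?_, ?_, ?_⟩
    · rw [eX]; linarith
    · rw [eX, eT]; exact S1
    · rw [eX, eT]; exact S2
    · linarith
    · linarith
  · rw [eX]
  · linarith
  · linarith
  · linarith

/-- Iterating the step: a family of upper bounds closed under it becomes arbitrarily small. -/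
theorem tendsto (c : Knot) (hok : c.ok = true) {Q : ℕ → ℝ → ℝ → Prop} {n₀ : ℕ} {A₀ B₀ : ℝ}
    (h₀ : Region c A₀ B₀) (hQ₀ : Q n₀ A₀ B₀)
    (hstep : ∀ n A B, Region c A B → Q n A B → ∃ A' B', Region c A' B' ∧
      2 * A' + B' / 2 ≤ (2 * A + B / 2) - c.eta * (2 * A + B / 2) ^ 2 ∧ Q (n + 1) A' B') :
    ∀ ε > 0, ∃ N, ∀ n ≥ N, ∃ A B, Q n A B ∧ 0 ≤ A ∧ 0 ≤ B ∧ 2 * A + B / 2 ≤ ε := by
  intro ε hε
  simp only [Knot.ok, Bool.and_eq_true, decide_eq_true_eq] at hok
  have hη : (0 : ℝ) < c.eta := by exact_mod_cast hok.1.2.2.2.2.1.1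
  have main : ∀ i : ℕ, ∃ A B, Region c A B ∧ Q (n₀ + i) A B ∧
      (2 * A + B / 2 ≤ ε ∨ 2 * A + B / 2 ≤ (c.x0 : ℝ) - i * ((c.eta : ℝ) * ε ^ 2)) := by
    intro i
    induction i with
    | zero => exact ⟨A₀, B₀, h₀, hQ₀, Or.inr (by simpa using h₀.1)⟩
    | succ i ih =>
      obtain ⟨A, B, hR, hQ, hor⟩ := ih
      obtain ⟨A', B', hR', hx', hQ'⟩ := hstep _ A B hR hQ
      refine ⟨A', B', hR', hQ', ?_⟩
      have hsq : 0 ≤ (c.eta : ℝ) * (2 * A + B / 2) ^ 2 := by positivity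
      rcases hor with h | h
      · exact Or.inl (by linarith)
      · rcases le_or_gt (2 * A + B / 2) ε with h2 | h2
        · exact Or.inl (by linarith)
        · right
          have := mul_le_mul_of_nonneg_left (pow_le_pow_left₀ hε.le h2.le 2) hη.le
          push_cast
          linarith
  obtain ⟨I, hI⟩ := exists_nat_gt ((c.x0 : ℝ) / ((c.eta : ℝ) * ε ^ 2))
  refine ⟨n₀ + I, fun n hn => ?_⟩
  obtain ⟨A, B, hR, hQ, hor⟩ := main (n - n₀)
  rw [Nat.add_sub_cancel' (by omega)] at hQ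
  refine ⟨A, B, hQ, hR.2.2.2.1, hR.2.2.2.2, ?_⟩
  rcases hor with h | h
  · exact h
  · have hp : 0 < (c.eta : ℝ) * ε ^ 2 := by positivity
    rw [div_lt_iff₀ hp] at hI
    have hle : (I : ℝ) ≤ ((n - n₀ : ℕ) : ℝ) := by exact_mod_cast (show I ≤ n - n₀ by omega)
    have := mul_le_mul_of_nonneg_right hle hp.le
    linarith

end Vale.Agent.P154.LN.Endgame
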