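import Vale.Agent.P154.LN.Basic
import Vale.Agent.P154.LN.Interval

/-!
Monotone reductions of the antiferromagnetic three-state problem and the last step: a parameter of
smaller absolute value and fewer children give a less informative channel, and a tree channel below
a vanishing mixture of the perfect and excluding observations has vanishing advantage.
-/

namespace Vale.Agent.P154.LN

open Filter Topology

/-- A shrinking kernel before a channel loses information. -/
theorem mix_le_self (C : Chan) {β : ℝ} (h0 : 0 ≤ β) (h1 : β ≤ 1) :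
    Le (mixG C β (by linarith) h1) C := by
  intro b t hb
  have hg : IsTest (fS b t) := ⟨b, t, hb, rfl⟩
  have key : ∀ y : C.ι, fS b t (mixv β (C.V y)) ≤
      β * fS b t (C.V y) + (1 - β) * fS b t (fun _ => 1) * pP (C.V y) := by
    intro y
    have hL := C.nonneg y
    have hc : 0 ≤ (1 - β) * pP (C.V y) := mul_nonneg (by linarith) (pP_nonneg hL)
    have e : mixv β (C.V y) =
        (fun i => β * C.V y i) + fun _ => (1 - β) * pP (C.V y) * 1 := by
      funext i; simp [mixv]
    rw [e]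
    refine (hg.add_le (fun i => mul_nonneg h0 (hL i)) (fun _ => by simpa using hc)).trans
      (le_of_eq ?_)
    rw [fS_smul, fS_smul b t ((1 - β) * pP (C.V y)) (fun _ => 1)]
    ring
  have f1 : HasSum (fun y : C.ι => fS b t (mixv β (C.V y)))
      ((mixG C β (by linarith) h1).E (fS b t)) :=
    ((mixG C β (by linarith) h1).summable (adm_fS t hb)).hasSum
  have h := hasSum_le key f1
    (((C.summable (adm_fS t hb)).hasSum.mul_left β).add
      (C.hasSum_pP.mul_left ((1 - β) * fS b t (fun _ => 1))))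
  refine h.trans ?_
  have := mul_le_mul_of_nonneg_left (fS_one_le C t hb) (sub_nonneg.2 h1)
  change β * C.E (fS b t) + _ ≤ _
  linarith

/-- A kernel of smaller absolute value and the same sign is less informative. -/
theorem mix_le_of_abs (C : Chan) {l lam : ℝ} (hl0 : -(1 / 2) ≤ l) (h1 : l ≤ lam) (h2 : lam ≤ 0) :
    Le (mixG C lam (hl0.trans h1) (by linarith)) (mixG C l hl0 (by linarith)) := by
  rcases (h1.trans h2).eq_or_lt with hl | hl
  · intro b t _
    obtain rfl : lam = l := by linarith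
    exact le_rfl
  have hβ0 : 0 ≤ lam / l := div_nonneg_of_nonpos h2 hl.le
  have hβ1 : lam / l ≤ 1 := by rw [div_le_one_of_neg hl]; exact h1
  intro b t hb
  refine le_trans (le_of_eq (tsum_congr fun y => ?_))
    (mix_mono (mix_le_self C hβ0 hβ1) hl0 (by linarith) b t hb)
  show fS b t (mixv lam (C.V y)) = fS b t (mixv l (mixv (lam / l) (C.V y)))
  rw [mixv_comp, mul_div_cancel₀ _ hl.ne]

lemma E_node_regular (A : Chan) (d : ℕ) {b t : Fin 3 → ℝ} (hb : ∀ i, 0 ≤ b i) :
    (A.node (regularLaw d) (regularLaw_nonneg d) (hasSum_regularLaw d)).E (fS b t) =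
      (A.pw d).E (fS b t) := by
  refine (A.hasSum_node (regularLaw d) (regularLaw_nonneg d) (hasSum_regularLaw d) (adm_fS t hb)
    (fS_smul b t)).unique ((hasSum_ite_eq d ((A.pw d).E (fS b t))).congr_fun fun k => ?_)
  unfold regularLaw
  split_ifs with h <;> simp [h]

/-- Regular trees: fewer children and a weaker kernel are less informative. -/
theorem regular_le {d d₀ : ℕ} {l lam : ℝ} (hd : d ≤ d₀) (hl0 : -(1 / 2) ≤ l) (h1 : l ≤ lam)
    (h2 : lam ≤ 0) (n : ℕ) :
    Le (chanG (hl0.trans h1) (by linarith) (regularLaw_nonneg d) (hasSum_regularLaw d) n)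
      (chanG hl0 (by linarith) (regularLaw_nonneg d₀) (hasSum_regularLaw d₀) n) := by
  induction n with
  | zero => intro b g _; exact le_rfl
  | succ n ih =>
    intro b g hb
    rw [chanG_succ, chanG_succ, E_node_regular _ _ hb, E_node_regular _ _ hb]
    exact ((pw_mono ((mix_le_of_abs _ hl0 h1 h2).trans (mix_mono ih hl0 (by linarith))) d).trans
      (pw_mono_nat _ hd)) b g hb

/-- Poisson trees: a smaller mean is less informative. -/
theorem poisson_le {m e lam : ℝ} (hm : 0 ≤ m) (he : m ≤ e) (h0 : -(1 / 2) ≤ lam) (h1 : lam ≤ 1)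
    (n : ℕ) :
    Le (chanG h0 h1 (poissonLaw_nonneg hm) (hasSum_poissonLaw m) n)
      (chanG h0 h1 (poissonLaw_nonneg (hm.trans he)) (hasSum_poissonLaw e) n) := by
  induction n with
  | zero => intro b g _; exact le_rfl
  | succ n ih =>
    intro b g hb
    rw [chanG_succ, chanG_succ]
    exact ((node_mean_mono _ hm he).trans
      (node_mono (mix_mono ih h0 h1) _ (poissonLaw_nonneg (hm.trans he)) (hasSum_poissonLaw e)))
      b g hb

/-- The regular threshold values reduce to `4 ≤ d` at the critical parameter. -/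
theorem neg_inv_sqrt_le {d : ℕ} {lam : ℝ} (h0 : -(1 / 2) ≤ lam) (h2 : lam ≤ 0)
    (h : (d : ℝ) * lam ^ 2 ≤ 1) :
    -(1 / 2) ≤ -(Real.sqrt (max d 4 : ℕ))⁻¹ ∧ -(Real.sqrt (max d 4 : ℕ))⁻¹ ≤ lam := by
  set d₀ : ℕ := max d 4 with hd₀
  have h4 : (4 : ℝ) ≤ d₀ := by exact_mod_cast le_max_right d 4
  have hs : 2 ≤ Real.sqrt d₀ := by
    rw [show (2 : ℝ) = Real.sqrt (2 ^ 2) from (Real.sqrt_sq zero_le_two).symm]
    exact Real.sqrt_le_sqrt (le_trans (by norm_num) h4)
  refine ⟨neg_le_neg ?_, ?_⟩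
  · rw [one_div]; exact inv_anti₀ two_pos hs
  · have hsq : (d₀ : ℝ) * lam ^ 2 ≤ 1 := by
      rcases le_total d 4 with hd | hd
      · rw [hd₀, max_eq_right hd]; push_cast; nlinarith
      · rwa [hd₀, max_eq_left hd]
    rw [neg_le, inv_eq_one_div, le_div_iff₀ (by linarith)]
    nlinarith [Real.sq_sqrt (show (0 : ℝ) ≤ d₀ by linarith),
      sq_nonneg (-lam * Real.sqrt d₀ - 1)]

/-- The chi-square value of a channel under a three-point bound. -/
theorem Below.chi {C : Chan} {a b : ℝ} (h : Below C a b) : C.E fB ≤ 2 * a + b / 2 := by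
  obtain ⟨A, B, hA, hB, -, -, -, -, hg⟩ := h
  have one : ∀ i : Fin 3, (0 : ℝ) ≤ (fun _ => 1 : Fin 3 → ℝ) i := fun _ => zero_le_one
  have e : C.E fB = C.E (fS (fun _ => 1) ![1, 0, 0])
      + C.E (fS (fun _ => 1) ![0, 1, 0]) + C.E (fS (fun _ => 1) ![0, 0, 1]) - 1 := by
    refine HasSum.tsum_eq ?_
    simp only [funext fB_eq_fS]
    exact ((((C.summable (adm_fS _ one)).hasSum).add (C.summable (adm_fS _ one)).hasSum).add
      (C.summable (adm_fS _ one)).hasSum).sub C.hasSum_pP
  have h1 := hg _ ⟨_, ![1, 0, 0], one, rfl⟩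
  have h2 := hg _ ⟨_, ![0, 1, 0], one, rfl⟩
  have h3 := hg _ ⟨_, ![0, 0, 1], one, rfl⟩
  simp [val, orb_def, eP, eE, eU, fS, dot] at h1 h2 h3
  rw [e]
  linarith

/-- Bounded by three-point mixtures whose informative weights tend to zero. -/
def Decay (D : ℕ → Chan) : Prop :=
  ∃ a b : ℕ → ℝ, Tendsto a atTop (𝓝 0) ∧ Tendsto b atTop (𝓝 0) ∧
    ∀ᶠ n in atTop, Below (D n) (a n) (b n)

/-- A tree channel below a decaying one has vanishing advantage. -/
theorem nonrecon_of_decay {lam : ℝ} {ν : ℕ → ℝ} (h0 : -(1 / 2) ≤ lam) (h1 : lam ≤ 1)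
    (hν : ∀ k, 0 ≤ ν k) (hν1 : HasSum ν 1) {D : ℕ → Chan}
    (hle : ∀ n, Le (chanG h0 h1 hν hν1 n) (D n)) (hD : Decay D) :
    Tendsto (advantage 3 lam ν) atTop (𝓝 0) := by
  obtain ⟨a, b, ha, hb, hbelow⟩ := hD
  set T := chanG h0 h1 hν hν1
  have hB : Tendsto (fun n => (T n).E fB) atTop (𝓝 0) :=
    squeeze_zero' (Eventually.of_forall fun n => (T n).E_nonneg fun L hL => fB_nonneg hL)
      (hbelow.mono fun n hn => ((hle n).chi).trans hn.chi)
      (by simpa using (ha.const_mul 2).add (hb.div_const 2))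
  refine (Chan.fA_tendsto_zero hB).congr fun n => ?_
  simp only [advantage, Chan.E, T, chanG, fA, Nat.cast_ofNat]

end Vale.Agent.P154.LN
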