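import Vale.Agent.P154.LN.Recursion

/-!
Weights with exact total mass. The bound `Below` needs a dominating mixture of total mass one;
`RepT` carries upper bounds of the weights together with the exact total of a witness.
-/

namespace Vale.Agent.P154.LN

open Finset

/-- Some weights of total `s`, at most `a, b, c`, dominate `Φ`. -/
def RepT (Φ : ((Fin 3 → ℝ) → ℝ) → ℝ) (a b c s : ℝ) : Prop :=
  ∃ A B C : ℝ, Rep Φ A B C ∧ A ≤ a ∧ B ≤ b ∧ C ≤ c ∧ A + B + C = s

variable {lam A B : ℝ}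

lemma RepT.mono {Φ : ((Fin 3 → ℝ) → ℝ) → ℝ} {a b c a' b' c' s : ℝ} (h : RepT Φ a b c s)
    (ha : a ≤ a') (hb : b ≤ b') (hc : c ≤ c') : RepT Φ a' b' c' s := by
  obtain ⟨A, B, C, hr, hA, hB, hC, hs⟩ := h
  exact ⟨A, B, C, hr, hA.trans ha, hB.trans hb, hC.trans hc, hs⟩

/-- The three weights of a product of children have total one. -/
lemma Xi_total (lam : ℝ) (p q : ℕ) :
    Xi lam p q wP + Xi lam p q wE + Xi lam p q wU = 1 := by
  have e : wP + wE + wU = pP := by
    funext L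
    simp only [Pi.add_apply, wU]
    ring
  have h : Xi lam p q (wP + wE + wU) = Xi lam p q wP + Xi lam p q wE + Xi lam p q wU := by
    simp only [Xi_op, map_add, Pi.add_apply]
  rw [← h, e, Xi_op, Module.End.mul_apply, pow_pP (by rw [pP_mixv]; simp [pP, eE]),
    pow_pP (by rw [pP_mixv]; simp [pP, eP])]
  simp [pP, eU]
  norm_num

/-- The expansion of `powS` with bounds for the weights of each product. -/
theorem powS_repT (h0 : -(1 / 2) ≤ lam) (h1 : lam ≤ 1) (hA : 0 ≤ A) (hB : 0 ≤ B) (j : ℕ)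
    {tP tE tU : ℕ → ℝ} (hP : ∀ p ≤ j, Xi lam p (j - p) wP ≤ tP p)
    (hE : ∀ p ≤ j, Xi lam p (j - p) wE ≤ tE p) (hU : ∀ p ≤ j, Xi lam p (j - p) wU ≤ tU p) :
    RepT (powS lam A B j)
      (∑ p ∈ range (j + 1), (j.choose p : ℝ) * A ^ p * B ^ (j - p) * tP p)
      (∑ p ∈ range (j + 1), (j.choose p : ℝ) * A ^ p * B ^ (j - p) * tE p)
      (∑ p ∈ range (j + 1), (j.choose p : ℝ) * A ^ p * B ^ (j - p) * tU p)
      ((A + B) ^ j) := by
  refine ⟨_, _, _, powS_rep h0 h1 hA hB j, ?_, ?_, ?_, ?_⟩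
  iterate 3
    rw [powS_eq]
    refine sum_le_sum fun p hp => mul_le_mul_of_nonneg_left ?_ (by positivity)
    first
      | exact hP p (Nat.lt_succ_iff.1 (mem_range.1 hp))
      | exact hE p (Nat.lt_succ_iff.1 (mem_range.1 hp))
      | exact hU p (Nat.lt_succ_iff.1 (mem_range.1 hp))
  rw [powS_eq, powS_eq, powS_eq, ← sum_add_distrib, ← sum_add_distrib, add_pow]
  refine sum_congr rfl fun p _ => ?_
  rw [← mul_add, ← mul_add, Xi_total, mul_one]
  ring

lemma entry_total {c r : Fin 3 → ℝ} (hc : pP c = 1) (hr : pP r = 1) :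
    entry lam c r wP + entry lam c r wE + entry lam c r wU = 1 := by
  have h : entry lam c r wP + entry lam c r wE + entry lam c r wU = avg6 pP r (mixv lam c) := by
    simp only [entry, avg6, wU]
    ring
  rw [h, avg6_pP, pP_mixv, hc, hr, one_mul]

/-- One more child after bounds with exact total. -/
theorem powS_succ_repT (h0 : -(1 / 2) ≤ lam) (h1 : lam ≤ 1) (hA : 0 ≤ A) (hB : 0 ≤ B) {j : ℕ}
    {a b c s : ℝ} (hz : RepT (powS lam A B j) a b c s) :
    RepT (powS lam A B (j + 1))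
      (a * (A * entry lam eP eP wP + B * entry lam eE eP wP)
        + b * (A * entry lam eP eE wP + B * entry lam eE eE wP)
        + c * (A * entry lam eP eU wP + B * entry lam eE eU wP))
      (a * (A * entry lam eP eP wE + B * entry lam eE eP wE)
        + b * (A * entry lam eP eE wE + B * entry lam eE eE wE)
        + c * (A * entry lam eP eU wE + B * entry lam eE eU wE))
      (a * (A * entry lam eP eP wU + B * entry lam eE eP wU)
        + b * (A * entry lam eP eE wU + B * entry lam eE eE wU)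
        + c * (A * entry lam eP eU wU + B * entry lam eE eU wU))
      ((A + B) * s) := by
  obtain ⟨zP, zE, zU, hr, hP, hE, hU, hs⟩ := hz
  have n : ∀ {w : (Fin 3 → ℝ) → ℝ}, (∀ L, (∀ i, 0 ≤ L i) → 0 ≤ w L) → ∀ {r : Fin 3 → ℝ},
      (∀ i, 0 ≤ r i) → 0 ≤ A * entry lam eP r w + B * entry lam eE r w := fun hw _ hr =>
    add_nonneg (mul_nonneg hA (entry_nonneg h0 h1 eP_nonneg hr hw))
      (mul_nonneg hB (entry_nonneg h0 h1 eE_nonneg hr hw))
  have up : ∀ {w : (Fin 3 → ℝ) → ℝ}, (∀ L, (∀ i, 0 ≤ L i) → 0 ≤ w L) →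
      zP * (A * entry lam eP eP w + B * entry lam eE eP w)
        + zE * (A * entry lam eP eE w + B * entry lam eE eE w)
        + zU * (A * entry lam eP eU w + B * entry lam eE eU w) ≤
      a * (A * entry lam eP eP w + B * entry lam eE eP w)
        + b * (A * entry lam eP eE w + B * entry lam eE eE w)
        + c * (A * entry lam eP eU w + B * entry lam eE eU w) := fun hw =>
    add_le_add (add_le_add (mul_le_mul_of_nonneg_right hP (n hw eP_nonneg))
      (mul_le_mul_of_nonneg_right hE (n hw eE_nonneg)))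
      (mul_le_mul_of_nonneg_right hU (n hw eU_nonneg))
  refine ⟨_, _, _, powS_succ_rep h0 h1 hA hB hr, up fun L hL => (w_nonneg hL).1,
    up fun L hL => (w_nonneg hL).2.1, up fun L hL => (w_nonneg hL).2.2, ?_⟩
  have p1 : pP eP = 1 := by simp [pP, eP]
  have p2 : pP eE = 1 := by simp [pP, eE]
  have p3 : pP eU = 1 := by simp [pP, eU]; norm_num
  rw [← hs]
  linear_combination zP * A * entry_total (lam := lam) p1 p1
    + zP * B * entry_total (lam := lam) p2 p1 + zE * A * entry_total (lam := lam) p1 p2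
    + zE * B * entry_total (lam := lam) p2 p2 + zU * A * entry_total (lam := lam) p1 p3
    + zU * B * entry_total (lam := lam) p2 p3

/-- Everything counted as perfect. -/
theorem powS_tail_repT (h0 : -(1 / 2) ≤ lam) (h1 : lam ≤ 1) (hA : 0 ≤ A) (hB : 0 ≤ B) (j : ℕ) :
    RepT (powS lam A B j) ((A + B) ^ j) 0 0 ((A + B) ^ j) := by
  refine ⟨_, 0, 0, ⟨by positivity, le_rfl, le_rfl, fun g hg => ?_⟩, le_rfl, le_rfl, le_rfl,
    by ring⟩
  simpa [val] using powS_tail h0 h1 hA hB j hg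

/-- A finite sum of bounded functionals and a remainder gives `Below`. -/
theorem below_of_sum {C : Chan} {ι : Type*} (s : Finset ι) (w tot za zb : ι → ℝ)
    (Φ : ι → ((Fin 3 → ℝ) → ℝ) → ℝ) {rest : ℝ} (hw : ∀ i ∈ s, 0 ≤ w i) (hr : 0 ≤ rest)
    (hΦ : ∀ i ∈ s, ∃ c, RepT (Φ i) (za i) (zb i) c (tot i))
    (htot : ∑ i ∈ s, w i * tot i + rest = 1)
    (hC : ∀ g, IsTest g → C.E g ≤ ∑ i ∈ s, w i * Φ i g + rest * orb g eP) :
    Below C (∑ i ∈ s, w i * za i + rest) (∑ i ∈ s, w i * zb i) := by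
  classical
  have h' : ∀ i, ∃ A B U : ℝ, i ∈ s → Rep (Φ i) A B U ∧ A ≤ za i ∧ B ≤ zb i ∧
      A + B + U = tot i := by
    intro i
    by_cases hi : i ∈ s
    · obtain ⟨c, A, B, U, r, hA, hB, -, ht⟩ := hΦ i hi
      exact ⟨A, B, U, fun _ => ⟨r, hA, hB, ht⟩⟩
    · exact ⟨0, 0, 0, fun h => absurd h hi⟩
  choose fA fB fU hf using h'
  have e1 : ∑ i ∈ s, w i * fA i + ∑ i ∈ s, w i * fB i + ∑ i ∈ s, w i * fU i + rest = 1 := by
    rw [← htot, ← sum_add_distrib, ← sum_add_distrib]
    congr 1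
    refine sum_congr rfl fun i hi => ?_
    rw [← (hf i hi).2.2.2]; ring
  have nA : 0 ≤ ∑ i ∈ s, w i * fA i := sum_nonneg fun i hi => mul_nonneg (hw i hi) (hf i hi).1.1
  have nB : 0 ≤ ∑ i ∈ s, w i * fB i := sum_nonneg fun i hi => mul_nonneg (hw i hi) (hf i hi).1.2.1
  have nU : 0 ≤ ∑ i ∈ s, w i * fU i :=
    sum_nonneg fun i hi => mul_nonneg (hw i hi) (hf i hi).1.2.2.1
  refine ⟨∑ i ∈ s, w i * fA i + rest, ∑ i ∈ s, w i * fB i,
    add_le_add_left (sum_le_sum fun i hi => mul_le_mul_of_nonneg_left (hf i hi).2.1 (hw i hi)) _,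
    sum_le_sum fun i hi => mul_le_mul_of_nonneg_left (hf i hi).2.2.1 (hw i hi), by linarith,
    by linarith, nB, by linarith, fun g hg => (hC g hg).trans ?_⟩
  rw [show 1 - (∑ i ∈ s, w i * fA i + rest) - ∑ i ∈ s, w i * fB i = ∑ i ∈ s, w i * fU i by
    linarith]
  have h : ∑ i ∈ s, w i * Φ i g ≤ ∑ i ∈ s, w i * val (fA i) (fB i) (fU i) g :=
    sum_le_sum fun i hi => mul_le_mul_of_nonneg_left ((hf i hi).1.2.2.2 g hg) (hw i hi)
  refine (add_le_add_left h _).trans (le_of_eq ?_)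
  simp only [val, mul_add, ← mul_assoc, sum_add_distrib, ← sum_mul]
  ring

/-- The regular node. -/
theorem below_regular {C : Chan} {d : ℕ} {za zb : ℕ → ℝ} (hA : 0 ≤ A) (hB : 0 ≤ B)
    (hs : A + B ≤ 1) (hz : ∀ j ≤ d, ∃ c, RepT (powS lam A B j) (za j) (zb j) c ((A + B) ^ j))
    (hC : ∀ g, IsTest g → C.E g ≤
      ∑ j ∈ range (d + 1), (d.choose j : ℝ) * (1 - A - B) ^ (d - j) * powS lam A B j g) :
    Below C (∑ j ∈ range (d + 1), (d.choose j : ℝ) * (1 - A - B) ^ (d - j) * za j)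
      (∑ j ∈ range (d + 1), (d.choose j : ℝ) * (1 - A - B) ^ (d - j) * zb j) := by
  have hC0 : 0 ≤ 1 - A - B := by linarith
  have := below_of_sum (C := C) (range (d + 1))
    (fun j => (d.choose j : ℝ) * (1 - A - B) ^ (d - j)) (fun j => (A + B) ^ j) za zb
    (fun j => powS lam A B j) (rest := 0) (fun j _ => by positivity) le_rfl
    (fun j hj => hz j (Nat.lt_succ_iff.1 (mem_range.1 hj))) ?_ ?_
  · simpa using this
  · rw [add_zero]
    refine Eq.trans ?_ (one_pow d)
    conv_rhs => rw [show (1 : ℝ) = (A + B) + (1 - A - B) by ring, add_pow]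
    exact sum_congr rfl fun j _ => by ring
  · intro g hg
    simpa using hC g hg

/-- The Poisson node, explicit up to `N` children. -/
theorem below_poisson {C : Chan} {IA IB : ℝ} {N : ℕ} {za zb : ℕ → ℝ} (h0 : -(1 / 2) ≤ lam)
    (h1 : lam ≤ 1) (hA : 0 ≤ IA) (hB : 0 ≤ IB)
    (hz : ∀ j < N, ∃ c, RepT (powS lam IA IB j) (za j) (zb j) c ((IA + IB) ^ j))
    (hC : ∀ g, IsTest g → C.E g ≤ ∑' j, poiTerm lam IA IB g j) :
    Below C
      (∑ j ∈ range N, Real.exp (-(IA + IB)) / j.factorial * za j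
        + (1 - ∑ j ∈ range N, poissonLaw (IA + IB) j))
      (∑ j ∈ range N, Real.exp (-(IA + IB)) / j.factorial * zb j) := by
  set μ := IA + IB with hμ
  have hp := hasSum_poissonLaw μ
  have hn : ∀ j, 0 ≤ poissonLaw μ j := poissonLaw_nonneg (add_nonneg hA hB)
  refine below_of_sum (range N) _ (fun j => μ ^ j) za zb (fun j => powS lam IA IB j)
    (fun j _ => by positivity)
    (sub_nonneg.2 (sum_le_hasSum _ (fun j _ => hn j) hp)) (fun j hj => hz j (mem_range.1 hj))
    ?_ ?_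
  · have : ∑ j ∈ range N, Real.exp (-μ) / j.factorial * μ ^ j
        = ∑ j ∈ range N, poissonLaw μ j :=
      sum_congr rfl fun j _ => by simp only [poissonLaw]; ring
    rw [this]; ring
  · intro g hg
    have hs := poiTerm_summable h0 h1 hA hB hg
    refine (hC g hg).trans ?_
    rw [← hs.sum_add_tsum_nat_add N]
    refine add_le_add (le_of_eq (sum_congr rfl fun j _ => ?_)) ?_
    · simp only [poiTerm]; rw [← hμ]; ring
    · have h2 : ∑' j, poissonLaw μ (j + N) = 1 - ∑ j ∈ range N, poissonLaw μ j := by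
        have := hp.summable.sum_add_tsum_nat_add N
        rw [hp.tsum_eq] at this
        linarith
      rw [← h2, ← tsum_mul_right]
      exact ((summable_nat_add_iff N).2 hs).tsum_le_tsum (fun j => poiTerm_le h0 h1 hA hB hg _)
        (((summable_nat_add_iff N).2 hp.summable).mul_right _)

/-- Remainder of the Poisson weights, without the factor `exp (-μ)`. -/
theorem poisson_rest_le {μ : ℝ} (hμ : 0 ≤ μ) {N : ℕ} (h : μ < N + 1) :
    1 - ∑ j ∈ range N, poissonLaw μ j ≤
      Real.exp (-μ) * (μ ^ N / N.factorial / (1 - μ / (N + 1))) := by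
  have hp := hasSum_poissonLaw μ
  set r := μ / (N + 1) with hr
  have r0 : 0 ≤ r := by positivity
  have r1 : r < 1 := by rw [hr, div_lt_one (by positivity)]; exact h
  have h2 : ∑' j, poissonLaw μ (j + N) = 1 - ∑ j ∈ range N, poissonLaw μ j := by
    have := hp.summable.sum_add_tsum_nat_add N
    rw [hp.tsum_eq] at this
    linarith
  have g : HasSum (fun j => Real.exp (-μ) * (μ ^ N / N.factorial) * r ^ j)
      (Real.exp (-μ) * (μ ^ N / N.factorial / (1 - r))) := by
    have := (hasSum_geometric_of_lt_one r0 r1).mul_left (Real.exp (-μ) * (μ ^ N / N.factorial))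
    simpa [div_eq_mul_inv, mul_assoc] using this
  rw [← h2]
  refine hasSum_le (fun j => ?_) ((summable_nat_add_iff N).2 hp.summable).hasSum g
  have hf : (N.factorial : ℝ) * ((N : ℝ) + 1) ^ j ≤ ((j + N).factorial : ℝ) := by
    have := Nat.factorial_mul_pow_le_factorial (m := N) (n := j)
    rw [add_comm N j] at this
    exact_mod_cast this
  rw [poissonLaw, hr, div_pow, pow_add]
  rw [show Real.exp (-μ) * (μ ^ N / (N.factorial : ℝ)) * (μ ^ j / ((N : ℝ) + 1) ^ j)
      = Real.exp (-μ) * (μ ^ j * μ ^ N) / ((N.factorial : ℝ) * ((N : ℝ) + 1) ^ j) by field_simp]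
  gcongr

end Vale.Agent.P154.LN
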