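import Vale.Agent.P154.LN.Endgame
import Vale.Agent.P154.LN.Scale
import Vale.Agent.P154.LN.Total
import Vale.Agent.P154.LN.CompTab
import Vale.Agent.P154.LN.Reduce

/-!
The second phase applied to the tree channels: once the bound of some generation lies in the
region of a valid knot, the bounds decay.
-/

namespace Vale.Agent.P154.LN

open Finset Filter Topology

namespace Endgame

/-- The tables of a knot bound the weights of the products of children. -/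
def RowsOK (c : Knot) : Prop :=
  ∀ j, 2 ≤ j → j ≤ c.J → ∀ p ≤ j,
    Xi (-(c.l : ℝ)) p (j - p) wP ≤ (((c.rowA j).getD p 0 : ℚ) : ℝ) ∧
    Xi (-(c.l : ℝ)) p (j - p) wE ≤ (((c.rowB j).getD p 0 : ℚ) : ℝ)

/-- The tables of a knot are at least the computed ones at parameter `-n / D`. -/
def fits (c : Knot) (n D : ℕ) : Bool :=
  decide (0 < D ∧ 2 * n ≤ D ∧ c.l = (n : ℚ) / D) &&
    (List.range (c.J + 1)).all fun j => decide (j < 2) ||
      (List.range (j + 1)).all fun p =>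
        decide (((tabEntry n D p (j - p)).p : ℚ) ≤ (c.rowA j).getD p 0 * SC ∧
          ((tabEntry n D p (j - p)).e : ℚ) ≤ (c.rowB j).getD p 0 * SC)

lemma rowsOK_of_fits {c : Knot} {n D : ℕ} (h : fits c n D = true) : RowsOK c := by
  simp only [fits, Bool.and_eq_true, Bool.or_eq_true, decide_eq_true_eq, List.all_eq_true] at h
  obtain ⟨⟨hD, hn, hl⟩, hrows⟩ := h
  intro j hj2 hjJ p hp
  have hh := ((hrows j (List.mem_range.2 (by omega))).resolve_left (by omega)) p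
    (List.mem_range.2 (by omega))
  obtain ⟨bP, bE, -⟩ := tabEntry_bound (n := n) hD hn p (j - p)
  have el : -(c.l : ℝ) = -((n : ℝ) / D) := by rw [hl]; push_cast; rfl
  rw [el]
  have cP : ((tabEntry n D p (j - p)).p : ℝ) ≤ (((c.rowA j).getD p 0 : ℚ) : ℝ) * SC := by
    have := Rat.cast_le (K := ℝ).2 hh.1
    push_cast at this
    exact this
  have cE : ((tabEntry n D p (j - p)).e : ℝ) ≤ (((c.rowB j).getD p 0 : ℚ) : ℝ) * SC := by
    have := Rat.cast_le (K := ℝ).2 hh.2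
    push_cast at this
    exact this
  exact ⟨bP.trans ((div_le_iff₀ SC_pos).2 cP), bE.trans ((div_le_iff₀ SC_pos).2 cE)⟩

/-- The binomial expansion of the value. -/
lemma ev_eq_sum (u : ℝ) : ∀ (j : ℕ) (L : List ℝ), L.length = j + 1 →
    Bern.ev u j L = ∑ p ∈ range (j + 1), (j.choose p : ℝ) * u ^ p * (1 - u) ^ (j - p) * L.getD p 0
  | 0, [a], _ => by simp [Bern.ev]
  | j + 1, L, h => by
    have hlen : (Bern.red u L).length = j + 1 := by rw [Bern.red_length, h]; rfl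
    have ih := ev_eq_sum u j (Bern.red u L) hlen
    have hred : ∀ (M : List ℝ) (p : ℕ), p + 1 < M.length →
        (Bern.red u M).getD p 0 = (1 - u) * M.getD p 0 + u * M.getD (p + 1) 0 := by
      intro M
      induction M with
      | nil => intro p hp; simp at hp
      | cons a M ihM =>
        intro p hp
        cases M with
        | nil => simp at hp
        | cons b r =>
          cases p with
          | zero => simp [Bern.red]
          | succ p => simpa [Bern.red] using ihM p (by simpa using hp)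
    rw [show Bern.ev u (j + 1) L = Bern.ev u j (Bern.red u L) from rfl, ih]
    have e : ∀ p ∈ range (j + 2), ((j + 1).choose p : ℝ) * u ^ p * (1 - u) ^ (j + 1 - p) * L.getD p 0
        = ((j + 1).choose p : ℝ) * ((fun p i => u ^ p * (1 - u) ^ i * L.getD p 0) p (j + 1 - p)) :=
      fun p _ => by ring
    rw [sum_congr rfl e,
      sum_choose_succ_mul (f := fun p i => u ^ p * (1 - u) ^ i * L.getD p 0) j, ← sum_add_distrib]
    refine sum_congr rfl fun p hp => ?_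
    have hp' := mem_range.1 hp
    rw [hred L p (by omega), show j + 1 - p = j - p + 1 by omega]
    ring

lemma castL_getD (L : List ℚ) (p : ℕ) : (Bern.castL L).getD p 0 = ((L.getD p 0 : ℚ) : ℝ) := by
  simp only [Bern.castL, List.getD_eq_getElem?_getD, List.getElem?_map]
  cases L[p]? <;> simp

/-- The three weights of `j` children of total one have total one. -/
lemma powS_one_total (l u : ℝ) (j : ℕ) :
    powS l u (1 - u) j wP + powS l u (1 - u) j wE + powS l u (1 - u) j wU = 1 := by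
  have h := add_pow u (1 - u) j
  rw [add_sub_cancel, one_pow] at h
  refine Eq.trans ?_ h.symm
  simp only [powS_eq, ← sum_add_distrib]
  refine sum_congr rfl fun p _ => ?_
  rw [← mul_add, ← mul_add, Xi_total, mul_one]
  ring

/-- `Below` from a countable average of products of children. -/
lemma below_of_law {c : Knot} {μ : ℝ} {π : ℕ → ℝ} (L : Law c μ π) {C : Chan} {u : ℝ}
    (h0 : -(1 / 2) ≤ -(c.l : ℝ)) (h1 : -(c.l : ℝ) ≤ 1) (hu0 : 0 ≤ u) (hu1 : u ≤ 1)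
    (hC : ∀ g, IsTest g → C.E g ≤ ∑' j, π j * powS (-(c.l : ℝ)) u (1 - u) j g) {a b : ℝ}
    (ha : ∑' j, π j * powS (-(c.l : ℝ)) u (1 - u) j wP ≤ a)
    (hb : ∑' j, π j * powS (-(c.l : ℝ)) u (1 - u) j wE ≤ b) : Below C a b := by
  set z : ℕ → ((Fin 3 → ℝ) → ℝ) → ℝ := fun j => powS (-(c.l : ℝ)) u (1 - u) j
  have hrep : ∀ j, Rep (z j) (z j wP) (z j wE) (z j wU) := fun j =>
    powS_rep h0 h1 hu0 (by linarith) j
  have htot : ∀ j, z j wP + z j wE + z j wU = 1 := fun j => powS_one_total _ _ j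
  have hb01 : ∀ j, z j wP ≤ 1 ∧ z j wE ≤ 1 ∧ z j wU ≤ 1 := fun j => by
    obtain ⟨a0, b0, c0, -⟩ := hrep j
    have := htot j
    exact ⟨by linarith, by linarith, by linarith⟩
  have hs : ∀ f : ℕ → ℝ, (∀ j, 0 ≤ f j) → (∀ j, f j ≤ 1) → Summable fun j => π j * f j :=
    fun f f0 f1 => Summable.of_nonneg_of_le (fun j => mul_nonneg (L.nonneg j) (f0 j))
      (fun j => mul_le_of_le_one_right (L.nonneg j) (f1 j)) L.total.summable
  have sP := hs _ (fun j => (hrep j).1) (fun j => (hb01 j).1)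
  have sE := hs _ (fun j => (hrep j).2.1) (fun j => (hb01 j).2.1)
  have sU := hs _ (fun j => (hrep j).2.2.1) (fun j => (hb01 j).2.2)
  have e : ∑' j, π j * z j wP + ∑' j, π j * z j wE + ∑' j, π j * z j wU = 1 := by
    rw [← sP.tsum_add sE, ← (sP.add sE).tsum_add sU]
    refine Eq.trans (tsum_congr fun j => ?_) L.total.tsum_eq
    rw [← mul_add, ← mul_add, htot, mul_one]
  have nP : 0 ≤ ∑' j, π j * z j wP := tsum_nonneg fun j => mul_nonneg (L.nonneg j) (hrep j).1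
  have nE : 0 ≤ ∑' j, π j * z j wE := tsum_nonneg fun j => mul_nonneg (L.nonneg j) (hrep j).2.1
  have nU : 0 ≤ ∑' j, π j * z j wU := tsum_nonneg fun j => mul_nonneg (L.nonneg j) (hrep j).2.2.1
  refine ⟨_, _, ha, hb, by linarith, nP, nE, by linarith, fun g hg => (hC g hg).trans ?_⟩
  rw [show 1 - ∑' j, π j * z j wP - ∑' j, π j * z j wE = ∑' j, π j * z j wU by linarith]
  have hsum := ((sP.hasSum.mul_right (orb g eP)).add (sE.hasSum.mul_right (orb g eE))).add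
    (sU.hasSum.mul_right (orb g eU))
  have hg' : ∀ j, π j * z j g ≤
      π j * z j wP * orb g eP + π j * z j wE * orb g eE + π j * z j wU * orb g eU := fun j => by
    refine (mul_le_mul_of_nonneg_left ((hrep j).2.2.2 g hg) (L.nonneg j)).trans (le_of_eq ?_)
    simp only [val]; ring
  exact hasSum_le hg' ((Summable.of_nonneg_of_le
    (fun j => mul_nonneg (L.nonneg j) (powS_nonneg h0 h1 hu0 (by linarith) j hg)) hg'
    hsum.summable).hasSum) hsum

/-- The data of the products of children satisfy the hypotheses of `step`. -/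
lemma children (c : Knot) (hok : c.ok = true) (hr : RowsOK c) {u : ℝ} (hu0 : 0 ≤ u)
    (hu1 : u ≤ 1) :
    (∀ j, 0 ≤ powS (-(c.l : ℝ)) u (1 - u) j wP ∧ 0 ≤ powS (-(c.l : ℝ)) u (1 - u) j wE ∧
      powS (-(c.l : ℝ)) u (1 - u) j wP + powS (-(c.l : ℝ)) u (1 - u) j wE ≤ 1) ∧
    (powS (-(c.l : ℝ)) u (1 - u) 0 wP = 0 ∧ powS (-(c.l : ℝ)) u (1 - u) 0 wE = 0) ∧
    (powS (-(c.l : ℝ)) u (1 - u) 1 wP ≤
        ((c.l : ℝ) ^ 2 * (1 + 3 * u) / 2 + 2 * ((c.l : ℝ) ^ 3 * (1 - 9 * u) / 4)) / 6 ∧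
      powS (-(c.l : ℝ)) u (1 - u) 1 wE ≤
        4 * ((c.l : ℝ) ^ 2 * (1 + 3 * u) / 2 - (c.l : ℝ) ^ 3 * (1 - 9 * u) / 4) / 3) ∧
    ∀ j ≤ c.J, 2 ≤ j →
      powS (-(c.l : ℝ)) u (1 - u) j wP ≤ Bern.ev u j (Bern.castL (c.rowA j)) ∧
      powS (-(c.l : ℝ)) u (1 - u) j wE ≤ Bern.ev u j (Bern.castL (c.rowB j)) := by
  simp only [Knot.ok, Bool.and_eq_true, decide_eq_true_eq] at hok
  obtain ⟨⟨⟨hl0, hl1⟩, -, -, -, -, -, -, hlen⟩, -⟩ := hok
  have hl : (0 : ℝ) ≤ c.l := by exact_mod_cast hl0.le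
  have hlh : (c.l : ℝ) ≤ 1 / 2 := by
    have : ((c.l : ℚ) : ℝ) ≤ ((1 / 2 : ℚ) : ℝ) := by exact_mod_cast hl1
    simpa using this
  have h0 : -(1 / 2) ≤ -(c.l : ℝ) := by linarith
  have h1 : -(c.l : ℝ) ≤ 1 := by linarith
  have h1u : 0 ≤ 1 - u := by linarith
  refine ⟨fun j => ?_, ?_, ?_, fun j hjJ hj2 => ?_⟩
  · obtain ⟨a0, b0, c0, -⟩ := powS_rep h0 h1 hu0 h1u j
    refine ⟨a0, b0, ?_⟩
    have := powS_one_total (-(c.l : ℝ)) u j
    linarith
  · constructor <;> simp [powS, wP, wE, fB, fM, pP, eU] <;> norm_num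
  · have ep : powS (-(c.l : ℝ)) u (1 - u) 1 wP =
        u * sP (-(c.l : ℝ)) + (1 - u) * tP (-(c.l : ℝ)) := by
      rw [← wP_mixv_eP, ← wP_mixv_eE]
      simp [powS, LN.step, avg6, eU, eP, eE, wP, fB, fM, pP, mixv]
      ring
    have ee : powS (-(c.l : ℝ)) u (1 - u) 1 wE =
        u * sE (-(c.l : ℝ)) + (1 - u) * tE (-(c.l : ℝ)) := by
      rw [← wE_mixv_eP, ← wE_mixv_eE]
      simp [powS, LN.step, avg6, eU, eP, eE, wE, fB, fM, pP, mixv]
      ring
    rw [ep, ee]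
    constructor <;> refine le_of_eq ?_ <;> simp only [sP, sE, tP, tE] <;> ring
  · obtain ⟨lA, lB⟩ := hlen j (by omega) hj2
    rw [powS_eq, powS_eq, ev_eq_sum u j _ (by rw [Bern.castL, List.length_map, lA]),
      ev_eq_sum u j _ (by rw [Bern.castL, List.length_map, lB])]
    constructor <;>
    · refine sum_le_sum fun p hp => mul_le_mul_of_nonneg_left ?_ (by positivity)
      rw [castL_getD]
      first
        | exact (hr j hj2 hjJ p (Nat.lt_succ_iff.1 (mem_range.1 hp))).1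
        | exact (hr j hj2 hjJ p (Nat.lt_succ_iff.1 (mem_range.1 hp))).2

/-- Decay from one state in the region and a step that preserves it. -/
lemma decay_of_step {c : Knot} (hok : c.ok = true) {D : ℕ → Chan} {n₀ : ℕ} {A₀ B₀ : ℝ}
    (h₀ : Region c A₀ B₀) (hB₀ : Below (D n₀) A₀ B₀)
    (hstep : ∀ n A B, Region c A B → Below (D n) A B → ∃ A' B', Region c A' B' ∧
      2 * A' + B' / 2 ≤ (2 * A + B / 2) - c.eta * (2 * A + B / 2) ^ 2 ∧
      Below (D (n + 1)) A' B') :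
    Decay D := by
  simp only [Knot.ok, Bool.and_eq_true, decide_eq_true_eq] at hok
  have hη : (0 : ℝ) < c.eta := by exact_mod_cast hok.1.2.2.2.2.1.1
  have main : ∀ i : ℕ, ∀ s : {s : ℝ × ℝ // Region c s.1 s.2 ∧ Below (D (n₀ + i)) s.1 s.2},
      ∃ t : {t : ℝ × ℝ // Region c t.1 t.2 ∧ Below (D (n₀ + (i + 1))) t.1 t.2},
        2 * t.1.1 + t.1.2 / 2 ≤ (2 * s.1.1 + s.1.2 / 2) - c.eta * (2 * s.1.1 + s.1.2 / 2) ^ 2 := by
    rintro i ⟨⟨A, B⟩, hR, hB⟩
    obtain ⟨A', B', hR', hx, hB'⟩ := hstep _ A B hR hB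
    exact ⟨⟨(A', B'), hR', hB'⟩, hx⟩
  choose f hf using main
  let S : ∀ i, {s : ℝ × ℝ // Region c s.1 s.2 ∧ Below (D (n₀ + i)) s.1 s.2} := fun i =>
    Nat.rec (motive := fun i => {s : ℝ × ℝ // Region c s.1 s.2 ∧ Below (D (n₀ + i)) s.1 s.2})
      ⟨(A₀, B₀), h₀, hB₀⟩ (fun i s => f i s) i
  have hy : Tendsto (fun i => 2 * (S i).1.1 + (S i).1.2 / 2) atTop (𝓝 0) := by
    refine tendsto_zero_of_quad (a := 1) (c := (c.eta : ℝ)) (fun i => ?_) le_rfl hη fun i => ?_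
    · obtain ⟨-, -, -, hA, hB⟩ := (S i).2.1
      positivity
    · rw [one_mul]
      exact hf i (S i)
  have hy' := hy.comp (tendsto_sub_atTop_nat n₀)
  refine ⟨fun n => (S (n - n₀)).1.1, fun n => (S (n - n₀)).1.2, ?_, ?_, ?_⟩
  · refine squeeze_zero (fun n => (S (n - n₀)).2.1.2.2.2.1) (fun n => ?_) hy'
    obtain ⟨-, -, -, hA, hB⟩ := (S (n - n₀)).2.1
    simp only [Function.comp_apply]
    linarith
  · refine squeeze_zero (fun n => (S (n - n₀)).2.1.2.2.2.2) (fun n => ?_)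
      (by simpa using hy'.const_mul 2)
    obtain ⟨-, -, -, hA, hB⟩ := (S (n - n₀)).2.1
    linarith
  · filter_upwards [eventually_ge_atTop n₀] with n hn
    obtain ⟨i, rfl⟩ := Nat.exists_eq_add_of_le hn
    rw [Nat.add_sub_cancel_left]
    exact (S i).2.2

/-- Upper bounds below the three linear bounds can be raised into the region. -/
lemma region_raise {c : Knot} (hok : c.ok = true) {a b : ℝ}
    (hx : 2 * a + b / 2 ≤ c.x0) (hA : 6 * a ≤ (1 + 2 * c.k2) * c.x0)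
    (hB : 3 / 4 * b ≤ (1 + c.k1) * c.x0) :
    ∃ A B, Region c A B ∧ a ≤ A ∧ b ≤ B := by
  simp only [Knot.ok, Bool.and_eq_true, decide_eq_true_eq] at hok
  obtain ⟨⟨-, ⟨hk10, hk1⟩, ⟨hk20, hk2⟩, ⟨hx00, -⟩, -⟩, -⟩ := hok
  have k1 : (0 : ℝ) ≤ c.k1 := by exact_mod_cast hk10
  have k2 : (0 : ℝ) ≤ c.k2 := by exact_mod_cast hk20
  have k1' : (c.k1 : ℝ) ≤ 1 / 2 := by
    have : ((c.k1 : ℚ) : ℝ) ≤ ((1 / 2 : ℚ) : ℝ) := by exact_mod_cast hk1
    simpa using this
  have k2' : (c.k2 : ℝ) ≤ 1 / 2 := by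
    have : ((c.k2 : ℚ) : ℝ) ≤ ((1 / 2 : ℚ) : ℝ) := by exact_mod_cast hk2
    simpa using this
  have hX : (0 : ℝ) ≤ c.x0 := by exact_mod_cast hx00
  set X : ℝ := (c.x0 : ℝ)
  set S := max (3 * a - X / 2) (-(c.k1 * X))
  have S0 : 3 * a - X / 2 ≤ S := le_max_left _ _
  have S1 : -(c.k1 * X) ≤ S := le_max_right _ _
  have hku := mul_nonneg k2 hX
  have hkd := mul_nonneg k1 hX
  have hu := mul_le_mul_of_nonneg_right k2' hX
  have hd := mul_le_mul_of_nonneg_right k1' hX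
  have S2 : S ≤ c.k2 * X := max_le (by linarith) (by linarith)
  have S3 : S ≤ X - 3 / 4 * b := max_le (by linarith) (by linarith)
  have eT : 2 * ((X + 2 * S) / 6) - 4 * (X - S) / 3 / 4 = S := by ring
  have eX : 2 * ((X + 2 * S) / 6) + 4 * (X - S) / 3 / 2 = X := by ring
  refine ⟨(X + 2 * S) / 6, 4 * (X - S) / 3, ⟨?_, ?_, ?_, ?_, ?_⟩, ?_, ?_⟩
  · rw [eX]
  · rw [eX, eT]; exact S1
  · rw [eX, eT]; exact S2
  all_goals linarith

/-- A computed state lies under the region. -/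
def inReg (c : Knot) (s : ℕ × ℕ) : Bool :=
  decide (2 * (s.1 : ℚ) + s.2 / 2 ≤ c.x0 * SC ∧ 6 * (s.1 : ℚ) ≤ (1 + 2 * c.k2) * c.x0 * SC ∧
    3 / 4 * (s.2 : ℚ) ≤ (1 + c.k1) * c.x0 * SC)

lemma region_of_inReg {c : Knot} (hok : c.ok = true) {s : ℕ × ℕ} (h : inReg c s = true) :
    ∃ A B, Region c A B ∧ (s.1 : ℝ) / SC ≤ A ∧ (s.2 : ℝ) / SC ≤ B := by
  simp only [inReg, decide_eq_true_eq] at h
  obtain ⟨h1, h2, h3⟩ := h
  have g1 := Rat.cast_le (K := ℝ).2 h1
  have g2 := Rat.cast_le (K := ℝ).2 h2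
  have g3 := Rat.cast_le (K := ℝ).2 h3
  push_cast at g1 g2 g3
  have hS := SC_pos
  refine region_raise hok ?_ ?_ ?_
  · rw [show 2 * ((s.1 : ℝ) / SC) + (s.2 : ℝ) / SC / 2 = (2 * (s.1 : ℝ) + s.2 / 2) / SC by ring,
      div_le_iff₀ hS]
    exact g1
  · rw [← mul_div_assoc, div_le_iff₀ hS]; exact g2
  · rw [← mul_div_assoc, div_le_iff₀ hS]; exact g3

lemma uof_range (c : Knot) (hok : c.ok = true) {A B b : ℝ} (hR : Region c A B) (hb0 : 0 ≤ b)
    (hb1 : b ≤ 1) :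
    0 ≤ uof (b * (2 * A - B / 4) / (2 * A + B / 2)) ∧
      uof (b * (2 * A - B / 4) / (2 * A + B / 2)) ≤ 1 ∧
      0 ≤ mean c.l (2 * A + B / 2) (b * (2 * A - B / 4) / (2 * A + B / 2)) ∧
      mean c.l (2 * A + B / 2) (b * (2 * A - B / 4) / (2 * A + B / 2)) ≤ c.mu := by
  simp only [Knot.ok, Bool.and_eq_true, decide_eq_true_eq] at hok
  obtain ⟨⟨⟨hl0, -⟩, ⟨hk10, hk1⟩, ⟨hk20, hk2⟩, ⟨hx00, -⟩, -, ⟨-, -, hmu⟩, -⟩, -⟩ := hok
  obtain ⟨hx0, hT0, hT1, hA, hB⟩ := hR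
  set x := 2 * A + B / 2
  set T := 2 * A - B / 4
  have hx : 0 ≤ x := by positivity
  set r := b * T / x with hr
  have k1 : (0 : ℝ) ≤ c.k1 := by exact_mod_cast hk10
  have k2 : (0 : ℝ) ≤ c.k2 := by exact_mod_cast hk20
  have k1' : (c.k1 : ℝ) ≤ 1 / 2 := by
    have : ((c.k1 : ℚ) : ℝ) ≤ ((1 / 2 : ℚ) : ℝ) := by exact_mod_cast hk1
    simpa using this
  have k2' : (c.k2 : ℝ) ≤ 1 / 2 := by
    have : ((c.k2 : ℚ) : ℝ) ≤ ((1 / 2 : ℚ) : ℝ) := by exact_mod_cast hk2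
    simpa using this
  have hrr : -(c.k1 : ℝ) ≤ r ∧ r ≤ c.k2 := by
    rcases hx.eq_or_lt with h | h
    · rw [hr, ← h, div_zero]; exact ⟨by linarith, k2⟩
    · rw [hr, le_div_iff₀ h, div_le_iff₀ h]
      constructor
      · nlinarith [mul_le_mul_of_nonneg_left hT0 hb0,
          mul_le_mul_of_nonneg_right hb1 (mul_nonneg k1 h.le)]
      · nlinarith [mul_le_mul_of_nonneg_left hT1 hb0,
          mul_le_mul_of_nonneg_right hb1 (mul_nonneg k2 h.le)]
  have hl2 : (0 : ℝ) < (c.l : ℝ) ^ 2 := by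
    have : (0 : ℝ) < c.l := by exact_mod_cast hl0
    positivity
  refine ⟨div_nonneg (by linarith) (by linarith), ?_, div_nonneg (mul_nonneg hx (by linarith))
    hl2.le, ?_⟩
  · rw [uof, div_le_one (by linarith)]; linarith
  · rw [mean, div_le_iff₀ hl2]
    calc x * (3 / 2 - r) ≤ (c.x0 : ℝ) * (3 / 2 + c.k1) :=
          mul_le_mul hx0 (by linarith [hrr.1]) (by linarith [hrr.2]) (by exact_mod_cast hx00)
      _ ≤ _ := by
          have : ((c.x0 * (3 / 2 + c.k1) : ℚ) : ℝ) ≤ ((c.mu * c.l ^ 2 : ℚ) : ℝ) := by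
            exact_mod_cast hmu
          push_cast at this
          linarith

/-- The intensities of the two kinds of informative children. -/
lemma intensities {l A B b m : ℝ} (hl : l ≠ 0) (hb : b ≠ 0) (hm : m * (b * l) ^ 2 = 1) :
    m * (A * sP b + B * tP b) = (2 * A + B / 2 + 2 * (b * (2 * A - B / 4))) / (6 * l ^ 2) ∧
      m * (A * sE b + B * tE b) = 4 * (2 * A + B / 2 - b * (2 * A - B / 4)) / (3 * l ^ 2) := by
  have e : m = 1 / (b * l) ^ 2 := by rw [eq_div_iff (by positivity)]; exact hm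
  rw [e]
  constructor <;> simp only [sP, sE, tP, tE] <;> field_simp <;> ring

lemma mean_uof (c : Knot) (hok : c.ok = true) {A B b : ℝ} (hR : Region c A B) (hb0 : 0 ≤ b)
    (hb1 : b ≤ 1) :
    mean c.l (2 * A + B / 2) (b * (2 * A - B / 4) / (2 * A + B / 2)) *
        uof (b * (2 * A - B / 4) / (2 * A + B / 2)) =
      (2 * A + B / 2 + 2 * (b * (2 * A - B / 4))) / (6 * (c.l : ℝ) ^ 2) ∧
    mean c.l (2 * A + B / 2) (b * (2 * A - B / 4) / (2 * A + B / 2)) *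
        (1 - uof (b * (2 * A - B / 4) / (2 * A + B / 2))) =
      4 * (2 * A + B / 2 - b * (2 * A - B / 4)) / (3 * (c.l : ℝ) ^ 2) := by
  have hok' := hok
  simp only [Knot.ok, Bool.and_eq_true, decide_eq_true_eq] at hok'
  obtain ⟨⟨⟨hl0, -⟩, ⟨-, hk1⟩, ⟨-, hk2⟩, -⟩, -⟩ := hok'
  obtain ⟨-, hT0, hT1, hA, hB⟩ := hR
  rcases eq_or_ne (2 * A + B / 2) 0 with hz | hz
  · have a0 : A = 0 := by linarith
    have b0 : B = 0 := by linarith
    subst a0; subst b0
    simp [mean]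
  · have hxp : 0 < 2 * A + B / 2 := lt_of_le_of_ne (by positivity) (Ne.symm hz)
    have k2' : (c.k2 : ℝ) ≤ 1 / 2 := by
      have : ((c.k2 : ℚ) : ℝ) ≤ ((1 / 2 : ℚ) : ℝ) := by exact_mod_cast hk2
      simpa using this
    have hT : b * (2 * A - B / 4) / (2 * A + B / 2) ≤ 1 / 2 := by
      rw [div_le_iff₀ hxp]
      rcases le_total 0 (2 * A - B / 4) with h | h
      · nlinarith [mul_le_mul_of_nonneg_right hb1 h,
          mul_le_mul_of_nonneg_right k2' hxp.le]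
      · nlinarith [mul_nonpos_of_nonneg_of_nonpos hb0 h]
    have hne : (9 : ℝ) - 6 * (b * (2 * A - B / 4) / (2 * A + B / 2)) ≠ 0 := by linarith
    exact ⟨mean_mul_uof c.l _ _ b hl0.ne' hz hne, mean_mul_one_sub_uof c.l _ _ b hl0.ne' hz hne⟩

lemma knot_range {c : Knot} (hok : c.ok = true) :
    (0 : ℝ) < c.l ∧ -(1 / 2) ≤ -(c.l : ℝ) ∧ -(c.l : ℝ) ≤ 1 := by
  simp only [Knot.ok, Bool.and_eq_true, decide_eq_true_eq] at hok
  obtain ⟨⟨⟨hl0, hl1⟩, -⟩, -⟩ := hok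
  have h1 : ((c.l : ℚ) : ℝ) ≤ ((1 / 2 : ℚ) : ℝ) := by exact_mod_cast hl1
  have h2 : (0 : ℝ) < c.l := by exact_mod_cast hl0
  push_cast at h1
  exact ⟨h2, by linarith, by linarith⟩

/-- The step for the critical Poisson tree of parameter `-b l`. -/
theorem step_poisson (c : Knot) (hok : c.ok = true) (hreg : c.reg = none) (hr : RowsOK c)
    {b m lam : ℝ} (hb0 : 0 < b) (hb1 : b ≤ 1) (hlam : lam = b * -(c.l : ℝ))
    (hm : m * lam ^ 2 = 1) (hm0 : 0 ≤ m) (l0 : -(1 / 2) ≤ lam) (l1 : lam ≤ 1)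
    (n0 : ∀ k, 0 ≤ poissonLaw m k) (n1 : HasSum (poissonLaw m) 1) (n : ℕ) {A B : ℝ}
    (hR : Region c A B) (hB : Below (chanG l0 l1 n0 n1 n) A B) :
    ∃ A' B', Region c A' B' ∧
      2 * A' + B' / 2 ≤ (2 * A + B / 2) - c.eta * (2 * A + B / 2) ^ 2 ∧
      Below (chanG l0 l1 n0 n1 (n + 1)) A' B' := by
  subst hlam
  obtain ⟨hl, k0, k1⟩ := knot_range hok
  have hmu8 : c.mu ≤ 8 := by
    have h' := hok
    simp only [Knot.ok, Bool.and_eq_true] at h'
    have := h'.2.1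
    simpa [Knot.regOK, hreg] using this
  obtain ⟨hu0, hu1, hμ0, hμmu⟩ := uof_range c hok hR hb0.le hb1
  obtain ⟨eA, eB⟩ := mean_uof c hok hR hb0.le hb1
  obtain ⟨iA, iB⟩ := intensities (A := A) (B := B) (m := m) hl.ne' hb0.ne'
    (by rw [← hm]; ring)
  set r := b * (2 * A - B / 4) / (2 * A + B / 2)
  set u := uof r
  set μ := mean c.l (2 * A + B / 2) r
  obtain ⟨A1, B1, hA1, hB1, hs, hA1le, hB1le, hchild⟩ :=
    child_of_below hB hb0.le hb1 k0 k1 l0 l1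
  have hIA : m * A1 ≤ μ * u := by rw [eA, ← iA]; exact mul_le_mul_of_nonneg_left hA1le hm0
  have hIB : m * B1 ≤ μ * (1 - u) := by rw [eB, ← iB]; exact mul_le_mul_of_nonneg_left hB1le hm0
  have L := poisson_law c hreg hmu8 hμ0 hμmu
  obtain ⟨hz, h0, h1, hz2⟩ := children c hok hr hu0 hu1
  obtain ⟨A', B', hR', hx', -, hsA, hsB⟩ := step c hok hR hb0.le hb1
    (π := fun j => Real.exp (-μ) * μ ^ j / j.factorial)
    (za := fun j => powS (-(c.l : ℝ)) u (1 - u) j wP)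
    (zb := fun j => powS (-(c.l : ℝ)) u (1 - u) j wE)
    (fun ν hν _ _ => by subst hν; exact L) hz h0 (fun v hv => by subst hv; exact h1)
    (fun v hv => by subst hv; exact hz2)
  refine ⟨A', B', hR', hx', below_of_law L k0 k1 hu0 hu1 (fun g hg => ?_) hsA hsB⟩
  refine (chanG_poisson_succ l0 l1 hm0 n0 n1 n hchild k0 k1 hA1 hB1 hs hIA hIB hg).trans
    (le_of_eq (tsum_congr fun j => ?_))
  rw [poiTerm, show μ * u + μ * (1 - u) = μ by ring, powS_scale]
  ring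

/-- The critical Poisson trees covered by a knot decay once a bound enters the region. -/
theorem decay_poisson (c : Knot) (hok : c.ok = true) (hreg : c.reg = none) (hr : RowsOK c)
    {b m lam : ℝ} (hb0 : 0 < b) (hb1 : b ≤ 1) (hlam : lam = b * -(c.l : ℝ))
    (hm : m * lam ^ 2 = 1) (hm0 : 0 ≤ m) (l0 : -(1 / 2) ≤ lam) (l1 : lam ≤ 1)
    (n0 : ∀ k, 0 ≤ poissonLaw m k) (n1 : HasSum (poissonLaw m) 1) {n : ℕ} {A B : ℝ}
    (hR : Region c A B) (hB : Below (chanG l0 l1 n0 n1 n) A B) :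
    Decay (chanG l0 l1 n0 n1) :=
  decay_of_step hok hR hB fun k _ _ hR' hB' =>
    step_poisson c hok hreg hr hb0 hb1 hlam hm hm0 l0 l1 n0 n1 k hR' hB'

/-- The step for the regular tree at its critical parameter `-b l`. -/
theorem step_regular (c : Knot) (hok : c.ok = true) {d : ℕ} (hreg : c.reg = some d) (hr : RowsOK c)
    {b lam : ℝ} (hb0 : 0 < b) (hb1 : b ≤ 1) (hlam : lam = b * -(c.l : ℝ))
    (hd : (d : ℝ) * lam ^ 2 = 1) (l0 : -(1 / 2) ≤ lam) (l1 : lam ≤ 1)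
    (n0 : ∀ k, 0 ≤ regularLaw d k) (n1 : HasSum (regularLaw d) 1) (n : ℕ) {A B : ℝ}
    (hR : Region c A B) (hB : Below (chanG l0 l1 n0 n1 n) A B) :
    ∃ A' B', Region c A' B' ∧
      2 * A' + B' / 2 ≤ (2 * A + B / 2) - c.eta * (2 * A + B / 2) ^ 2 ∧
      Below (chanG l0 l1 n0 n1 (n + 1)) A' B' := by
  subst hlam
  obtain ⟨hl, k0, k1⟩ := knot_range hok
  obtain ⟨hd2, hmud⟩ : 2 ≤ d ∧ c.mu ≤ d := by
    have h' := hok
    simp only [Knot.ok, Bool.and_eq_true] at h'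
    have := h'.2.1
    simpa [Knot.regOK, hreg] using this
  obtain ⟨hu0, hu1, hμ0, hμmu⟩ := uof_range c hok hR hb0.le hb1
  obtain ⟨eA, eB⟩ := mean_uof c hok hR hb0.le hb1
  obtain ⟨iA, iB⟩ := intensities (A := A) (B := B) (m := (d : ℝ)) hl.ne' hb0.ne'
    (by rw [← hd]; ring)
  set r := b * (2 * A - B / 4) / (2 * A + B / 2)
  set u := uof r
  set μ := mean c.l (2 * A + B / 2) r
  obtain ⟨A1, B1, hA1, hB1, hs, hA1le, hB1le, hchild⟩ :=
    child_of_below hB hb0.le hb1 k0 k1 l0 l1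
  set A2 := A * sP b + B * tP b with hA2
  set B2 := A * sE b + B * tE b with hB2
  set s := A2 + B2 with hsdef
  have hd0 : (0 : ℝ) < d := by exact_mod_cast (show 0 < d by omega)
  have hμd : (d : ℝ) * s = μ := by rw [hsdef, mul_add, iA, iB, ← eA, ← eB]; ring
  have hA2u : A2 = s * u := by
    refine mul_left_cancel₀ hd0.ne' ?_
    rw [← mul_assoc, hμd, iA, ← eA]
  have hB2u : B2 = s * (1 - u) := by linear_combination hsdef.symm - hA2u
  have hmud' : (c.mu : ℝ) ≤ d := by exact_mod_cast hmud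
  have hs0 : 0 ≤ s := by linarith [hA1.trans hA1le, hB1.trans hB1le]
  have hs1 : s ≤ 1 := le_of_mul_le_mul_left (by rw [mul_one, hμd]; linarith) hd0
  have L : Law c μ (binom d s) :=
    hμd ▸ binom_law c hreg hd2 hs0 hs1 (by rw [hμd]; exact hμmu) hmud
  obtain ⟨hz, h0, h1, hz2⟩ := children c hok hr hu0 hu1
  obtain ⟨A', B', hR', hx', -, hsA, hsB⟩ := step c hok hR hb0.le hb1
    (π := binom d s)
    (za := fun j => powS (-(c.l : ℝ)) u (1 - u) j wP)
    (zb := fun j => powS (-(c.l : ℝ)) u (1 - u) j wE)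
    (fun ν hν _ _ => by subst hν; exact L) hz h0 (fun v hv => by subst hv; exact h1)
    (fun v hv => by subst hv; exact hz2)
  refine ⟨A', B', hR', hx', below_of_law L k0 k1 hu0 hu1 (fun g hg => ?_) hsA hsB⟩
  have hup := Child.up hchild k0 k1 hs hA1le hB1le (c := 1 - s) (by linarith) (by linarith)
  refine (chanG_regular_succ l0 l1 n0 n1 n hup k0 k1 (hA1.trans hA1le) (hB1.trans hB1le)
    (by linarith) hg).trans (le_of_eq ?_)
  rw [tsum_eq_sum (s := range (d + 1)) fun j hj => by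
    rw [mem_range] at hj
    simp [binom, Nat.choose_eq_zero_of_lt (show d < j by omega)]]
  refine sum_congr rfl fun j _ => ?_
  rw [hA2u, hB2u, powS_scale, binom]
  ring

/-- A regular tree at its critical parameter decays once a bound enters the region. -/
theorem decay_regular (c : Knot) (hok : c.ok = true) {d : ℕ} (hreg : c.reg = some d)
    (hr : RowsOK c) {b lam : ℝ} (hb0 : 0 < b) (hb1 : b ≤ 1) (hlam : lam = b * -(c.l : ℝ))
    (hd : (d : ℝ) * lam ^ 2 = 1) (l0 : -(1 / 2) ≤ lam) (l1 : lam ≤ 1)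
    (n0 : ∀ k, 0 ≤ regularLaw d k) (n1 : HasSum (regularLaw d) 1) {n : ℕ} {A B : ℝ}
    (hR : Region c A B) (hB : Below (chanG l0 l1 n0 n1 n) A B) :
    Decay (chanG l0 l1 n0 n1) :=
  decay_of_step hok hR hB fun k _ _ hR' hB' =>
    step_regular c hok hreg hr hb0 hb1 hlam hd l0 l1 n0 n1 k hR' hB'

lemma below_mono {C : Chan} {a b A B : ℝ} (h : Below C a b) (ha : a ≤ A) (hb : b ≤ B) :
    Below C A B := by
  obtain ⟨a', b', h1, h2, rest⟩ := h
  exact ⟨a', b', h1.trans ha, h2.trans hb, rest⟩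

end Endgame

end Vale.Agent.P154.LN
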