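import Vale.Agent.P154.LN.Pow
import Vale.Agent.P154.LN.Interval

/-!
The real-number layer of the many-type recursion: domination of a channel by weights on a finite list
of atoms, the multilinear step of a regular tree, the reduction of a product vector to the atoms, and
the collapse to three weights.

A list of atoms is a map `T : ι → Fin 3 → ℝ` of vectors with `pP = 1`, one index `u` being the useless
vector. `Cov T L R` says that the symmetrised value at `L` is at most the combination `R` of the atoms.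
-/

namespace Vale.Agent.P154.LN

open Finset

/-! ## Products of children -/

/-- The six rearranged products, in the order of `avg6`. -/
def six {K : Type*} [Mul K] (v M : Fin 3 → K) : List (Fin 3 → K) :=
  [![v 0 * M 0, v 1 * M 1, v 2 * M 2], ![v 0 * M 1, v 1 * M 2, v 2 * M 0],
    ![v 0 * M 2, v 1 * M 0, v 2 * M 1], ![v 0 * M 1, v 1 * M 0, v 2 * M 2],
    ![v 0 * M 0, v 1 * M 2, v 2 * M 1], ![v 0 * M 2, v 1 * M 1, v 2 * M 0]]

/-- All products of rearrangements of the listed vectors, from a starting vector. -/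
def vecs {K : Type*} [Mul K] (v : Fin 3 → K) : List (Fin 3 → K) → List (Fin 3 → K)
  | [] => [v]
  | M :: Ms => (six v M).flatMap fun w => vecs w Ms

lemma vec_map {K K' : Type*} (f : K → K') (a b c : K) :
    (fun i => f (![a, b, c] i)) = ![f a, f b, f c] := by
  funext i; fin_cases i <;> rfl

lemma six_map {K K' : Type*} [Mul K] [Mul K'] (f : K → K') (hf : ∀ a b, f (a * b) = f a * f b)
    (v M : Fin 3 → K) :
    (six v M).map (fun w i => f (w i)) = six (fun i => f (v i)) (fun i => f (M i)) := by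
  simp [six, vec_map, hf]

lemma vecs_map {K K' : Type*} [Mul K] [Mul K'] (f : K → K') (hf : ∀ a b, f (a * b) = f a * f b)
    (v : Fin 3 → K) (Ms : List (Fin 3 → K)) :
    (vecs v Ms).map (fun w i => f (w i)) =
      vecs (fun i => f (v i)) (Ms.map fun M i => f (M i)) := by
  induction Ms generalizing v with
  | nil => simp [vecs]
  | cons M Ms ih =>
    simp only [vecs, List.map_flatMap, List.map_cons, ih, ← six_map f hf v M, List.flatMap_map]

/-- The averaged operator of a list of children. -/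
noncomputable def prodL (Ms : List (Fin 3 → ℝ)) : Module.End ℝ ((Fin 3 → ℝ) → ℝ) :=
  (Ms.map avgL).prod

/-- Value of a functional at the product of the listed children. -/
noncomputable def XiT (Ms : List (Fin 3 → ℝ)) (g : (Fin 3 → ℝ) → ℝ) : ℝ := prodL Ms g eU

lemma prodL_cons (M : Fin 3 → ℝ) (Ms : List (Fin 3 → ℝ)) :
    prodL (M :: Ms) = avgL M * prodL Ms := by simp [prodL]

lemma prodL_eq_vecs (Ms : List (Fin 3 → ℝ)) (g : (Fin 3 → ℝ) → ℝ) (v : Fin 3 → ℝ) :
    prodL Ms g v * 6 ^ Ms.length = ((vecs v Ms).map g).sum := by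
  induction Ms generalizing v with
  | nil => simp [prodL, vecs]
  | cons M Ms ih =>
    rw [prodL_cons, Module.End.mul_apply, vecs, List.map_flatMap, List.length_cons, pow_succ]
    simp only [six, List.flatMap_cons, List.flatMap_nil, List.append_nil, List.sum_append, ← ih,
      avgL_apply, avg6]
    ring

lemma six_nonneg {v M : Fin 3 → ℝ} (hv : ∀ i, 0 ≤ v i) (hM : ∀ i, 0 ≤ M i) :
    ∀ w ∈ six v M, ∀ i, 0 ≤ w i := by
  simp only [six, List.forall_mem_cons]
  have h : ∀ a b c, ∀ i, 0 ≤ ![v 0 * M a, v 1 * M b, v 2 * M c] i := fun a b c =>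
    vec_nonneg (mul_nonneg (hv 0) (hM a)) (mul_nonneg (hv 1) (hM b)) (mul_nonneg (hv 2) (hM c))
  exact ⟨h 0 1 2, h 1 2 0, h 2 0 1, h 1 0 2, h 0 2 1, h 2 1 0, List.forall_mem_nil _⟩

lemma vecs_nonneg {Ms : List (Fin 3 → ℝ)} (hMs : ∀ M ∈ Ms, ∀ i, 0 ≤ M i) {v : Fin 3 → ℝ}
    (hv : ∀ i, 0 ≤ v i) : ∀ w ∈ vecs v Ms, ∀ i, 0 ≤ w i := by
  induction Ms generalizing v with
  | nil => simpa [vecs] using hv
  | cons M Ms ih =>
    intro w hw
    obtain ⟨x, hx, hwx⟩ := List.mem_flatMap.1 hw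
    exact ih (fun N hN => hMs N (List.mem_cons_of_mem _ hN))
      (six_nonneg hv (hMs M List.mem_cons_self) x hx) w hwx

lemma prodL_perF (Ms : List (Fin 3 → ℝ)) (g : (Fin 3 → ℝ) → ℝ) {a b c : Fin 3} (hab : a ≠ b)
    (hac : a ≠ c) (hbc : b ≠ c) : prodL Ms (perF a b c g) = perF a b c (prodL Ms g) := by
  induction Ms with
  | nil => rfl
  | cons M Ms ih =>
    rw [prodL_cons, Module.End.mul_apply, Module.End.mul_apply, ih, avgL_perF M _ hab hac hbc]

lemma XiT_perF (Ms : List (Fin 3 → ℝ)) (g : (Fin 3 → ℝ) → ℝ) {a b c : Fin 3} (hab : a ≠ b)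
    (hac : a ≠ c) (hbc : b ≠ c) : XiT Ms (perF a b c g) = XiT Ms g := by
  rw [XiT, XiT, prodL_perF Ms g hab hac hbc, perF]
  refine congrArg _ (funext fun i => ?_)
  fin_cases i <;> fin_cases a <;> fin_cases b <;> fin_cases c <;> simp [eU]

lemma XiT_orb (Ms : List (Fin 3 → ℝ)) (g : (Fin 3 → ℝ) → ℝ) : XiT Ms (orb g) = XiT Ms g := by
  have e : orb g = (6:ℝ)⁻¹ • (perF 0 1 2 g + perF 1 2 0 g + perF 2 0 1 g + perF 1 0 2 g
      + perF 0 2 1 g + perF 2 1 0 g) := by
    funext L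
    simp only [orb_def, perF, Pi.smul_apply, Pi.add_apply, smul_eq_mul]
    ring
  rw [e, XiT, map_smul]
  simp only [map_add, Pi.smul_apply, Pi.add_apply, smul_eq_mul]
  change (6:ℝ)⁻¹ * (XiT Ms (perF 0 1 2 g) + XiT Ms (perF 1 2 0 g) + XiT Ms (perF 2 0 1 g)
    + XiT Ms (perF 1 0 2 g) + XiT Ms (perF 0 2 1 g) + XiT Ms (perF 2 1 0 g)) = _
  rw [XiT_perF Ms g (by decide) (by decide) (by decide),
    XiT_perF Ms g (by decide) (by decide) (by decide),
    XiT_perF Ms g (by decide) (by decide) (by decide),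
    XiT_perF Ms g (by decide) (by decide) (by decide),
    XiT_perF Ms g (by decide) (by decide) (by decide),
    XiT_perF Ms g (by decide) (by decide) (by decide)]
  ring

lemma prodL_pP {Ms : List (Fin 3 → ℝ)} (h : ∀ M ∈ Ms, pP M = 1) : prodL Ms pP = pP := by
  induction Ms with
  | nil => rfl
  | cons M Ms ih =>
    rw [prodL_cons, Module.End.mul_apply, ih fun N hN => h N (List.mem_cons_of_mem _ hN)]
    funext L
    rw [avgL_apply, avg6_pP, h M List.mem_cons_self, mul_one]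

/-! ## Covering a vector by atoms -/

variable {ι : Type*} [Fintype ι]

/-- The combination `R` of the atoms dominates `L`, with the same total mass. -/
def Cov (T : ι → Fin 3 → ℝ) (L : Fin 3 → ℝ) (R : ι → ℝ) : Prop :=
  (∀ g, IsTest g → orb g L ≤ ∑ i, R i * orb g (T i)) ∧ ∑ i, R i = pP L

variable {T : ι → Fin 3 → ℝ}

lemma cov_smul {L : Fin 3 → ℝ} {R : ι → ℝ} (h : Cov T L R) {r : ℝ} (hr : 0 ≤ r) :
    Cov T (fun i => r * L i) fun i => r * R i := by
  refine ⟨fun g hg => ?_, ?_⟩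
  · rw [orb_smul hg]
    refine le_trans (mul_le_mul_of_nonneg_left (h.1 g hg) hr) (le_of_eq ?_)
    rw [mul_sum]
    exact sum_congr rfl fun i _ => (mul_assoc _ _ _).symm
  · rw [← mul_sum, h.2]; simp [pP]; ring

lemma cov_congr {L M : Fin 3 → ℝ} {R : ι → ℝ} (h : Cov T M R) (ho : ∀ g, orb g L = orb g M)
    (hp : pP L = pP M) : Cov T L R :=
  ⟨fun g hg => (ho g).le.trans (h.1 g hg), h.2.trans hp.symm⟩

lemma cov_swap01 {a b c : ℝ} {R : ι → ℝ} (h : Cov T ![a, b, c] R) : Cov T ![b, a, c] R :=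
  cov_congr h (fun g => orb_swap01 g a b c) (by simp [pP]; ring)

lemma cov_swap12 {a b c : ℝ} {R : ι → ℝ} (h : Cov T ![a, b, c] R) : Cov T ![a, c, b] R :=
  cov_congr h (fun g => orb_swap12 g a b c) (by simp [pP]; ring)

lemma cov_rot {a b c : ℝ} {R : ι → ℝ} (h : Cov T ![a, b, c] R) : Cov T ![b, c, a] R :=
  cov_congr h (fun g => orb_rot g a b c) (by simp [pP]; ring)

lemma cov_eq {L : Fin 3 → ℝ} {R R' : ι → ℝ} (h : Cov T L R) (e : R = R') : Cov T L R' := e ▸ h

lemma cov_atom [DecidableEq ι] (hT1 : ∀ i, pP (T i) = 1) (i : ι) : Cov T (T i) (Pi.single i 1) :=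
  ⟨fun g _ => le_of_eq (by simp [Pi.single_apply, ite_mul]), by simp [Pi.single_apply, hT1]⟩

/-- The three-point bound, when the three special vectors are atoms. -/
lemma cov_three [DecidableEq ι] {iP iE iU : ι} (hP : ∀ g, orb g (T iP) = orb g eP)
    (hE : ∀ g, orb g (T iE) = orb g eE) (hU : ∀ g, orb g (T iU) = orb g eU) {L : Fin 3 → ℝ}
    (hL : ∀ i, 0 ≤ L i) :
    Cov T L (Pi.single iP (wP L) + Pi.single iE (wE L) + Pi.single iU (wU L)) := by
  refine ⟨fun g hg => le_trans (hg.three hL) (le_of_eq ?_), ?_⟩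
  · simp [Pi.single_apply, ite_mul, add_mul, sum_add_distrib, hP, hE, hU]
  · simp [Pi.single_apply, sum_add_distrib, wU]

/-- Interpolation along a segment. -/
lemma cov_seg {c f θ r₀ r₁ : ℝ} {R₀ R₁ : ι → ℝ} (hc : 0 ≤ c) (hf : 0 ≤ f) (h0 : 0 ≤ r₀)
    (hθ₀ : r₀ ^ 2 ≤ θ ^ 2) (hθ₁ : θ ^ 2 ≤ r₁ ^ 2) (h1 : r₁ ^ 2 ≤ 1) (hlt : r₀ ^ 2 < r₁ ^ 2)
    (k₀ : Cov T (seg c f r₀) R₀) (k₁ : Cov T (seg c f r₁) R₁) :
    Cov T (seg c f θ) fun i => (r₁ ^ 2 - θ ^ 2) / (r₁ ^ 2 - r₀ ^ 2) * R₀ i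
      + (θ ^ 2 - r₀ ^ 2) / (r₁ ^ 2 - r₀ ^ 2) * R₁ i := by
  have hd : 0 < r₁ ^ 2 - r₀ ^ 2 := sub_pos.2 hlt
  constructor
  · intro g hg
    refine le_trans ((le_div_iff₀' hd).2 (hg.pair_move hc hf h0 hθ₀ hθ₁ h1)) ?_
    simp only [add_mul, sum_add_distrib, mul_assoc, ← mul_sum]
    rw [add_div, mul_div_right_comm, mul_div_right_comm (θ ^ 2 - r₀ ^ 2)]
    exact add_le_add (mul_le_mul_of_nonneg_left (k₀.1 g hg) (div_nonneg (sub_nonneg.2 hθ₁) hd.le))
      (mul_le_mul_of_nonneg_left (k₁.1 g hg) (div_nonneg (sub_nonneg.2 hθ₀) hd.le))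
  · simp only [sum_add_distrib, ← mul_sum, k₀.2, k₁.2]
    simp [pP, seg]
    field_simp
    ring

/-- The atom on the boundary. -/
noncomputable def bdry (θ : ℝ) : Fin 3 → ℝ := seg (3 / 2) 0 θ

lemma orb_bdry_zero (g : (Fin 3 → ℝ) → ℝ) : orb g (bdry 0) = orb g eE := by
  simp only [bdry, seg, eE, add_zero, sub_zero, mul_one]
  exact orb_rot g 0 (3 / 2) (3 / 2)

lemma orb_bdry_one (g : (Fin 3 → ℝ) → ℝ) : orb g (bdry 1) = orb g eP := by
  simp [bdry, seg, eP]
  norm_num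

lemma bdry_pP (θ : ℝ) : pP (bdry θ) = 1 := by simp [bdry, seg, pP]; ring

/-- Interpolation between two neighbouring boundary atoms. -/
lemma cov_bdry [DecidableEq ι] (hT1 : ∀ i, pP (T i) = 1) {θ r₀ r₁ : ℝ} {i₀ i₁ : ι}
    (e₀ : ∀ g, orb g (T i₀) = orb g (bdry r₀)) (e₁ : ∀ g, orb g (T i₁) = orb g (bdry r₁))
    (h0 : 0 ≤ r₀) (hθ₀ : r₀ ^ 2 ≤ θ ^ 2) (hθ₁ : θ ^ 2 ≤ r₁ ^ 2) (h1 : r₁ ^ 2 ≤ 1)
    (hlt : r₀ ^ 2 < r₁ ^ 2) :
    Cov T (bdry θ) (Pi.single i₀ ((r₁ ^ 2 - θ ^ 2) / (r₁ ^ 2 - r₀ ^ 2))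
      + Pi.single i₁ ((θ ^ 2 - r₀ ^ 2) / (r₁ ^ 2 - r₀ ^ 2))) := by
  have a : ∀ {r i}, (∀ g, orb g (T i) = orb g (bdry r)) → Cov T (seg (3 / 2) 0 r) (Pi.single i 1) :=
    fun {r i} e => cov_congr (cov_atom hT1 i) (fun g => (e g).symm)
      ((bdry_pP r).trans (hT1 i).symm)
  refine cov_eq (cov_seg (by norm_num) le_rfl h0 hθ₀ hθ₁ h1 hlt (a e₀) (a e₁)) ?_
  funext i
  simp [Pi.single_apply]

/-- Reduction of `(a, b, f)`: move the pair `a, b` keeping `f`. With `f` the middle coordinate this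
is the rule of the recursion; the bound holds for every choice. -/
theorem cov_red [DecidableEq ι] {iP iE iU i₀ i₁ : ι} (hT1 : ∀ i, pP (T i) = 1)
    (hP : ∀ g, orb g (T iP) = orb g eP) (hE : ∀ g, orb g (T iE) = orb g eE)
    (hU : ∀ g, orb g (T iU) = orb g eU) {a b f r₀ r₁ : ℝ} (ha : 0 ≤ a) (hb : 0 ≤ b) (hf : 0 ≤ f)
    (hab : 0 < a + b) (e₀ : ∀ g, orb g (T i₀) = orb g (bdry r₀))
    (e₁ : ∀ g, orb g (T i₁) = orb g (bdry r₁)) (h0 : 0 ≤ r₀)
    (hθ₀ : r₀ ^ 2 ≤ ((a + b - f) / (a + b + f)) ^ 2)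
    (hθ₁ : ((a + b - f) / (a + b + f)) ^ 2 ≤ r₁ ^ 2) (h1 : r₁ ^ 2 ≤ 1) (hlt : r₀ ^ 2 < r₁ ^ 2) :
    Cov T ![a, b, f]
      (let z := (a + b + f) / 3
       let t := ((a - b) / (a + b)) ^ 2
       let τ := f / (a + b + f)
       let s := ((a + b - f) / (a + b + f)) ^ 2
       (Pi.single iP ((1 - t) * (z * (9 / 4 * τ * (τ - 1 / 3) ^ 2))) : ι → ℝ)
        + (Pi.single iE ((1 - t) * (z * (9 * (1 - τ) * (τ - 1 / 3) ^ 2))) : ι → ℝ)
        + (Pi.single iU ((1 - t) * (z * (27 / 4 * (τ * (1 - τ) ^ 2)))) : ι → ℝ)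
        + Pi.single i₀ (t * (z * ((r₁ ^ 2 - s) / (r₁ ^ 2 - r₀ ^ 2))))
        + Pi.single i₁ (t * (z * ((s - r₀ ^ 2) / (r₁ ^ 2 - r₀ ^ 2))))) := by
  dsimp only
  set z := (a + b + f) / 3
  set t := ((a - b) / (a + b)) ^ 2
  set τ := f / (a + b + f)
  set s := ((a + b - f) / (a + b + f)) ^ 2
  set c := (a + b) / 2 with hc
  have hc0 : 0 ≤ c := by positivity
  have hz : 0 < z := by simp only [z]; linarith
  set θ := (a - b) / (a + b) with hθ
  have es : seg c f θ = ![a, b, f] := by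
    unfold seg; congr 1
    · simp only [c, θ]; field_simp; ring
    · congr 1; simp only [c, θ]; field_simp; ring
  have ht : θ ^ 2 ≤ 1 := by
    rw [hθ, div_pow, div_le_one (by positivity)]; nlinarith
  obtain ⟨wa, wb, wc⟩ := w_axis (c := c) (f := f) (σ := z) (τ := τ) hz.ne'
    (by simp only [z, τ]; field_simp) (by simp only [z, τ, c]; field_simp; ring)
  have axis : Cov T (seg c f 0)
      ((Pi.single iP (z * (9 / 4 * τ * (τ - 1 / 3) ^ 2)) : ι → ℝ)
        + (Pi.single iE (z * (9 * (1 - τ) * (τ - 1 / 3) ^ 2)) : ι → ℝ)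
        + (Pi.single iU (z * (27 / 4 * (τ * (1 - τ) ^ 2))) : ι → ℝ)) := by
    have h := cov_three hP hE hU (vec_nonneg hc0 hc0 hf)
    rw [wa, wb, wc, show 1 - 9 / 4 * τ * (τ - 1 / 3) ^ 2 - 9 * (1 - τ) * (τ - 1 / 3) ^ 2
      = 27 / 4 * (τ * (1 - τ) ^ 2) by ring] at h
    simpa [seg] using h
  have hend : Cov T (seg c f 1) fun i => z * (Pi.single i₀ ((r₁ ^ 2 - s) / (r₁ ^ 2 - r₀ ^ 2))
      + Pi.single i₁ ((s - r₀ ^ 2) / (r₁ ^ 2 - r₀ ^ 2)) : ι → ℝ) i := by
    have h := cov_smul (cov_bdry hT1 (θ := (a + b - f) / (a + b + f)) e₀ e₁ h0 hθ₀ hθ₁ h1 hlt) hz.le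
    have e : (fun i => z * bdry ((a + b - f) / (a + b + f)) i) = ![c * (1 + 1), f, 0] := by
      simp only [bdry, seg, ← vec_smul]
      congr 1
      · simp only [z, c]; field_simp; ring
      · congr 1
        · simp only [z]; field_simp; ring
        · simp
    rw [e] at h
    simpa [seg] using cov_swap12 h
  have h := cov_seg (θ := θ) (r₀ := 0) (r₁ := 1) hc0 hf le_rfl (by simp; positivity)
    (by simpa using ht) (by simp) (by simp) axis hend
  rw [es] at h
  refine cov_eq h ?_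
  funext i
  simp only [t, hθ, Pi.add_apply, Pi.single_apply]
  split_ifs <;> ring

/-- The reduction of a vector with a vanishing pair. -/
lemma cov_red_zero [DecidableEq ι] {iP : ι} (hT1 : ∀ i, pP (T i) = 1)
    (hP : ∀ g, orb g (T iP) = orb g eP) {f : ℝ} (hf : 0 ≤ f) :
    Cov T ![0, 0, f] (Pi.single iP (f / 3)) := by
  have e : Cov T eP (Pi.single iP 1) :=
    cov_congr (cov_atom hT1 iP) (fun g => (hP g).symm) (by rw [hT1]; simp [pP, eP])
  have h := cov_smul e (show (0:ℝ) ≤ f / 3 by positivity)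
  rw [show (fun i => f / 3 * eP i) = ![f, 0, 0] by
    funext i; fin_cases i <;> simp [eP]] at h
  refine cov_eq (cov_rot h) ?_
  funext i
  simp [Pi.single_apply]

/-! ## The table of products -/

/-- A table row: if every product is covered and the sums of the covers are below `N Z` off the
useless index, and `Z` has total one, then `Z` bounds the product of children. -/
theorem XiT_table [DecidableEq ι] (hT0 : ∀ i j, 0 ≤ T i j) (hT1 : ∀ i, pP (T i) = 1) {iU : ι}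
    (hU : T iU = eU) {Ms : List (Fin 3 → ℝ)} (hM1 : ∀ M ∈ Ms, pP M = 1)
    (R : (Fin 3 → ℝ) → ι → ℝ) (hR : ∀ v ∈ vecs eU Ms, Cov T v (R v)) (Z : ι → ℝ)
    (hZ : ∀ i, i ≠ iU → ((vecs eU Ms).map fun v => R v i).sum ≤ 6 ^ Ms.length * Z i)
    (hZ1 : ∑ i, Z i = 1) {g : (Fin 3 → ℝ) → ℝ} (hg : IsTest g) :
    XiT Ms g ≤ ∑ i, Z i * orb g (T i) := by
  set N : ℝ := 6 ^ Ms.length
  have hN : 0 < N := by positivity
  set U : ι → ℝ := fun i => ((vecs eU Ms).map fun v => R v i).sum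
  set o := fun i => orb g (T i)
  have hswap : ∀ l : List (Fin 3 → ℝ), ∀ φ : ι → ℝ,
      (l.map fun v => ∑ i, R v i * φ i).sum = ∑ i, (l.map fun v => R v i).sum * φ i := by
    intro l φ
    induction l with
    | nil => simp
    | cons v l ih => simp [ih, add_mul, sum_add_distrib]
  have h1 : N * XiT Ms g ≤ ∑ i, U i * o i := by
    rw [← XiT_orb, XiT, mul_comm, prodL_eq_vecs, ← hswap]
    exact List.sum_le_sum fun v hv => (hR v hv).1 g hg
  have htot : ∑ i, U i = N := by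
    have e := hswap (vecs eU Ms) (fun _ => 1)
    simp only [mul_one] at e
    rw [← e, List.map_congr_left fun v hv => (hR v hv).2, ← prodL_eq_vecs, prodL_pP hM1]
    simp [pP, eU, N]
    norm_num
  have h2 : ∀ i, o iU ≤ o i := fun i => by
    have := hg.eU_le_orb (hT0 i)
    rw [hT1, one_mul, ← hU] at this
    exact this
  have h3 : 0 ≤ ∑ i, (N * Z i - U i) * (o i - o iU) := sum_nonneg fun i _ => by
    rcases eq_or_ne i iU with rfl | hi
    · simp
    · exact mul_nonneg (sub_nonneg.2 (hZ i hi)) (sub_nonneg.2 (h2 i))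
  have h4 : ∑ i, (N * Z i - U i) * (o i - o iU) = N * (∑ i, Z i * o i) - ∑ i, U i * o i := by
    simp only [mul_sub, sub_mul, sum_sub_distrib, ← sum_mul, mul_assoc, ← mul_sum, hZ1, htot]
    ring
  exact le_of_mul_le_mul_left (by linarith) hN

/-! ## Domination of a channel -/

/-- The channel is dominated by the weights `w` on the atoms. -/
def DomT (T : ι → Fin 3 → ℝ) (C : Chan) (w : ι → ℝ) : Prop :=
  ∀ g, IsTest g → C.E g ≤ ∑ i, w i * orb g (T i)

/-- One child with weights `w` on the atoms, as a linear map. -/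
noncomputable def stepT (lam : ℝ) (T : ι → Fin 3 → ℝ) (w : ι → ℝ) :
    Module.End ℝ ((Fin 3 → ℝ) → ℝ) :=
  ∑ i, w i • avgL (mixv lam (T i))

lemma orb_mixv (h : (Fin 3 → ℝ) → ℝ) (lam : ℝ) (X : Fin 3 → ℝ) :
    orb (fun L => h (mixv lam L)) X = orb h (mixv lam X) := by
  have e : ∀ a b c : Fin 3, X a + X b + X c = X 0 + X 1 + X 2 →
      mixv lam ![X a, X b, X c] = ![mixv lam X a, mixv lam X b, mixv lam X c] := fun a b c hs => by
    funext i
    fin_cases i <;> simp [mixv, pP, hs]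
  simp only [orb_def]
  rw [e 0 1 2 rfl, e 1 2 0 (by ring), e 2 0 1 (by ring), e 1 0 2 (by ring), e 0 2 1 (by ring),
    e 2 1 0 (by ring)]

lemma orb_mul (g : (Fin 3 → ℝ) → ℝ) (z M : Fin 3 → ℝ) :
    orb (fun L => g fun i => L i * z i) M = avg6 g z M := by
  have e : ∀ a b c : ℝ, (fun i => ![a, b, c] i * z i) = ![z 0 * a, z 1 * b, z 2 * c] := fun a b c => by
    funext i; fin_cases i <;> simp [mul_comm]
  simp only [orb_def, avg6, e]

/-- `k` children, each dominated by the weights `w`. -/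
theorem pw_domT (hT0 : ∀ i j, 0 ≤ T i j) {lam : ℝ} (h0 : -(1 / 2) ≤ lam) (h1 : lam ≤ 1) {C : Chan}
    {w : ι → ℝ} (hw : ∀ i, 0 ≤ w i) (hC : DomT T C w) (k : ℕ) {g : (Fin 3 → ℝ) → ℝ}
    (hg : IsTest g) : ((mixG C lam h0 h1).pw k).E g ≤ (stepT lam T w ^ k) g eU := by
  induction k generalizing g with
  | zero =>
    rw [Chan.E_pw_zero, pow_zero, Module.End.one_apply]
    refine le_of_eq (congrArg g ?_)
    funext i; fin_cases i <;> rfl
  | succ k ih =>
    set D := mixG C lam h0 h1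
    set P := D.pw k
    set M := fun i => mixv lam (T i)
    have hM : ∀ i j, 0 ≤ M i j := fun i => mixv_nonneg' h0 h1 (hT0 i)
    have hD : ∀ h, IsTest h → D.E h ≤ ∑ i, w i * orb h (M i) := fun h hh =>
      le_trans (hC _ (hh.comp_mixv h0 h1)) (le_of_eq (sum_congr rfl fun i _ => by rw [orb_mixv]))
    have hv : ∀ i, ∃ v, HasSum (fun z => avg6 g (P.V z) (M i)) v ∧
        v ≤ (stepT lam T w ^ k) (avgL (M i) g) eU := fun i => by
      set G : Fin 3 → Fin 3 → Fin 3 → (Fin 3 → ℝ) → ℝ :=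
        fun a b c L => g ![L 0 * M i a, L 1 * M i b, L 2 * M i c]
      have e : avgL (M i) g =
          (6:ℝ)⁻¹ • (G 0 1 2 + G 1 2 0 + G 2 0 1 + G 1 0 2 + G 0 2 1 + G 2 1 0) := by
        funext L
        simp only [avgL_apply, avg6, G, Pi.smul_apply, Pi.add_apply, smul_eq_mul]
        ring
      have t := fun a b c => isTest_avg_term hg (hM i) a b c
      have s := fun a b c => (P.summable (t a b c).adm).hasSum
      refine ⟨_, ((((((s 0 1 2).add (s 1 2 0)).add (s 2 0 1)).add (s 1 0 2)).add (s 0 2 1)).add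
        (s 2 1 0)).div_const 6, ?_⟩
      rw [e, map_smul]
      simp only [map_add, Pi.smul_apply, Pi.add_apply, smul_eq_mul]
      have := ih (t 0 1 2); have := ih (t 1 2 0); have := ih (t 2 0 1); have := ih (t 1 0 2)
      have := ih (t 0 2 1); have := ih (t 2 1 0)
      simp only [Chan.E] at *
      linarith
    choose v hv hvle using hv
    rw [D.E_pw_succ]
    refine le_trans ?_ (le_trans (sum_le_sum (s := (univ : Finset ι)) fun i _ =>
      mul_le_mul_of_nonneg_left (hvle i) (hw i)) (le_of_eq ?_))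
    · obtain ⟨b, t, hb, rfl⟩ := hg
      refine hasSum_le (fun z => ?_) (hasSum_star' D P t hb)
        (hasSum_sum fun i _ => (hv i).mul_left (w i))
      refine le_trans (hD _ ⟨_, _, fun j => mul_nonneg (hb j) (P.nonneg z j), rfl⟩) (le_of_eq ?_)
      refine sum_congr rfl fun i _ => congrArg _ ?_
      rw [← orb_mul]
      exact congrArg (fun F => orb F (M i)) (funext fun L => (fS_mul b t L (P.V z)).symm)
    · rw [pow_succ, Module.End.mul_apply]
      simp only [stepT, M, LinearMap.sum_apply, LinearMap.smul_apply, map_sum, map_smul,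
        Finset.sum_apply, Pi.smul_apply, smul_eq_mul]

/-- Expansion of the step over tuples of children. -/
theorem stepT_pow (lam : ℝ) (T : ι → Fin 3 → ℝ) (w : ι → ℝ) (k : ℕ) :
    stepT lam T w ^ k =
      ∑ f : Fin k → ι, (∏ c, w (f c)) • prodL (List.ofFn fun c => mixv lam (T (f c))) := by
  induction k with
  | zero => simp [prodL]
  | succ k ih =>
    rw [pow_succ', ih, stepT, Finset.sum_mul_sum, ← (Fin.consEquiv fun _ : Fin (k + 1) => ι).sum_comp,
      Fintype.sum_prod_type]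
    refine sum_congr rfl fun i _ => sum_congr rfl fun f _ => ?_
    simp [prodL, List.ofFn_succ, Fin.prod_univ_succ, Fin.consEquiv, smul_smul, mul_comm (∏ c, w (f c))]

/-- The multilinear step: tuples of children against a table. -/
theorem pw_table (hT0 : ∀ i j, 0 ≤ T i j) {lam : ℝ} (h0 : -(1 / 2) ≤ lam) (h1 : lam ≤ 1) {C : Chan}
    {w : ι → ℝ} (hw : ∀ i, 0 ≤ w i) (hC : DomT T C w) (k : ℕ) (Z : (Fin k → ι) → ι → ℝ)
    (hZ : ∀ f g, IsTest g →
      XiT (List.ofFn fun c => mixv lam (T (f c))) g ≤ ∑ i, Z f i * orb g (T i)) :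
    DomT T ((mixG C lam h0 h1).pw k) fun i => ∑ f : Fin k → ι, (∏ c, w (f c)) * Z f i := by
  intro g hg
  refine le_trans (pw_domT hT0 h0 h1 hw hC k hg) ?_
  rw [stepT_pow]
  simp only [LinearMap.sum_apply, LinearMap.smul_apply, Finset.sum_apply, Pi.smul_apply, smul_eq_mul,
    sum_mul]
  rw [sum_comm]
  refine sum_le_sum fun f _ => le_trans
    (mul_le_mul_of_nonneg_left (hZ f g hg) (prod_nonneg fun c _ => hw _)) (le_of_eq ?_)
  rw [mul_sum]
  exact sum_congr rfl fun i _ => (mul_assoc _ _ _).symm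

/-- Raising the informative weights at constant total. -/
theorem DomT.raise (hT0 : ∀ i j, 0 ≤ T i j) (hT1 : ∀ i, pP (T i) = 1) {iU : ι} (hU : T iU = eU)
    {C : Chan} {w w' : ι → ℝ} (hC : DomT T C w) (h : ∀ i, i ≠ iU → w i ≤ w' i)
    (hs : ∑ i, w i = ∑ i, w' i) : DomT T C w' := by
  classical
  intro g hg
  refine le_trans (hC g hg) ?_
  set o := fun i => orb g (T i)
  have h2 : ∀ i, o iU ≤ o i := fun i => by
    have := hg.eU_le_orb (hT0 i)
    rw [hT1, one_mul, ← hU] at this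
    exact this
  have h3 : 0 ≤ ∑ i, (w' i - w i) * (o i - o iU) := sum_nonneg fun i _ => by
    rcases eq_or_ne i iU with rfl | hi
    · simp
    · exact mul_nonneg (sub_nonneg.2 (h i hi)) (sub_nonneg.2 (h2 i))
  have h4 : ∑ i, (w' i - w i) * (o i - o iU) = ∑ i, w' i * o i - ∑ i, w i * o i := by
    simp only [mul_sub, sub_mul, sum_sub_distrib, ← sum_mul, hs]
    ring
  linarith

/-- The next depth of the regular tree is `d` children. -/
theorem chanG_regular {l : ℝ} (h0 : -(1 / 2) ≤ l) (h1 : l ≤ 1) (d : ℕ)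
    (hν : ∀ k, 0 ≤ regularLaw d k) (hν1 : HasSum (regularLaw d) 1) (n : ℕ) {g : (Fin 3 → ℝ) → ℝ}
    (hg : IsTest g) : (chanG h0 h1 hν hν1 (n + 1)).E g =
      ((mixG (chanG h0 h1 hν hν1 n) l h0 h1).pw d).E g := by
  rw [chanG_succ]
  refine ((mixG (chanG h0 h1 hν hν1 n) l h0 h1).hasSum_node _ hν hν1 hg.adm hg.smul).unique ?_
  have h := hasSum_single (f := fun k => regularLaw d k * ((mixG (chanG h0 h1 hν hν1 n) l h0 h1).pw k).E g)
    d fun k hk => by simp [regularLaw, hk]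
  simpa [regularLaw] using h

/-- Depth zero: a perfect observation. -/
theorem domT_zero [DecidableEq ι] {iP : ι} (hP : T iP = eP) {l : ℝ} {ν : ℕ → ℝ}
    (h0 : -(1 / 2) ≤ l) (h1 : l ≤ 1) (hν : ∀ k, 0 ≤ ν k) (hν1 : HasSum ν 1) :
    DomT T (chanG h0 h1 hν hν1 0) (Pi.single iP 1) := by
  intro g hg
  simp only [Pi.single_apply, ite_mul, one_mul, zero_mul, Finset.sum_ite_eq', Finset.mem_univ,
    if_true, hP]
  refine le_of_eq ?_
  show (∑' y : Fin 3, g fun i => if y = i then 1 else 0) = _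
  rw [tsum_fintype, Fin.sum_univ_three, orb_def]
  have e : ∀ y : Fin 3, g (fun i => if y = i then 1 else 0) =
      g (fun i => (3:ℝ) * if y = i then 1 else 0) / 3 := fun y => by
    rw [hg.smul]; ring
  have v0 : (fun i : Fin 3 => (3:ℝ) * if 0 = i then 1 else 0) = ![3, 0, 0] := by
    funext i; fin_cases i <;> simp
  have v1 : (fun i : Fin 3 => (3:ℝ) * if 1 = i then 1 else 0) = ![0, 3, 0] := by
    funext i; fin_cases i <;> simp
  have v2 : (fun i : Fin 3 => (3:ℝ) * if 2 = i then 1 else 0) = ![0, 0, 3] := by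
    funext i; fin_cases i <;> simp
  rw [e 0, e 1, e 2, v0, v1, v2]
  simp [eP]
  ring

/-- Collapse to the three weights. -/
theorem DomT.below (hT0 : ∀ i j, 0 ≤ T i j) (hT1 : ∀ i, pP (T i) = 1) {C : Chan} {w : ι → ℝ}
    (hw : ∀ i, 0 ≤ w i) (hs : ∑ i, w i = 1) (hC : DomT T C w) {a b : ℝ}
    (ha : ∑ i, w i * wP (T i) ≤ a) (hb : ∑ i, w i * wE (T i) ≤ b) : Below C a b := by
  have hu : ∑ i, w i * wU (T i) = 1 - ∑ i, w i * wP (T i) - ∑ i, w i * wE (T i) := by
    simp only [wU, mul_sub, sum_sub_distrib, hT1, mul_one, hs]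
  have hu0 : 0 ≤ ∑ i, w i * wU (T i) := sum_nonneg fun i _ => mul_nonneg (hw i) (w_nonneg (hT0 i)).2.2
  refine ⟨_, _, ha, hb, by linarith,
    sum_nonneg fun i _ => mul_nonneg (hw i) (w_nonneg (hT0 i)).1,
    sum_nonneg fun i _ => mul_nonneg (hw i) (w_nonneg (hT0 i)).2.1, by linarith, fun g hg => ?_⟩
  refine le_trans (hC g hg) ?_
  rw [← hu]
  simp only [val, sum_mul, ← sum_add_distrib]
  exact sum_le_sum fun i _ => le_trans (mul_le_mul_of_nonneg_left (hg.three (hT0 i)) (hw i))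
    (le_of_eq (by ring))

end Vale.Agent.P154.LN
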