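import Vale.Agent.P154.LN.FourCheck
import Vale.Agent.P154.LN.FourReal

/-!
Soundness of the checker of the seven-atom recursion: valid tables and chains of states bound the
channels of the regular tree with four children at the strongest parameter.
-/

namespace Vale.Agent.P154.LN.Four

open Finset

/-- The seven atoms. -/
noncomputable def T4 : Fin 7 → Fin 3 → ℝ :=
  ![eP, eE, eU, bdry (20 / 50), bdry (35 / 50), bdry (44 / 50), bdry (48 / 50)]

lemma T4_nonneg (i : Fin 7) (j : Fin 3) : 0 ≤ T4 i j := by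
  fin_cases i <;> fin_cases j <;> simp [T4, eP, eE, eU, bdry, seg] <;> norm_num

lemma T4_pP (i : Fin 7) : pP (T4 i) = 1 := by
  fin_cases i <;> simp [T4, eP, eE, eU, bdry, seg, pP] <;> norm_num

lemma T4_two : T4 2 = eU := rfl

/-- An integer vector. -/
def cast3 (v : N3) : Fin 3 → ℝ := ![(v.1 : ℝ), v.2.1, v.2.2]

lemma cast3_nonneg (v : N3) (i : Fin 3) : 0 ≤ cast3 v i :=
  vec_nonneg (Nat.cast_nonneg _) (Nat.cast_nonneg _) (Nat.cast_nonneg _) i

lemma S_pos : (0 : ℝ) < S := by norm_num [S]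

lemma up_ge {p q : ℕ} (hq : 0 < q) : (p : ℝ) / q * S ≤ (up p q : ℝ) := by
  have h : S * p ≤ up p q * q := by
    have := Nat.div_add_mod (S * p + q - 1) q
    have := Nat.mod_lt (S * p + q - 1) hq
    have e : q * ((S * p + q - 1) / q) = up p q * q := by rw [up]; ring
    omega
  rw [div_mul_eq_mul_div, div_le_iff₀ (by exact_mod_cast hq)]
  have : ((S * p : ℕ) : ℝ) ≤ ((up p q * q : ℕ) : ℝ) := by exact_mod_cast h
  push_cast at this
  linarith

lemma get_add (v w : V7) (i : Fin 7) : (v.add w).get i = v.get i + w.get i := by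
  fin_cases i <;> rfl

lemma get_zero (i : Fin 7) : V7.zero.get i = 0 := by fin_cases i <;> rfl

lemma get_smul (m : ℕ) (v : V7) (i : Fin 7) : (v.smul m).get i = m * v.get i := by
  fin_cases i <;> rfl

/-- The reduction bounds a cover. -/
def Red (L : Fin 3 → ℝ) (Z : V7) : Prop :=
  ∃ R : Fin 7 → ℝ, Cov T4 L R ∧ ∀ i, i ≠ 2 → R i * S ≤ Z.get i

lemma redSorted_sound {a f b : ℕ} (haf : a ≤ f) (hfb : f ≤ b) :
    Red ![(a : ℝ), b, f] (redSorted a f b) := by
  unfold redSorted
  split_ifs with hz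
  · obtain ⟨rfl, rfl⟩ : a = 0 ∧ b = 0 := by omega
    obtain rfl : f = 0 := by omega
    refine ⟨_, by simpa using cov_red_zero T4_pP (iP := 0) (fun g => rfl) (f := 0) le_rfl, fun i _ => ?_⟩
    simp [get_zero]
  extract_lets s Q P g m wp we G
  have hab : 0 < a + b := Nat.pos_of_ne_zero hz
  have hs : 0 < s := by simp only [s]; omega
  have hQ : 0 < Q := pow_pos hab 2
  have hab' : (0:ℝ) < (a:ℝ) + b := by exact_mod_cast hab
  have hs' : (0:ℝ) < (a:ℝ) + b + f := by positivity
  have cs : (s:ℝ) = a + b + f := by simp only [s]; push_cast; ring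
  have cQ : (Q:ℝ) = ((a:ℝ) + b) ^ 2 := by simp only [Q]; push_cast; ring
  have cP : (P:ℝ) = ((a:ℝ) - b) ^ 2 := by
    simp only [P]; rw [Nat.cast_pow, Nat.cast_sub (haf.trans hfb)]; ring
  have cg : (g:ℝ) = (a:ℝ) + b - f := by
    simp only [g]; rw [Nat.cast_sub (by omega), Nat.cast_add]
  have cm : (m:ℝ) = (3 * (f:ℝ) - s) ^ 2 := by
    simp only [m]
    rcases Nat.le_total (3 * f) s with h | h
    · rw [Nat.sub_eq_zero_of_le h, zero_add, Nat.cast_pow, Nat.cast_sub h]; push_cast; ring
    · rw [Nat.sub_eq_zero_of_le h, add_zero, Nat.cast_pow, Nat.cast_sub h]; push_cast; ring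
  have hPQ : P ≤ Q := Nat.pow_le_pow_left (by omega) 2
  set z : ℝ := ((a:ℝ) + b + f) / 3
  set t : ℝ := (((a:ℝ) - b) / ((a:ℝ) + b)) ^ 2
  set τ : ℝ := (f:ℝ) / ((a:ℝ) + b + f)
  set u : ℝ := (((a:ℝ) + b - f) / ((a:ℝ) + b + f)) ^ 2
  have hP : (1 - t) * (z * (9 / 4 * τ * (τ - 1 / 3) ^ 2)) * S ≤ (wp : ℝ) := by
    refine le_trans (le_of_eq ?_) (up_ge (by positivity))
    congr 1
    push_cast [Nat.cast_sub hPQ]
    rw [cQ, cP, cm, cs]
    simp only [z, t, τ]
    field_simp
    ring
  have hE : (1 - t) * (z * (9 * (1 - τ) * (τ - 1 / 3) ^ 2)) * S ≤ (we : ℝ) := by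
    refine le_trans (le_of_eq ?_) (up_ge (by positivity))
    congr 1
    push_cast [Nat.cast_sub hPQ, Nat.cast_sub (show f ≤ s by omega)]
    rw [cQ, cP, cm, cs]
    simp only [z, t, τ]
    field_simp
    ring
  have cmp : ∀ n : ℕ, G ≤ n ^ 2 * s ^ 2 ↔ u ≤ ((n:ℝ) / 50) ^ 2 := fun n => by
    rw [show u = (g:ℝ) ^ 2 / (s:ℝ) ^ 2 by rw [cg, cs, ← div_pow],
      div_pow, div_le_div_iff₀ (pow_pos (by exact_mod_cast hs) 2) (by norm_num)]
    simp only [G]
    rw [← Nat.cast_le (α := ℝ)]
    push_cast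
    constructor <;> intro h <;> linarith
  have ccmp : ∀ n : ℕ, ¬ G ≤ n ^ 2 * s ^ 2 → ((n:ℝ) / 50) ^ 2 ≤ u := fun n h =>
    (not_le.1 (mt (cmp n).2 h)).le
  have main : ∀ (i₀ i₁ : Fin 7) (n₀ n₁ : ℕ), n₀ < n₁ → n₁ ≤ 50 →
      (∀ g, orb g (T4 i₀) = orb g (bdry ((n₀:ℝ) / 50))) →
      (∀ g, orb g (T4 i₁) = orb g (bdry ((n₁:ℝ) / 50))) →
      ((n₀:ℝ) / 50) ^ 2 ≤ u → u ≤ ((n₁:ℝ) / 50) ^ 2 →
      ∃ R, Cov T4 ![(a:ℝ), b, f] R ∧ ∀ i, i ≠ 2 → R i * S ≤
        (if i = 0 then (wp:ℝ) else 0) + (if i = 1 then (we:ℝ) else 0)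
          + (if i = i₀ then (loW P Q s g n₀ n₁ : ℝ) else 0)
          + (if i = i₁ then (hiW P Q s g n₀ n₁ : ℝ) else 0) := by
    intro i₀ i₁ n₀ n₁ hlt h50 e₀ e₁ hu₀ hu₁
    have hlt' : ((n₀:ℝ) / 50) ^ 2 < ((n₁:ℝ) / 50) ^ 2 := by gcongr
    refine ⟨_, cov_red T4_pP (iP := 0) (iE := 1) (iU := 2) (fun _ => rfl) (fun _ => rfl) (fun _ => rfl)
      (Nat.cast_nonneg a) (Nat.cast_nonneg b) (Nat.cast_nonneg f) hab' e₀ e₁ (by positivity) hu₀ hu₁
      (pow_le_one₀ (by positivity) (by rw [div_le_one (by norm_num)]; exact_mod_cast h50)) hlt',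
      fun i hi => ?_⟩
    have hnn : (n₀:ℝ) ^ 2 < (n₁:ℝ) ^ 2 := by gcongr
    have hd : (n₁:ℝ) ^ 2 - (n₀:ℝ) ^ 2 ≠ 0 := (sub_pos.2 hnn).ne'
    have hq : 0 < 3 * Q * s * (n₁ ^ 2 - n₀ ^ 2) :=
      mul_pos (by positivity) (Nat.sub_pos_of_lt (Nat.pow_lt_pow_left hlt two_ne_zero))
    have hle₁ : 2500 * g ^ 2 ≤ n₁ ^ 2 * s ^ 2 := (cmp n₁).2 hu₁
    have hle₀ : n₀ ^ 2 * s ^ 2 ≤ 2500 * g ^ 2 := by
      rw [← Nat.cast_le (α := ℝ)]
      push_cast
      have h : ((n₀:ℝ) / 50) ^ 2 ≤ (g:ℝ) ^ 2 / (s:ℝ) ^ 2 := by rw [cg, cs, ← div_pow]; exact hu₀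
      rw [div_pow, div_le_div_iff₀ (by norm_num) (pow_pos (by exact_mod_cast hs) 2)] at h
      linarith
    have hL : t * (z * ((((n₁:ℝ) / 50) ^ 2 - u) / (((n₁:ℝ) / 50) ^ 2 - ((n₀:ℝ) / 50) ^ 2))) * S
        ≤ (loW P Q s g n₀ n₁ : ℝ) := by
      refine le_trans (le_of_eq ?_) (up_ge hq)
      congr 1
      push_cast [Nat.cast_sub hle₁, Nat.cast_sub (Nat.pow_le_pow_left hlt.le 2)]
      rw [cQ, cP, cg, cs]
      simp only [z, t, u]
      field_simp
      ring
    have hH : t * (z * ((u - ((n₀:ℝ) / 50) ^ 2) / (((n₁:ℝ) / 50) ^ 2 - ((n₀:ℝ) / 50) ^ 2))) * S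
        ≤ (hiW P Q s g n₀ n₁ : ℝ) := by
      refine le_trans (le_of_eq ?_) (up_ge hq)
      congr 1
      push_cast [Nat.cast_sub hle₀, Nat.cast_sub (Nat.pow_le_pow_left hlt.le 2)]
      rw [cQ, cP, cg, cs]
      simp only [z, t, u]
      field_simp
      ring
    simp only [Pi.add_apply, Pi.single_apply, add_mul, if_neg hi, zero_mul, add_zero, ite_mul]
    refine add_le_add (add_le_add (add_le_add ?_ ?_) ?_) ?_ <;> split_ifs
    all_goals first
      | exact le_rfl
      | assumption
  split_ifs with h1 h2 h3 h4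
  · obtain ⟨R, hR, hb⟩ := main 1 3 0 20 (by norm_num) (by norm_num)
      (fun g => by simp [T4, orb_bdry_zero]) (fun g => rfl) (by simp; positivity) ((cmp 20).1 h1)
    refine ⟨R, hR, fun i hi => ?_⟩
    have := hb i hi
    fin_cases i <;> simp [V7.get] at this hi ⊢ <;> linarith
  · obtain ⟨R, hR, hb⟩ := main 3 4 20 35 (by norm_num) (by norm_num)
      (fun g => rfl) (fun g => rfl) (ccmp 20 h1) ((cmp 35).1 h2)
    refine ⟨R, hR, fun i hi => ?_⟩
    have := hb i hi
    fin_cases i <;> simp [V7.get] at this hi ⊢ <;> linarith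
  · obtain ⟨R, hR, hb⟩ := main 4 5 35 44 (by norm_num) (by norm_num)
      (fun g => rfl) (fun g => rfl) (ccmp 35 h2) ((cmp 44).1 h3)
    refine ⟨R, hR, fun i hi => ?_⟩
    have := hb i hi
    fin_cases i <;> simp [V7.get] at this hi ⊢ <;> linarith
  · obtain ⟨R, hR, hb⟩ := main 5 6 44 48 (by norm_num) (by norm_num)
      (fun g => rfl) (fun g => rfl) (ccmp 44 h3) ((cmp 48).1 h4)
    refine ⟨R, hR, fun i hi => ?_⟩
    have := hb i hi
    fin_cases i <;> simp [V7.get] at this hi ⊢ <;> linarith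
  · have h50 : G ≤ 50 ^ 2 * s ^ 2 := by
      have := Nat.mul_le_mul_left 2500 (Nat.pow_le_pow_left (show g ≤ s by omega) 2)
      simp only [G]; omega
    obtain ⟨R, hR, hb⟩ := main 6 0 48 50 (by norm_num) (by norm_num)
      (fun g => rfl) (fun g => by simp [T4, orb_bdry_one]) (ccmp 48 h4) ((cmp 50).1 h50)
    refine ⟨R, hR, fun i hi => ?_⟩
    have := hb i hi
    fin_cases i <;> simp [V7.get] at this hi ⊢ <;> linarith

lemma red_sound (v : N3) : Red (cast3 v) (red v) := by
  obtain ⟨x, y, z⟩ := v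
  simp only [red, cast3]
  split_ifs with h1 h2 h3 h4 h5
  · obtain ⟨R, hR, hb⟩ := redSorted_sound h1 h2
    exact ⟨R, cov_swap12 hR, hb⟩
  · exact redSorted_sound h3 (by omega)
  · obtain ⟨R, hR, hb⟩ := redSorted_sound (a := z) (f := x) (b := y) (by omega) h1
    exact ⟨R, cov_rot (cov_rot (cov_swap01 hR)), hb⟩
  · obtain ⟨R, hR, hb⟩ := redSorted_sound (a := y) (f := x) (b := z) (by omega) h4
    exact ⟨R, cov_rot (cov_rot hR), hb⟩
  · obtain ⟨R, hR, hb⟩ := redSorted_sound (a := y) (f := z) (b := x) h5 (by omega)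
    exact ⟨R, cov_swap01 hR, hb⟩
  · obtain ⟨R, hR, hb⟩ := redSorted_sound (a := z) (f := y) (b := x) (by omega) (by omega)
    exact ⟨R, cov_rot hR, hb⟩

lemma list_sound (l : List N3) :
    ∃ U : Fin 7 → ℝ, (∀ g, IsTest g → (l.map fun v => orb g (cast3 v)).sum ≤ ∑ i, U i * orb g (T4 i)) ∧
      (∑ i, U i = (l.map fun v => pP (cast3 v)).sum) ∧
      ∀ i, i ≠ 2 → U i * S ≤ ((l.map red).foldr V7.add V7.zero).get i := by
  induction l with
  | nil => exact ⟨0, fun g _ => by simp, by simp, fun i _ => by simp [get_zero]⟩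
  | cons v l ih =>
    obtain ⟨U, hU, hs, hb⟩ := ih
    obtain ⟨R, ⟨hR, hr⟩, hc⟩ := red_sound v
    refine ⟨R + U, fun g hg => ?_, ?_, fun i hi => ?_⟩
    · simp only [List.map_cons, List.sum_cons, Pi.add_apply, add_mul, sum_add_distrib]
      exact add_le_add (hR g hg) (hU g hg)
    · simp [sum_add_distrib, hs, hr]
    · simp only [List.map_cons, List.foldr_cons, get_add, Nat.cast_add, Pi.add_apply, add_mul]
      exact add_le_add (hc i hi) (hb i hi)

/-- A child atom at parameter `-1/2`. -/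
noncomputable def Mch (i : Fin 7) : Fin 3 → ℝ := mixv (-(1 / 2)) (T4 i)

/-- The scale of a child atom. -/
noncomputable def sc (i : Fin 7) : ℝ := (scaleNum i : ℝ) / scaleDen i

/-- The common scale of a product. -/
noncomputable def scs (is : List (Fin 7)) : ℝ := (is.map sc).prod

lemma Mch_eq (i : Fin 7) : Mch i = fun x => sc i * cast3 (base i) x := by
  funext x
  fin_cases i <;> fin_cases x <;>
    simp [Mch, T4, eP, eE, eU, bdry, seg, mixv, pP, sc, scaleNum, scaleDen, base, cast3] <;> norm_num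

lemma avgL_orients (i : Fin 7) (h : (Fin 3 → ℝ) → ℝ) (r : ℝ) (v : N3) :
    avgL (Mch i) h (fun x => r * cast3 v x) * (orients i).length =
      ((orients i).map fun w => h fun x => r * sc i * cast3 (mul3 v w) x).sum := by
  have key : ∀ (a b c : ℕ),
      (fun x => r * sc i * cast3 (mul3 v (a, b, c)) x) =
        ![r * (v.1:ℝ) * (sc i * a), r * (v.2.1:ℝ) * (sc i * b), r * (v.2.2:ℝ) * (sc i * c)] := by
    intro a b c
    funext j
    fin_cases j <;> simp [mul3, cast3] <;> ring
  have c0 : ∀ w : N3, cast3 w 0 = w.1 := fun _ => rfl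
  have c1 : ∀ w : N3, cast3 w 1 = w.2.1 := fun _ => rfl
  have c2 : ∀ w : N3, cast3 w 2 = w.2.2 := fun _ => rfl
  simp only [avgL_apply, avg6, Mch_eq, c0, c1, c2]
  fin_cases i <;> simp [orients, base] at key ⊢ <;> simp [key] <;> ring

lemma prods_sound (is : List (Fin 7)) (h : (Fin 3 → ℝ) → ℝ) (r : ℝ) (v : N3) :
    prodL (is.map Mch) h (fun x => r * cast3 v x) * count is =
      ((prods v is).map fun w => h fun x => r * scs is * cast3 w x).sum := by
  induction is generalizing r v with
  | nil => simp [prodL, prods, count, scs]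
  | cons i is ih =>
    rw [List.map_cons, prodL_cons, Module.End.mul_apply, count, prods, Nat.cast_mul, ← mul_assoc,
      avgL_orients, ← List.sum_map_mul_right, List.map_flatMap]
    simp only [List.flatMap_def, List.sum_flatten, List.map_map]
    refine congrArg List.sum (List.map_congr_left fun w _ => ?_)
    simp only [Function.comp_apply]
    rw [ih]
    simp only [scs, List.map_cons, List.prod_cons, mul_assoc]

lemma perF_orb (g : (Fin 3 → ℝ) → ℝ) {a b c : Fin 3} (hab : a ≠ b) (hac : a ≠ c) (hbc : b ≠ c) :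
    perF a b c (orb g) = orb g := by
  funext L
  fin_cases a <;> fin_cases b <;> fin_cases c <;> simp_all [perF, orb_def] <;> ring

lemma perF_pP {a b c : Fin 3} (hab : a ≠ b) (hac : a ≠ c) (hbc : b ≠ c) : perF a b c pP = pP := by
  funext L
  fin_cases a <;> fin_cases b <;> fin_cases c <;> simp_all [perF, pP] <;> ring

lemma key_sum (i : Fin 7) (is : List (Fin 7)) {h : (Fin 3 → ℝ) → ℝ}
    (hs : ∀ {a b c : Fin 3}, a ≠ b → a ≠ c → b ≠ c → perF a b c h = h) :
    XiT ((i :: is).map Mch) h * count is =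
      ((prods (base i) is).map fun w => h fun x => sc i * scs is * cast3 w x).sum := by
  rw [← prods_sound is h (sc i) (base i), ← Mch_eq, List.map_cons, XiT, prodL_cons, Module.End.mul_apply,
    avgL_apply]
  congr 1
  have e : ∀ a b c : Fin 3, a ≠ b → a ≠ c → b ≠ c →
      prodL (is.map Mch) h ![eU 0 * Mch i a, eU 1 * Mch i b, eU 2 * Mch i c] =
        prodL (is.map Mch) h (Mch i) := fun a b c hab hac hbc => by
    have := congrFun (prodL_perF (is.map Mch) h hab hac hbc) (Mch i)
    rw [hs hab hac hbc] at this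
    rw [this, perF]
    simp [eU]
  simp only [avg6]
  rw [e 0 1 2 (by decide) (by decide) (by decide), e 1 2 0 (by decide) (by decide) (by decide),
    e 2 0 1 (by decide) (by decide) (by decide), e 1 0 2 (by decide) (by decide) (by decide),
    e 0 2 1 (by decide) (by decide) (by decide), e 2 1 0 (by decide) (by decide) (by decide)]
  ring

/-- The real weights of a table row. -/
noncomputable def rowW (Z : V7) (i : Fin 7) : ℝ :=
  if i = 2 then 1 - ((Z.p:ℝ) + Z.e + Z.a + Z.b + Z.c + Z.d) / S else (Z.get i : ℝ) / S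

lemma rowW_sum (Z : V7) : ∑ i, rowW Z i = 1 := by
  simp [Fin.sum_univ_seven, rowW, V7.get]
  ring

lemma scs_eq (is : List (Fin 7)) : scs is = (prodNum is : ℝ) / prodDen is := by
  induction is with
  | nil => simp [scs, prodNum, prodDen]
  | cons i is ih =>
    simp only [scs, List.map_cons, List.prod_cons] at ih ⊢
    rw [ih, sc, prodNum, prodDen, Nat.cast_mul, Nat.cast_mul, div_mul_div_comm]

lemma prodDen_pos (is : List (Fin 7)) : 0 < prodDen is := by
  induction is with
  | nil => simp [prodDen]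
  | cons i is ih => exact Nat.mul_pos (by fin_cases i <;> decide) ih

lemma count_pos (is : List (Fin 7)) : 0 < count is := by
  induction is with
  | nil => simp [count]
  | cons i is ih => exact Nat.mul_pos (by fin_cases i <;> decide) ih

lemma Mch_pP (i : Fin 7) : pP (Mch i) = 1 := by rw [Mch, pP_mixv, T4_pP]

theorem row_sound {k : List (Fin 7)} {Z : V7} (h : rowOK k Z = true) {g : (Fin 3 → ℝ) → ℝ}
    (hg : IsTest g) : XiT (k.map Mch) g ≤ ∑ i, rowW Z i * orb g (T4 i) := by
  match k, h with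
  | [], h => simp [rowOK] at h
  | j :: is, h =>
    simp only [rowOK, Bool.and_eq_true, decide_eq_true_eq] at h
    obtain ⟨⟨⟨⟨⟨h0, h1⟩, h3⟩, h4⟩, h5⟩, h6⟩ := h
    obtain ⟨U, hU, hsum, hub⟩ := list_sound (prods (base j) is)
    set C : ℝ := sc j * scs is
    have hC : C = (prodNum (j :: is) : ℝ) / prodDen (j :: is) := by
      rw [← scs_eq]; simp [C, scs]
    have hC0 : 0 ≤ C := by rw [hC]; positivity
    set N : ℝ := (count is : ℝ)
    have hN : 0 < N := by simp only [N]; exact_mod_cast count_pos is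
    have e1 : N * XiT ((j :: is).map Mch) g =
        C * ((prods (base j) is).map fun v => orb g (cast3 v)).sum := by
      rw [← XiT_orb, mul_comm, key_sum j is (fun hab hac hbc => perF_orb g hab hac hbc), ← List.sum_map_mul_left]
      exact congrArg List.sum (List.map_congr_left fun w _ => orb_smul hg _ _)
    have e2 : N = C * ∑ i, U i := by
      have hk := key_sum j is (h := pP) (fun hab hac hbc => perF_pP hab hac hbc)
      have hp : XiT ((j :: is).map Mch) pP = 1 := by
        rw [XiT, prodL_pP fun M hM => by obtain ⟨i, -, rfl⟩ := List.mem_map.1 hM; exact Mch_pP i]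
        simp [pP, eU]
        norm_num
      rw [hp, one_mul] at hk
      rw [hsum, ← List.sum_map_mul_left, show N = _ from hk]
      exact congrArg List.sum (List.map_congr_left fun w _ => by simp [pP, C]; ring)
    have hle : ∀ i, i ≠ 2 → C * U i ≤ N * rowW Z i := fun i hi => by
      have hA : (keyAcc (j :: is)).get i * prodNum (j :: is) ≤
          Z.get i * (prodDen (j :: is) * count is) := by
        fin_cases i <;> simp [V7.get] at * <;> assumption
      have hA' : ((keyAcc (j :: is)).get i : ℝ) * prodNum (j :: is) ≤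
          (Z.get i : ℝ) * (prodDen (j :: is) * N) := by simp only [N]; exact_mod_cast hA
      have hden : (0:ℝ) < prodDen (j :: is) := by exact_mod_cast prodDen_pos _
      have hu : U i * S ≤ ((keyAcc (j :: is)).get i : ℝ) := hub i hi
      rw [rowW, if_neg hi, hC, mul_div_assoc', le_div_iff₀ S_pos, div_mul_eq_mul_div, div_mul_eq_mul_div,
        div_le_iff₀ hden]
      have := mul_le_mul_of_nonneg_left hu (Nat.cast_nonneg (α := ℝ) (prodNum (j :: is)))
      linarith
    have h2 : ∀ i, orb g (T4 2) ≤ orb g (T4 i) := fun i => by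
      have := hg.eU_le_orb (T4_nonneg i)
      rwa [T4_pP, one_mul] at this
    have hpos : 0 ≤ ∑ i, (N * rowW Z i - C * U i) * (orb g (T4 i) - orb g (T4 2)) :=
      sum_nonneg fun i _ => by
        rcases eq_or_ne i 2 with rfl | hi
        · simp
        · exact mul_nonneg (sub_nonneg.2 (hle i hi)) (sub_nonneg.2 (h2 i))
    have hexp : ∑ i, (N * rowW Z i - C * U i) * (orb g (T4 i) - orb g (T4 2)) =
        N * (∑ i, rowW Z i * orb g (T4 i)) - C * ∑ i, U i * orb g (T4 i) := by
      simp only [mul_sub, sub_mul, sum_sub_distrib, ← sum_mul, mul_assoc, ← mul_sum, rowW_sum]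
      rw [show C * ((∑ i, U i) * orb g (T4 2)) = N * orb g (T4 2) by rw [← mul_assoc, ← e2]]
      ring
    refine le_of_mul_le_mul_left ?_ hN
    rw [e1]
    have := mul_le_mul_of_nonneg_left (hU g hg) hC0
    linarith

/-- Expansion of a power of a commuting sum along `terms`. -/
theorem terms_sound {R : Type*} [Ring R] [Algebra ℝ R] (w : Fin 7 → ℝ) (A : Fin 7 → R)
    (hA : ∀ i j, Commute (A i) (A j)) (items : List (Fin 7)) (n : ℕ) :
    (items.map fun i => w i • A i).sum ^ n =
      ((terms items n).map fun t => ((t.1:ℝ) * (t.2.map w).prod) • (t.2.map A).prod).sum := by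
  induction items generalizing n with
  | nil =>
    cases n with
    | zero => simp [terms]
    | succ n => simp [terms]
  | cons i rest ih =>
    have hc : Commute (w i • A i) ((rest.map fun i => w i • A i).sum) :=
      Commute.list_sum_right _ _ fun x hx => by
        obtain ⟨j, -, rfl⟩ := List.mem_map.1 hx
        exact ((hA i j).smul_left _).smul_right _
    rw [List.map_cons, List.sum_cons, hc.add_pow, terms, List.flatMap_def, List.map_flatten,
      List.sum_flatten, List.map_map, List.map_map, ← List.sum_toFinset _ List.nodup_range,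
      List.toFinset_range]
    refine sum_congr rfl fun j _ => ?_
    rw [ih, ← List.sum_map_mul_left, ← List.sum_map_mul_right]
    simp only [Function.comp_apply, List.map_map]
    refine congrArg List.sum (List.map_congr_left fun t _ => ?_)
    simp only [Function.comp_apply, List.map_append, List.map_replicate, List.prod_append, List.prod_replicate,
      smul_pow, smul_mul_smul_comm, Nat.cast_mul]
    rw [← Nat.cast_comm, ← nsmul_eq_mul, ← Nat.cast_smul_eq_nsmul ℝ, smul_smul]
    congr 1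
    ring

/-- The real weights of a state. -/
noncomputable def wr (w : V7) (i : Fin 7) : ℝ := (w.get i : ℝ) / S

lemma wr_nonneg (w : V7) (i : Fin 7) : 0 ≤ wr w i := by unfold wr; positivity

lemma wr_sum {w : V7} (h : stateOK w = true) : ∑ i, wr w i = 1 := by
  simp only [stateOK, decide_eq_true_eq] at h
  simp only [Fin.sum_univ_seven, wr, ← add_div]
  rw [div_eq_one_iff_eq S_pos.ne']
  exact_mod_cast h

lemma keys_length {items : List (Fin 7)} {n : ℕ} : ∀ t ∈ terms items n, t.2.length = n := by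
  induction items generalizing n with
  | nil => cases n <;> simp [terms]
  | cons i rest ih =>
    intro t ht
    simp only [terms, List.mem_flatMap, List.mem_range, List.mem_map] at ht
    obtain ⟨j, hj, t', ht', rfl⟩ := ht
    simp [ih t' ht']
    omega

lemma keyWeight_eq (w : V7) (k : List (Fin 7)) :
    (k.map (wr w)).prod = (keyWeight w k : ℝ) / (S : ℝ) ^ k.length := by
  induction k with
  | nil => simp [keyWeight]
  | cons i is ih => simp [keyWeight, ih, wr, pow_succ, div_mul_div_comm, mul_comm]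

lemma stepAcc_get (R : List ((ℕ × List (Fin 7)) × V7)) (w : V7) (i : Fin 7) :
    ((stepAcc R w).get i : ℝ) =
      (R.map fun r => (r.1.1:ℝ) * keyWeight w r.1.2 * (r.2.get i : ℝ)).sum := by
  induction R with
  | nil => simp [stepAcc, get_zero]
  | cons r R ih =>
    simp only [stepAcc, List.map_cons, List.foldr_cons, List.sum_cons, get_add, get_smul, Nat.cast_add,
      Nat.cast_mul] at ih ⊢
    rw [ih]

lemma regularLaw4_sum : HasSum (regularLaw 4) 1 := hasSum_ite_eq 4 (1:ℝ)

/-- The channel of the regular tree with four children at the strongest parameter. -/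
noncomputable def C4 (n : ℕ) : Chan :=
  chanG (l := -(1 / 2)) (ν := regularLaw 4) le_rfl (by norm_num)
    (fun k => by unfold regularLaw; positivity) regularLaw4_sum n

theorem step_sound {T : List V7} (hlen : T.length = keys.length) (hT : rowsOK T = true) {w w' : V7}
    (hs : stateOK w = true) (hstep : stepOK (rows T) w w' = true) {n : ℕ}
    (hw : DomT T4 (C4 n) (wr w)) : DomT T4 (C4 (n + 1)) (wr w') := by
  simp only [stepOK, Bool.and_eq_true, decide_eq_true_eq] at hstep
  obtain ⟨⟨⟨⟨⟨⟨hs', hp⟩, ha⟩, hb⟩, hc⟩, hd⟩, he⟩ := hstep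
  intro g hg
  have hfst : (rows T).map Prod.fst = keys := List.map_fst_zip (by omega)
  set co : (ℕ × List (Fin 7)) → ℝ := fun t => (t.1:ℝ) * (t.2.map (wr w)).prod
  set u : Fin 7 → ℝ := fun i => ((rows T).map fun r => co r.1 * rowW r.2 i).sum
  have hitems : stepT (-(1 / 2)) T4 (wr w) =
      ([3, 4, 5, 6, 0, 1, 2].map fun i : Fin 7 => wr w i • avgL (Mch i)).sum := by
    simp [stepT, Fin.sum_univ_seven, Mch]
    abel
  have hexp : (stepT (-(1 / 2)) T4 (wr w) ^ 4) g eU =
      ((rows T).map fun r => co r.1 * XiT (r.1.2.map Mch) g).sum := by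
    rw [hitems, terms_sound (wr w) (fun i => avgL (Mch i)) (fun i j => avgL_comm _ _), ← keys, ← hfst,
      List.map_map]
    induction rows T with
    | nil => simp
    | cons r R ih =>
      simp only [List.map_cons, List.sum_cons, LinearMap.add_apply, Pi.add_apply, ← ih,
        Function.comp_apply, LinearMap.smul_apply, Pi.smul_apply, smul_eq_mul]
      simp [XiT, prodL, List.map_map, Function.comp_def, co]
  have htot : ((rows T).map fun r => co r.1).sum = 1 := by
    have := terms_sound (R := ℝ) (wr w) (fun _ => (1:ℝ)) (fun i j => Commute.all _ _)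
      [3, 4, 5, 6, 0, 1, 2] 4
    have h1 : ([3, 4, 5, 6, 0, 1, 2].map fun i : Fin 7 => wr w i • (1:ℝ)).sum = 1 := by
      refine Eq.trans ?_ (wr_sum hs)
      simp [Fin.sum_univ_seven]
      ring
    rw [h1, one_pow, ← keys, ← hfst, List.map_map] at this
    rw [this]
    exact congrArg List.sum (List.map_congr_left fun r _ => by simp [co])
  have hco : ∀ r : (ℕ × List (Fin 7)) × V7, 0 ≤ co r.1 := fun r =>
    mul_nonneg (Nat.cast_nonneg _) (List.prod_nonneg fun x hx => by
      obtain ⟨i, -, rfl⟩ := List.mem_map.1 hx; exact wr_nonneg w i)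
  have hu : (C4 (n + 1)).E g ≤ ∑ i, u i * orb g (T4 i) := by
    rw [C4, chanG_regular le_rfl (by norm_num) 4 _ _ n hg]
    refine le_trans (pw_domT T4_nonneg le_rfl (by norm_num) (wr_nonneg w) hw 4 hg) ?_
    rw [hexp]
    have hrows : ∀ r ∈ rows T, XiT (r.1.2.map Mch) g ≤ ∑ i, rowW r.2 i * orb g (T4 i) :=
      fun r hr => row_sound (List.all_eq_true.1 hT r hr) hg
    refine le_trans (List.sum_le_sum fun r hr => mul_le_mul_of_nonneg_left (hrows r hr) (hco r)) ?_
    simp only [u]
    induction rows T with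
    | nil => simp
    | cons r R ih =>
      simp only [List.map_cons, List.sum_cons, add_mul, sum_add_distrib, mul_sum, mul_assoc]
      exact add_le_add le_rfl (by simpa only [mul_sum, mul_assoc] using ih)
  have husum : ∑ i, u i = 1 := by
    rw [← htot]
    simp only [u]
    induction rows T with
    | nil => simp
    | cons r R ih => simp [sum_add_distrib, ← mul_sum, rowW_sum, ih]
  have hul : ∀ i, i ≠ 2 → (stepAcc (rows T) w).get i ≤ w'.get i * S ^ 4 → u i ≤ wr w' i := by
    intro i hi hA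
    have hA' : ((stepAcc (rows T) w).get i : ℝ) ≤ (w'.get i : ℝ) * (S:ℝ) ^ 4 := by exact_mod_cast hA
    have hu' : u i = ((stepAcc (rows T) w).get i : ℝ) / (S:ℝ) ^ 5 := by
      rw [stepAcc_get, div_eq_mul_inv, ← List.sum_map_mul_right]
      refine congrArg List.sum (List.map_congr_left fun r hr => ?_)
      have hl : r.1.2.length = 4 := keys_length r.1 (hfst ▸ List.mem_map_of_mem hr : r.1 ∈ keys)
      simp only [co, keyWeight_eq, hl, rowW, if_neg hi]
      field_simp
    rw [hu', wr, div_le_div_iff₀ (pow_pos S_pos 5) S_pos]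
    have := mul_le_mul_of_nonneg_right hA' S_pos.le
    linarith
  refine le_trans hu ?_
  have piv : ∀ j : Fin 7, (∀ i, 0 ≤ (wr w' i - u i) * (orb g (T4 i) - orb g (T4 j))) →
      ∑ i, u i * orb g (T4 i) ≤ ∑ i, wr w' i * orb g (T4 i) := by
    intro j h
    have h3 : 0 ≤ ∑ i, (wr w' i - u i) * (orb g (T4 i) - orb g (T4 j)) := sum_nonneg fun i _ => h i
    have h4 : ∑ i, (wr w' i - u i) * (orb g (T4 i) - orb g (T4 j)) =
        ∑ i, wr w' i * orb g (T4 i) - ∑ i, u i * orb g (T4 i) := by
      simp only [mul_sub, sub_mul, sum_sub_distrib, ← sum_mul, husum, wr_sum hs']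
      ring
    linarith
  have hU2 : ∀ i, orb g (T4 2) ≤ orb g (T4 i) := fun i => by
    have := hg.eU_le_orb (T4_nonneg i)
    rwa [T4_pP, one_mul] at this
  refine piv 2 fun i => ?_
  rcases eq_or_ne i 2 with rfl | hi
  · simp
  refine mul_nonneg (sub_nonneg.2 (hul i hi ?_)) (sub_nonneg.2 (hU2 i))
  fin_cases i <;> first | exact absurd rfl hi | assumption

theorem chain_sound {T : List V7} (hlen : T.length = keys.length) (hT : rowsOK T = true) :
    ∀ (L : List V7) {w : V7} {n : ℕ}, stateOK w = true → chainFrom (rows T) w L = true →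
      DomT T4 (C4 n) (wr w) → stateOK (L.getLastD w) = true ∧ DomT T4 (C4 (n + L.length)) (wr (L.getLastD w)) := by
  intro L
  induction L with
  | nil => intro w n hs _ hw; exact ⟨hs, hw⟩
  | cons w' L ih =>
    intro w n hs hc hw
    simp only [chainFrom, Bool.and_eq_true] at hc
    have hs' : stateOK w' = true := by
      have := hc.1
      simp only [stepOK, Bool.and_eq_true] at this
      exact this.1.1.1.1.1.1
    have h := ih hs' hc.2 (step_sound hlen hT hs hc.1 hw)
    rw [List.getLastD_cons, List.length_cons, Nat.add_comm L.length 1, ← Nat.add_assoc]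
    exact h

/-- Phase zero: valid data give a three-weight bound at the depth of the last state. -/
theorem four_below {T L : List V7} {A B : ℕ} (hlen : T.length = keys.length) (hT : rowsOK T = true)
    (hL : chainFrom (rows T) start L = true) (hx : exitOK (L.getLastD start) A B = true) :
    Below (C4 L.length) ((A : ℝ) / S) ((B : ℝ) / S) := by
  have h0 : DomT T4 (C4 0) (wr start) := by
    have e : wr start = Pi.single 0 1 := by
      funext i
      fin_cases i <;> simp [wr, start, V7.get, S]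
    rw [e]
    exact domT_zero (T := T4) (iP := 0) rfl _ _ _ _
  obtain ⟨hs, hd⟩ := chain_sound hlen hT L (w := start) (n := 0) (by decide) hL h0
  rw [Nat.zero_add] at hd
  set w := L.getLastD start
  simp only [exitOK, Bool.and_eq_true, decide_eq_true_eq] at hx
  have hb : ∀ i : Fin 7, wP (T4 i) = ![1, 0, 0, 400 / 2500, 1225 / 2500, 1936 / 2500, 2304 / 2500] i ∧
      wE (T4 i) = ![0, 1, 0, 2100 / 2500, 1275 / 2500, 564 / 2500, 196 / 2500] i := fun i => by
    fin_cases i <;> constructor <;> simp [T4, wP, wE, fB, fM, pP, eP, eE, eU, bdry, seg] <;> norm_num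
  refine DomT.below T4_nonneg T4_pP (wr_nonneg w) (wr_sum hs) hd ?_ ?_
  · simp only [Fin.sum_univ_seven, (hb _).1, wr]
    simp [V7.get]
    have : ((2500 * w.p + 400 * w.a + 1225 * w.b + 1936 * w.c + 2304 * w.d : ℕ) : ℝ) ≤
        ((2500 * A : ℕ) : ℝ) := by exact_mod_cast hx.1
    push_cast at this
    rw [le_div_iff₀ S_pos]
    have := S_pos
    field_simp
    linarith
  · simp only [Fin.sum_univ_seven, (hb _).2, wr]
    simp [V7.get]
    have : ((2500 * w.e + 2100 * w.a + 1275 * w.b + 564 * w.c + 196 * w.d : ℕ) : ℝ) ≤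
        ((2500 * B : ℕ) : ℝ) := by exact_mod_cast hx.2
    push_cast at this
    rw [le_div_iff₀ S_pos]
    have := S_pos
    field_simp
    linarith

end Vale.Agent.P154.LN.Four
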