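import Vale.Agent.P154.LN.FourData
import Vale.Agent.P154.LN.FourSound

/-!
Phase zero of the regular tree with four children at the strongest parameter: after the listed levels the
channel is dominated by weights at most `1/10` and `38/100` of a perfect and an excluding observation.
-/

namespace Vale.Agent.P154.LN.Four

theorem table_length : table.length = keys.length := by decide +kernel

theorem table_ok : rowsOK table = true := by decide +kernel

theorem states_ok : chainFrom (rows table) start states = true := by decide +kernel

theorem exit_ok : exitOK (states.getLastD start) (S / 10) (38 * S / 100) = true := by decide +kernel

theorem phase_zero : Below (C4 states.length) (1 / 10) (38 / 100) := by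
  have h := four_below table_length table_ok states_ok exit_ok
  have ea : ((S / 10 : ℕ) : ℝ) / S = 1 / 10 := by norm_num [S]
  have eb : ((38 * S / 100 : ℕ) : ℝ) / S = 38 / 100 := by norm_num [S]
  rwa [ea, eb] at h

end Vale.Agent.P154.LN.Four
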