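import Vale.Agent.P154.LN.PhaseI.Run00
import Vale.Agent.P154.LN.PhaseI.Run01
import Vale.Agent.P154.LN.PhaseI.Run02
import Vale.Agent.P154.LN.PhaseI.Run03
import Vale.Agent.P154.LN.PhaseI.Run04
import Vale.Agent.P154.LN.PhaseI.Run05
import Vale.Agent.P154.LN.PhaseI.Run06
import Vale.Agent.P154.LN.PhaseI.Run07
import Vale.Agent.P154.LN.PhaseI.Run08
import Vale.Agent.P154.LN.PhaseI.Run09
import Vale.Agent.P154.LN.PhaseI.Run10
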