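import Vale.Agent.P154.LN.FinalKnot
import Vale.Agent.P154.LN.EgFits
import Vale.Agent.P154.LN.PhaseI
import Vale.Agent.P154.LN.FourRun

/-!
Decay of the finitely many regular trees at the critical parameter and of the critical Poisson trees
with strongly negative parameter: the two hypotheses of `LN/Threshold.lean`.
-/

namespace Vale.Agent.P154.LN

open EgData

lemma knot0_decay : PoissonOn (-(500 / 1000)) (-(492 / 1000)) :=
  poissonOn_of_run eg0_ok eg0_rows rfl (by norm_num [eg0]) (by norm_num)
    fun _ _ hm h0 h1 he hlo hhi => PhaseI.run0 hm h0 h1 he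
      (le_trans (le_of_eq (by norm_num)) hlo) (le_trans hhi (le_of_eq (by norm_num)))

lemma knot1_decay : PoissonOn (-(492 / 1000)) (-(479 / 1000)) :=
  poissonOn_of_run eg1_ok eg1_rows rfl (by norm_num [eg1]) (by norm_num)
    fun _ _ hm h0 h1 he hlo hhi => PhaseI.run1 hm h0 h1 he
      (le_trans (le_of_eq (by norm_num)) hlo) (le_trans hhi (le_of_eq (by norm_num)))

lemma knot2_decay : PoissonOn (-(479 / 1000)) (-(458 / 1000)) :=
  poissonOn_of_run eg2_ok eg2_rows rfl (by norm_num [eg2]) (by norm_num)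
    fun _ _ hm h0 h1 he hlo hhi => PhaseI.run2 hm h0 h1 he
      (le_trans (le_of_eq (by norm_num)) hlo) (le_trans hhi (le_of_eq (by norm_num)))

lemma knot3_decay : PoissonOn (-(458 / 1000)) (-(438 / 1000)) :=
  poissonOn_of_run eg3_ok eg3_rows rfl (by norm_num [eg3]) (by norm_num)
    fun _ _ hm h0 h1 he hlo hhi => PhaseI.run3 hm h0 h1 he
      (le_trans (le_of_eq (by norm_num)) hlo) (le_trans hhi (le_of_eq (by norm_num)))

lemma knot4_decay : PoissonOn (-(438 / 1000)) (-(419 / 1000)) :=
  poissonOn_of_run eg4_ok eg4_rows rfl (by norm_num [eg4]) (by norm_num)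
    fun _ _ hm h0 h1 he hlo hhi => PhaseI.run4 hm h0 h1 he
      (le_trans (le_of_eq (by norm_num)) hlo) (le_trans hhi (le_of_eq (by norm_num)))

lemma knot5_decay : PoissonOn (-(419 / 1000)) (-(400 / 1000)) :=
  poissonOn_of_run eg5_ok eg5_rows rfl (by norm_num [eg5]) (by norm_num)
    fun _ _ hm h0 h1 he hlo hhi => PhaseI.run5 hm h0 h1 he
      (le_trans (le_of_eq (by norm_num)) hlo) (le_trans hhi (le_of_eq (by norm_num)))

lemma knot6_decay : PoissonOn (-(400 / 1000)) (-(382 / 1000)) :=
  poissonOn_of_run eg6_ok eg6_rows rfl (by norm_num [eg6]) (by norm_num)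
    fun _ _ hm h0 h1 he hlo hhi => PhaseI.run6 hm h0 h1 he
      (le_trans (le_of_eq (by norm_num)) hlo) (le_trans hhi (le_of_eq (by norm_num)))

lemma knot7_decay : PoissonOn (-(382 / 1000)) (-(365 / 1000)) :=
  poissonOn_of_run eg7_ok eg7_rows rfl (by norm_num [eg7]) (by norm_num)
    fun _ _ hm h0 h1 he hlo hhi => PhaseI.run7 hm h0 h1 he
      (le_trans (le_of_eq (by norm_num)) hlo) (le_trans hhi (le_of_eq (by norm_num)))

lemma knot8_decay : PoissonOn (-(365 / 1000)) (-(349 / 1000)) :=
  poissonOn_of_run eg8_ok eg8_rows rfl (by norm_num [eg8]) (by norm_num)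
    fun _ _ hm h0 h1 he hlo hhi => PhaseI.run8 hm h0 h1 he
      (le_trans (le_of_eq (by norm_num)) hlo) (le_trans hhi (le_of_eq (by norm_num)))

lemma knot9_decay : PoissonOn (-(349 / 1000)) (-(333 / 1000)) :=
  poissonOn_of_run eg9_ok eg9_rows rfl (by norm_num [eg9]) (by norm_num)
    fun _ _ hm h0 h1 he hlo hhi => PhaseI.run9 hm h0 h1 he
      (le_trans (le_of_eq (by norm_num)) hlo) (le_trans hhi (le_of_eq (by norm_num)))

lemma knot10_decay : PoissonOn (-(333 / 1000)) (-(318 / 1000)) :=
  poissonOn_of_run eg10_ok eg10_rows rfl (by norm_num [eg10]) (by norm_num)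
    fun _ _ hm h0 h1 he hlo hhi => PhaseI.run10 hm h0 h1 he
      (le_trans (le_of_eq (by norm_num)) hlo) (le_trans hhi (le_of_eq (by norm_num)))

lemma knot11_decay : PoissonOn (-(318 / 1000)) (-(304 / 1000)) :=
  poissonOn_of_run eg11_ok eg11_rows rfl (by norm_num [eg11]) (by norm_num)
    fun _ _ hm h0 h1 he hlo hhi => PhaseI.run11 hm h0 h1 he
      (le_trans (le_of_eq (by norm_num)) hlo) (le_trans hhi (le_of_eq (by norm_num)))

lemma knot12_decay : PoissonOn (-(304 / 1000)) (-(290 / 1000)) :=
  poissonOn_of_run eg12_ok eg12_rows rfl (by norm_num [eg12]) (by norm_num)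
    fun _ _ hm h0 h1 he hlo hhi => PhaseI.run12 hm h0 h1 he
      (le_trans (le_of_eq (by norm_num)) hlo) (le_trans hhi (le_of_eq (by norm_num)))

lemma knot13_decay : PoissonOn (-(290 / 1000)) (-(277 / 1000)) :=
  poissonOn_of_run eg13_ok eg13_rows rfl (by norm_num [eg13]) (by norm_num)
    fun _ _ hm h0 h1 he hlo hhi => PhaseI.run13 hm h0 h1 he
      (le_trans (le_of_eq (by norm_num)) hlo) (le_trans hhi (le_of_eq (by norm_num)))

lemma knot14_decay : PoissonOn (-(277 / 1000)) (-(265 / 1000)) :=
  poissonOn_of_run eg14_ok eg14_rows rfl (by norm_num [eg14]) (by norm_num)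
    fun _ _ hm h0 h1 he hlo hhi => PhaseI.run14 hm h0 h1 he
      (le_trans (le_of_eq (by norm_num)) hlo) (le_trans hhi (le_of_eq (by norm_num)))

lemma knot15_decay : PoissonOn (-(265 / 1000)) (-(253 / 1000)) :=
  poissonOn_of_run eg15_ok eg15_rows rfl (by norm_num [eg15]) (by norm_num)
    fun _ _ hm h0 h1 he hlo hhi => PhaseI.run15 hm h0 h1 he
      (le_trans (le_of_eq (by norm_num)) hlo) (le_trans hhi (le_of_eq (by norm_num)))

lemma knot16_decay : PoissonOn (-(253 / 1000)) (-(242 / 1000)) :=
  poissonOn_of_run eg16_ok eg16_rows rfl (by norm_num [eg16]) (by norm_num)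
    fun _ _ hm h0 h1 he hlo hhi => PhaseI.run16 hm h0 h1 he
      (le_trans (le_of_eq (by norm_num)) hlo) (le_trans hhi (le_of_eq (by norm_num)))

lemma knot17_decay : PoissonOn (-(242 / 1000)) (-(231 / 1000)) :=
  poissonOn_of_run eg17_ok eg17_rows rfl (by norm_num [eg17]) (by norm_num)
    fun _ _ hm h0 h1 he hlo hhi => PhaseI.run17 hm h0 h1 he
      (le_trans (le_of_eq (by norm_num)) hlo) (le_trans hhi (le_of_eq (by norm_num)))

lemma knot18_decay : PoissonOn (-(231 / 1000)) (-(221 / 1000)) :=
  poissonOn_of_run eg18_ok eg18_rows rfl (by norm_num [eg18]) (by norm_num)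
    fun _ _ hm h0 h1 he hlo hhi => PhaseI.run18 hm h0 h1 he
      (le_trans (le_of_eq (by norm_num)) hlo) (le_trans hhi (le_of_eq (by norm_num)))

lemma knot19_decay : PoissonOn (-(221 / 1000)) (-(211 / 1000)) :=
  poissonOn_of_run eg19_ok eg19_rows rfl (by norm_num [eg19]) (by norm_num)
    fun _ _ hm h0 h1 he hlo hhi => PhaseI.run19 hm h0 h1 he
      (le_trans (le_of_eq (by norm_num)) hlo) (le_trans hhi (le_of_eq (by norm_num)))

lemma knot20_decay : PoissonOn (-(211 / 1000)) (-(201 / 1000)) :=
  poissonOn_of_run eg20_ok eg20_rows rfl (by norm_num [eg20]) (by norm_num)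
    fun _ _ hm h0 h1 he hlo hhi => PhaseI.run20 hm h0 h1 he
      (le_trans (le_of_eq (by norm_num)) hlo) (le_trans hhi (le_of_eq (by norm_num)))

lemma knot21_decay : PoissonOn (-(201 / 1000)) (-(196 / 1000)) :=
  poissonOn_of_run eg21_ok eg21_rows rfl (by norm_num [eg21]) (by norm_num)
    fun _ _ hm h0 h1 he hlo hhi => PhaseI.run21 hm h0 h1 he
      (le_trans (le_of_eq (by norm_num)) hlo) (le_trans hhi (le_of_eq (by norm_num)))

lemma regular4_decay : RegularAt 4 :=
  regularAt_of_run 4 eg22_ok eg22_rows rfl (by decide +kernel) fun l h0 h1 hl => by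
    have hs : Real.sqrt ((4 : ℕ) : ℝ) = 2 := by
      rw [show ((4 : ℕ) : ℝ) = 2 ^ 2 by norm_num, Real.sqrt_sq zero_le_two]
    have e : l = -(1 / 2) := by rw [hl, hs]; norm_num
    have hstart : ∃ N, BelowS (chanG h0 h1 (regularLaw_nonneg 4) (hasSum_regularLaw 4) N)
        (100000000000, 380000000000) := by
      subst e
      refine ⟨_, (Four.phase_zero).mono (le_of_eq ?_) (le_of_eq ?_)⟩ <;> norm_num [SC]
    obtain ⟨N, hN⟩ := hstart
    exact PhaseI.run22 h0 h1 hl hN

lemma regular5_decay : RegularAt 5 :=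
  regularAt_of_run 5 eg23_ok eg23_rows rfl (by decide +kernel)
    fun _ h0 h1 hl => PhaseI.run23 h0 h1 hl

lemma regular6_decay : RegularAt 6 :=
  regularAt_of_run 6 eg24_ok eg24_rows rfl (by decide +kernel)
    fun _ h0 h1 hl => PhaseI.run24 h0 h1 hl

lemma regular7_decay : RegularAt 7 :=
  regularAt_of_run 7 eg25_ok eg25_rows rfl (by decide +kernel)
    fun _ h0 h1 hl => PhaseI.run25 h0 h1 hl

lemma regular8_decay : RegularAt 8 :=
  regularAt_of_run 8 eg26_ok eg26_rows rfl (by decide +kernel)
    fun _ h0 h1 hl => PhaseI.run26 h0 h1 hl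

lemma regular9_decay : RegularAt 9 :=
  regularAt_of_run 9 eg27_ok eg27_rows rfl (by decide +kernel)
    fun _ h0 h1 hl => PhaseI.run27 h0 h1 hl

lemma regular10_decay : RegularAt 10 :=
  regularAt_of_run 10 eg28_ok eg28_rows rfl (by decide +kernel)
    fun _ h0 h1 hl => PhaseI.run28 h0 h1 hl

lemma regular11_decay : RegularAt 11 :=
  regularAt_of_run 11 eg29_ok eg29_rows rfl (by decide +kernel)
    fun _ h0 h1 hl => PhaseI.run29 h0 h1 hl

lemma regular12_decay : RegularAt 12 :=
  regularAt_of_run 12 eg30_ok eg30_rows rfl (by decide +kernel)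
    fun _ h0 h1 hl => PhaseI.run30 h0 h1 hl

lemma regular13_decay : RegularAt 13 :=
  regularAt_of_run 13 eg31_ok eg31_rows rfl (by decide +kernel)
    fun _ h0 h1 hl => PhaseI.run31 h0 h1 hl

lemma regular14_decay : RegularAt 14 :=
  regularAt_of_run 14 eg32_ok eg32_rows rfl (by decide +kernel)
    fun _ h0 h1 hl => PhaseI.run32 h0 h1 hl

lemma regular15_decay : RegularAt 15 :=
  regularAt_of_run 15 eg33_ok eg33_rows rfl (by decide +kernel)
    fun _ h0 h1 hl => PhaseI.run33 h0 h1 hl

lemma regular16_decay : RegularAt 16 :=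
  regularAt_of_run 16 eg34_ok eg34_rows rfl (by decide +kernel)
    fun _ h0 h1 hl => PhaseI.run34 h0 h1 hl

lemma regular17_decay : RegularAt 17 :=
  regularAt_of_run 17 eg35_ok eg35_rows rfl (by decide +kernel)
    fun _ h0 h1 hl => PhaseI.run35 h0 h1 hl

lemma regular18_decay : RegularAt 18 :=
  regularAt_of_run 18 eg36_ok eg36_rows rfl (by decide +kernel)
    fun _ h0 h1 hl => PhaseI.run36 h0 h1 hl

lemma regular19_decay : RegularAt 19 :=
  regularAt_of_run 19 eg37_ok eg37_rows rfl (by decide +kernel)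
    fun _ h0 h1 hl => PhaseI.run37 h0 h1 hl

lemma regular20_decay : RegularAt 20 :=
  regularAt_of_run 20 eg38_ok eg38_rows rfl (by decide +kernel)
    fun _ h0 h1 hl => PhaseI.run38 h0 h1 hl

lemma regular21_decay : RegularAt 21 :=
  regularAt_of_run 21 eg39_ok eg39_rows rfl (by decide +kernel)
    fun _ h0 h1 hl => PhaseI.run39 h0 h1 hl

lemma regular22_decay : RegularAt 22 :=
  regularAt_of_run 22 eg40_ok eg40_rows rfl (by decide +kernel)
    fun _ h0 h1 hl => PhaseI.run40 h0 h1 hl

lemma regular23_decay : RegularAt 23 :=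
  regularAt_of_run 23 eg41_ok eg41_rows rfl (by decide +kernel)
    fun _ h0 h1 hl => PhaseI.run41 h0 h1 hl

lemma regular24_decay : RegularAt 24 :=
  regularAt_of_run 24 eg42_ok eg42_rows rfl (by decide +kernel)
    fun _ h0 h1 hl => PhaseI.run42 h0 h1 hl

lemma regular25_decay : RegularAt 25 :=
  regularAt_of_run 25 eg43_ok eg43_rows rfl (by decide +kernel)
    fun _ h0 h1 hl => PhaseI.run43 h0 h1 hl

/-- The regular trees with four to twenty-five children decay at the critical parameter. -/
theorem regularDecay : RegularDecay :=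
  regularDecay_of_runs regular4_decay regular5_decay regular6_decay regular7_decay regular8_decay
    regular9_decay regular10_decay regular11_decay regular12_decay regular13_decay
    regular14_decay regular15_decay regular16_decay regular17_decay regular18_decay
    regular19_decay regular20_decay regular21_decay regular22_decay regular23_decay
    regular24_decay regular25_decay

/-- The critical Poisson trees with strongly negative parameter decay. -/
theorem poissonDecay : PoissonDecay :=
  poissonDecay_of_knots knot0_decay knot1_decay knot2_decay knot3_decay knot4_decay knot5_decay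
    knot6_decay knot7_decay knot8_decay knot9_decay knot10_decay knot11_decay
    knot12_decay knot13_decay knot14_decay knot15_decay knot16_decay knot17_decay
    knot18_decay knot19_decay knot20_decay knot21_decay

end Vale.Agent.P154.LN
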