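import Vale.Agent.P154.LN.Threshold

/-!
Covering: statements per knot give `RegularDecay` and `PoissonDecay`.
-/

namespace Vale.Agent.P154.LN

/-- Decay of the critical Poisson trees whose parameter lies in `[lo, hi]`. -/
def PoissonOn (lo hi : ℝ) : Prop :=
  ∀ (m l : ℝ) (hm : 0 ≤ m) (h0 : -(1 / 2) ≤ l) (h1 : l ≤ 1), lo ≤ l → l ≤ hi →
    m * l ^ 2 = 1 → Decay (chanG h0 h1 (poissonLaw_nonneg hm) (hasSum_poissonLaw m))

/-- Decay of the regular tree with `d` children at the critical negative parameter. -/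
def RegularAt (d : ℕ) : Prop :=
  ∀ (l : ℝ) (h0 : -(1 / 2) ≤ l) (h1 : l ≤ 1), l = -(Real.sqrt d)⁻¹ →
    Decay (chanG h0 h1 (regularLaw_nonneg d) (hasSum_regularLaw d))

lemma PoissonOn.trans {a b c : ℝ} (h : PoissonOn a b) (h' : PoissonOn b c) : PoissonOn a c :=
  fun m l hm h0 h1 ha hc he =>
    (le_total l b).elim (fun hb => h m l hm h0 h1 ha hb he) fun hb => h' m l hm h0 h1 hb hc he

lemma PoissonOn.mono {a b a' b' : ℝ} (h : PoissonOn a b) (ha : a ≤ a') (hb : b' ≤ b) :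
    PoissonOn a' b' :=
  fun m l hm h0 h1 l0 l1 he => h m l hm h0 h1 (ha.trans l0) (l1.trans hb) he

/-- A knot `lk` with scalings in `[bl, 1]`. -/
lemma PoissonOn.of_knot {lk bl : ℝ} (hk : lk < 0)
    (h : ∀ (m b : ℝ) (hm : 0 ≤ m) (h0 : -(1 / 2) ≤ b * lk) (h1 : b * lk ≤ 1),
      bl ≤ b → b ≤ 1 → m * (b * lk) ^ 2 = 1 →
      Decay (chanG h0 h1 (poissonLaw_nonneg hm) (hasSum_poissonLaw m))) :
    PoissonOn lk (bl * lk) := by
  intro m l hm h0 h1 hlo hhi he
  obtain ⟨b, rfl⟩ : ∃ b, l = b * lk := ⟨l / lk, (div_mul_cancel₀ _ hk.ne).symm⟩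
  exact h m b hm h0 h1 ((mul_le_mul_right_of_neg hk).1 hhi)
    ((mul_le_mul_right_of_neg hk).1 (by rw [one_mul]; exact hlo)) he

/-- The twenty-two knots cover all parameters that are not covered already. -/
theorem poissonDecay_of_knots
    (k0 : PoissonOn (-(500 / 1000)) (-(492 / 1000)))
    (k1 : PoissonOn (-(492 / 1000)) (-(479 / 1000)))
    (k2 : PoissonOn (-(479 / 1000)) (-(458 / 1000)))
    (k3 : PoissonOn (-(458 / 1000)) (-(438 / 1000)))
    (k4 : PoissonOn (-(438 / 1000)) (-(419 / 1000)))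
    (k5 : PoissonOn (-(419 / 1000)) (-(400 / 1000)))
    (k6 : PoissonOn (-(400 / 1000)) (-(382 / 1000)))
    (k7 : PoissonOn (-(382 / 1000)) (-(365 / 1000)))
    (k8 : PoissonOn (-(365 / 1000)) (-(349 / 1000)))
    (k9 : PoissonOn (-(349 / 1000)) (-(333 / 1000)))
    (k10 : PoissonOn (-(333 / 1000)) (-(318 / 1000)))
    (k11 : PoissonOn (-(318 / 1000)) (-(304 / 1000)))
    (k12 : PoissonOn (-(304 / 1000)) (-(290 / 1000)))
    (k13 : PoissonOn (-(290 / 1000)) (-(277 / 1000)))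
    (k14 : PoissonOn (-(277 / 1000)) (-(265 / 1000)))
    (k15 : PoissonOn (-(265 / 1000)) (-(253 / 1000)))
    (k16 : PoissonOn (-(253 / 1000)) (-(242 / 1000)))
    (k17 : PoissonOn (-(242 / 1000)) (-(231 / 1000)))
    (k18 : PoissonOn (-(231 / 1000)) (-(221 / 1000)))
    (k19 : PoissonOn (-(221 / 1000)) (-(211 / 1000)))
    (k20 : PoissonOn (-(211 / 1000)) (-(201 / 1000)))
    (k21 : PoissonOn (-(201 / 1000)) (-(196 / 1000))) :
    PoissonDecay := fun m l hm h0 h1 hl he => by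
  have A := (((((k0.trans k1).trans k2).trans k3).trans k4).trans k5).trans k6
  have B := (((((A.trans k7).trans k8).trans k9).trans k10).trans k11).trans k12
  have C := (((((B.trans k13).trans k14).trans k15).trans k16).trans k17).trans k18
  exact (((C.trans k19).trans k20).trans k21).mono
    (show -(500 / 1000) ≤ -(1 / 2 : ℝ) by norm_num)
    (show -(4903 / 25000 : ℝ) ≤ -(196 / 1000) by norm_num) m l hm h0 h1 h0 hl he

/-- The regular trees one by one. -/
theorem regularDecay_of_runs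
    (h4 : RegularAt 4)
    (h5 : RegularAt 5)
    (h6 : RegularAt 6)
    (h7 : RegularAt 7)
    (h8 : RegularAt 8)
    (h9 : RegularAt 9)
    (h10 : RegularAt 10)
    (h11 : RegularAt 11)
    (h12 : RegularAt 12)
    (h13 : RegularAt 13)
    (h14 : RegularAt 14)
    (h15 : RegularAt 15)
    (h16 : RegularAt 16)
    (h17 : RegularAt 17)
    (h18 : RegularAt 18)
    (h19 : RegularAt 19)
    (h20 : RegularAt 20)
    (h21 : RegularAt 21)
    (h22 : RegularAt 22)
    (h23 : RegularAt 23)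
    (h24 : RegularAt 24)
    (h25 : RegularAt 25) :
    RegularDecay := by
  intro d hd hd'
  interval_cases d <;> assumption

/-- The critical parameter lies between `lo` and `hi` when the squares do. -/
theorem critical_mem {d : ℕ} {lo hi : ℝ} (hd : 0 < d) (hlo : lo ≤ 0)
    (h1 : 1 ≤ (d : ℝ) * lo ^ 2) (h2 : (d : ℝ) * hi ^ 2 ≤ 1) :
    lo ≤ -(Real.sqrt d)⁻¹ ∧ -(Real.sqrt d)⁻¹ ≤ hi := by
  have hd' : (0 : ℝ) < d := by exact_mod_cast hd
  have hs : 0 < Real.sqrt d := Real.sqrt_pos.2 hd'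
  have e : Real.sqrt d ^ 2 = d := Real.sq_sqrt hd'.le
  constructor
  · rw [le_neg, inv_eq_one_div, div_le_iff₀ hs]
    nlinarith [mul_nonneg (neg_nonneg.2 hlo) hs.le]
  · rw [neg_le, inv_eq_one_div, le_div_iff₀ hs]
    nlinarith [hs.le]

end Vale.Agent.P154.LN
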