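import Vale.Agent.P154.LN.EndgameGlue
import Vale.Agent.P154.LN.Chain
import Vale.Agent.P154.LN.ThresholdGlue

/-!
One knot: a computed entry state in the region of a valid knot gives decay on the whole range of
parameters of that knot.
-/

namespace Vale.Agent.P154.LN

open Endgame

/-- The regular tree with `d` children decays, given an entry into the region of a knot. -/
theorem regularAt_of_run {c : Endgame.Knot} (d : ℕ) (hok : c.ok = true) (hr : RowsOK c)
    (hreg : c.reg = some d) (hdl : decide (1 ≤ (d : ℚ) * c.l ^ 2) = true)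
    (hrun : ∀ (l : ℝ) (h0 : -(1 / 2) ≤ l) (h1 : l ≤ 1), l = -(Real.sqrt d)⁻¹ →
      ∃ (n : ℕ) (A B : ℝ),
        Below (chanG h0 h1 (regularLaw_nonneg d) (hasSum_regularLaw d) n) A B ∧ Region c A B) :
    RegularAt d := by
  intro l h0 h1 hl
  obtain ⟨N, A, B, hB, hR⟩ := hrun l h0 h1 hl
  obtain ⟨hc, -, -⟩ := knot_range hok
  have hdl' : (1 : ℝ) ≤ (d : ℝ) * (c.l : ℝ) ^ 2 := by
    have := Rat.cast_le (K := ℝ).2 (of_decide_eq_true hdl)
    push_cast at this
    exact this
  have hd' : (0 : ℝ) < d := (pos_of_mul_pos_left (by linarith) (sq_nonneg (c.l : ℝ)))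
  have hlneg : l < 0 := by rw [hl, neg_lt_zero]; positivity
  have hsq : (d : ℝ) * l ^ 2 = 1 := by
    rw [hl, neg_sq, inv_pow, Real.sq_sqrt hd'.le, mul_inv_cancel₀ hd'.ne']
  refine decay_regular c hok hreg hr (b := -l / c.l) (div_pos (by linarith) hc) ?_
    (by field_simp) hsq h0 h1 _ _ hR hB
  rw [div_le_one hc]
  have : l ^ 2 ≤ (c.l : ℝ) ^ 2 := le_of_mul_le_mul_left (by linarith) hd'
  nlinarith

/-- The critical Poisson trees of a range of parameters decay, given the entries into the region. -/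
theorem poissonOn_of_run {c : Endgame.Knot} {lo hi : ℝ} (hok : c.ok = true) (hr : RowsOK c)
    (hreg : c.reg = none) (hlo : -(c.l : ℝ) ≤ lo) (hhi : hi < 0)
    (hrun : ∀ (m l : ℝ) (hm : 0 ≤ m) (h0 : -(1 / 2) ≤ l) (h1 : l ≤ 1), m * l ^ 2 = 1 → lo ≤ l →
      l ≤ hi → ∃ (n : ℕ) (A B : ℝ),
        Below (chanG h0 h1 (poissonLaw_nonneg hm) (hasSum_poissonLaw m) n) A B ∧ Region c A B) :
    PoissonOn lo hi := by
  intro m l hm h0 h1 h2 h3 he
  obtain ⟨N, A, B, hB, hR⟩ := hrun m l hm h0 h1 he h2 h3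
  obtain ⟨hc, -, -⟩ := knot_range hok
  exact decay_poisson c hok hreg hr (b := -l / c.l) (div_pos (by linarith) hc)
    ((div_le_one hc).2 (by linarith)) (by field_simp) he hm h0 h1 _ _ hR hB

end Vale.Agent.P154.LN
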