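import Mathlib.Data.Fin.VecNotation
import Mathlib.Data.Nat.Choose.Basic
import Mathlib.Data.List.Range

/-!
Computable checker of the seven-atom recursion of the regular tree with four children at the strongest
parameter. All arithmetic is on natural numbers: weights are in units of `1 / S` and vectors are
integer multiples of the atoms.
-/

namespace Vale.Agent.P154.LN.Four

/-- Seven natural numbers, one for each atom: perfect, excluding, useless, four boundary nodes. -/
structure V7 where
  p : ℕ
  e : ℕ
  u : ℕ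
  a : ℕ
  b : ℕ
  c : ℕ
  d : ℕ
deriving DecidableEq, Repr

/-- The entry at an atom. -/
def V7.get (v : V7) : Fin 7 → ℕ := ![v.p, v.e, v.u, v.a, v.b, v.c, v.d]

/-- Sum. -/
def V7.add (v w : V7) : V7 :=
  ⟨v.p + w.p, v.e + w.e, v.u + w.u, v.a + w.a, v.b + w.b, v.c + w.c, v.d + w.d⟩

/-- Zero. -/
def V7.zero : V7 := ⟨0, 0, 0, 0, 0, 0, 0⟩

/-- The scale: a multiple of `3`, so that the first step rounds exactly. -/
def S : ℕ := 3 * 10 ^ 12

/-- `S p / q`, rounded up. -/
def up (p q : ℕ) : ℕ := (S * p + q - 1) / q

/-- Weight of the boundary node `n₀ / 50` when the endpoint lies between `n₀ / 50` and `n₁ / 50`. -/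
def loW (P Q s g n₀ n₁ : ℕ) : ℕ :=
  up (P * (n₁ ^ 2 * s ^ 2 - 2500 * g ^ 2)) (3 * Q * s * (n₁ ^ 2 - n₀ ^ 2))

/-- Weight of the boundary node `n₁ / 50` when the endpoint lies between `n₀ / 50` and `n₁ / 50`. -/
def hiW (P Q s g n₀ n₁ : ℕ) : ℕ :=
  up (P * (2500 * g ^ 2 - n₀ ^ 2 * s ^ 2)) (3 * Q * s * (n₁ ^ 2 - n₀ ^ 2))

/-- Reduction of `(a, b, f)` by moving the pair `a ≤ b` with `f` kept, `a ≤ f ≤ b`; the last entry of
the useless atom is not tracked. -/
def redSorted (a f b : ℕ) : V7 :=
  if a + b = 0 then V7.zero else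
    let s := a + b + f
    let Q := (a + b) ^ 2
    let P := (b - a) ^ 2
    let g := a + b - f
    let m := ((3 * f - s) + (s - 3 * f)) ^ 2
    let wp := up ((Q - P) * f * m) (12 * Q * s ^ 2)
    let we := up ((Q - P) * (s - f) * m) (3 * Q * s ^ 2)
    let G := 2500 * g ^ 2
    if G ≤ 20 ^ 2 * s ^ 2 then
      ⟨wp, we + loW P Q s g 0 20, 0, hiW P Q s g 0 20, 0, 0, 0⟩
    else if G ≤ 35 ^ 2 * s ^ 2 then
      ⟨wp, we, 0, loW P Q s g 20 35, hiW P Q s g 20 35, 0, 0⟩
    else if G ≤ 44 ^ 2 * s ^ 2 then
      ⟨wp, we, 0, 0, loW P Q s g 35 44, hiW P Q s g 35 44, 0⟩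
    else if G ≤ 48 ^ 2 * s ^ 2 then
      ⟨wp, we, 0, 0, 0, loW P Q s g 44 48, hiW P Q s g 44 48⟩
    else
      ⟨wp + hiW P Q s g 48 50, we, 0, 0, 0, 0, loW P Q s g 48 50⟩

/-- An integer vector. -/
abbrev N3 := ℕ × ℕ × ℕ

/-- Reduction of an integer vector, keeping its middle coordinate. -/
def red : N3 → V7
  | (x, y, z) =>
    if x ≤ y then
      if y ≤ z then redSorted x y z else if x ≤ z then redSorted x z y else redSorted z x y
    else
      if x ≤ z then redSorted y x z else if y ≤ z then redSorted y z x else redSorted z y x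

/-- A child atom at parameter `-1/2` is this scale times an integer vector. -/
def scaleNum : Fin 7 → ℕ := ![3, 3, 1, 3, 3, 3, 3]

/-- Denominator of the scale of a child atom. -/
def scaleDen : Fin 7 → ℕ := ![2, 4, 1, 20, 40, 100, 100]

/-- The integer vector of a child atom at parameter `-1/2`. -/
def base : Fin 7 → N3 :=
  ![(0, 1, 1), (2, 1, 1), (1, 1, 1), (3, 7, 10), (3, 17, 20), (3, 47, 50), (1, 49, 50)]

/-- The distinct rearrangements of a child atom, equally likely. -/
def orients : Fin 7 → List N3 :=
  ![[(0, 1, 1), (1, 0, 1), (1, 1, 0)], [(2, 1, 1), (1, 2, 1), (1, 1, 2)], [(1, 1, 1)],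
    [(3, 7, 10), (7, 10, 3), (10, 3, 7), (7, 3, 10), (3, 10, 7), (10, 7, 3)],
    [(3, 17, 20), (17, 20, 3), (20, 3, 17), (17, 3, 20), (3, 20, 17), (20, 17, 3)],
    [(3, 47, 50), (47, 50, 3), (50, 3, 47), (47, 3, 50), (3, 50, 47), (50, 47, 3)],
    [(1, 49, 50), (49, 50, 1), (50, 1, 49), (49, 1, 50), (1, 50, 49), (50, 49, 1)]]

/-- Coordinatewise product. -/
def mul3 : N3 → N3 → N3
  | (x, y, z), (x', y', z') => (x * x', y * y', z * z')

/-- All products of a start with the rearrangements of the listed atoms. -/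
def prods (v : N3) : List (Fin 7) → List N3
  | [] => [v]
  | i :: is => (orients i).flatMap fun w => prods (mul3 v w) is

/-- Number of products. -/
def count : List (Fin 7) → ℕ
  | [] => 1
  | i :: is => (orients i).length * count is

/-- Numerator of the common scale of a product. -/
def prodNum : List (Fin 7) → ℕ
  | [] => 1
  | i :: is => scaleNum i * prodNum is

/-- Denominator of the common scale of a product. -/
def prodDen : List (Fin 7) → ℕ
  | [] => 1
  | i :: is => scaleDen i * prodDen is

/-- Sum of the reductions of the products of the atoms in a key, the first one not rearranged. -/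
def keyAcc : List (Fin 7) → V7
  | [] => V7.zero
  | i :: is => ((prods (base i) is).map red).foldr V7.add V7.zero

/-- A row of the table is an upper bound for the mean reduction of its key. -/
def rowOK (k : List (Fin 7)) (Z : V7) : Bool :=
  match k with
  | [] => false
  | i :: is =>
    let A := keyAcc (i :: is)
    let n := prodNum (i :: is)
    let D := prodDen (i :: is) * count is
    decide (A.p * n ≤ Z.p * D) && decide (A.e * n ≤ Z.e * D) && decide (A.a * n ≤ Z.a * D) &&
      decide (A.b * n ≤ Z.b * D) && decide (A.c * n ≤ Z.c * D) && decide (A.d * n ≤ Z.d * D)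

/-- Multisets of a given size over a list of items, with multinomial coefficients. -/
def terms : List (Fin 7) → ℕ → List (ℕ × List (Fin 7))
  | [], 0 => [(1, [])]
  | [], _ + 1 => []
  | i :: rest, n => (List.range (n + 1)).flatMap fun j =>
      (terms rest (n - j)).map fun t => (Nat.choose n j * t.1, List.replicate j i ++ t.2)

/-- The keys of the table, in order. -/
def keys : List (ℕ × List (Fin 7)) := terms [3, 4, 5, 6, 0, 1, 2] 4

/-- The keys paired with the rows of a table. -/
def rows (T : List V7) : List ((ℕ × List (Fin 7)) × V7) := keys.zip T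

/-- All rows of a table are valid. -/
def rowsOK (T : List V7) : Bool := (rows T).all fun r => rowOK r.1.2 r.2

/-- Weight of a key at a state. -/
def keyWeight (w : V7) : List (Fin 7) → ℕ
  | [] => 1
  | i :: is => w.get i * keyWeight w is

/-- Multiply every entry. -/
def V7.smul (m : ℕ) (v : V7) : V7 :=
  ⟨m * v.p, m * v.e, m * v.u, m * v.a, m * v.b, m * v.c, m * v.d⟩

/-- The unnormalised next state, in units of `S ^ (-5)`. -/
def stepAcc (R : List ((ℕ × List (Fin 7)) × V7)) (w : V7) : V7 :=
  (R.map fun r => r.2.smul (r.1.1 * keyWeight w r.1.2)).foldr V7.add V7.zero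

/-- The weights of a state total `S`. -/
def stateOK (w : V7) : Bool := decide (w.p + w.e + w.u + w.a + w.b + w.c + w.d = S)

/-- `w'` is a valid state one level further. -/
def stepOK (R : List ((ℕ × List (Fin 7)) × V7)) (w w' : V7) : Bool :=
  let A := stepAcc R w
  let q := S ^ 4
  stateOK w' && decide (A.p ≤ w'.p * q) && decide (A.a ≤ w'.a * q) && decide (A.b ≤ w'.b * q) &&
    decide (A.c ≤ w'.c * q) && decide (A.d ≤ w'.d * q) && decide (A.e ≤ w'.e * q)

/-- A chain of states from a given one. -/
def chainFrom (R : List ((ℕ × List (Fin 7)) × V7)) : V7 → List V7 → Bool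
  | _, [] => true
  | w, w' :: ws => stepOK R w w' && chainFrom R w' ws

/-- The state at depth zero. -/
def start : V7 := ⟨S, 0, 0, 0, 0, 0, 0⟩

/-- The collapsed weights of a state are at most `A / S` and `B / S`. -/
def exitOK (w : V7) (A B : ℕ) : Bool :=
  decide (2500 * w.p + 400 * w.a + 1225 * w.b + 1936 * w.c + 2304 * w.d ≤ 2500 * A) &&
    decide (2500 * w.e + 2100 * w.a + 1275 * w.b + 564 * w.c + 196 * w.d ≤ 2500 * B)

/-- `p / q` rounded up. -/
def cdiv (p q : ℕ) : ℕ := (p + q - 1) / q

/-- The least valid row of a key, for generating data. -/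
def genRow : List (Fin 7) → V7
  | [] => V7.zero
  | i :: is =>
    let A := keyAcc (i :: is)
    let n := prodNum (i :: is)
    let D := prodDen (i :: is) * count is
    ⟨cdiv (A.p * n) D, cdiv (A.e * n) D, 0, cdiv (A.a * n) D, cdiv (A.b * n) D, cdiv (A.c * n) D,
      cdiv (A.d * n) D⟩

/-- The least table, for generating data. -/
def genTable : List V7 := keys.map fun k => genRow k.2

/-- The least next state, for generating data. -/
def genStep (R : List ((ℕ × List (Fin 7)) × V7)) (w : V7) : V7 :=
  let A := stepAcc R w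
  let q := S ^ 4
  let p := cdiv A.p q
  let e := cdiv A.e q
  let a := cdiv A.a q
  let b := cdiv A.b q
  let c := cdiv A.c q
  let d := cdiv A.d q
  ⟨p, e, S - (p + e + a + b + c + d), a, b, c, d⟩

/-- States up to the first exit, for generating data. -/
def genChain (R : List ((ℕ × List (Fin 7)) × V7)) (A B : ℕ) : ℕ → V7 → List V7
  | 0, _ => []
  | k + 1, w => if exitOK w A B then [] else genStep R w :: genChain R A B k (genStep R w)

end Vale.Agent.P154.LN.Four
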