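import Vale.Agent.P154.Recursion

/-!
The less-noisy order of symmetric channels with three inputs, in its chi-square form: for every
prior weight `b` and every function `g` of the input, the second moment of the conditional mean
of `g` is at most as large. It is preserved by the Potts kernel placed before the channel, by
products and by random numbers of children.
-/

namespace Vale.Agent.P154.LN

open Finset

/-- The weighted linear form of a likelihood vector. -/
noncomputable def dot (b L : Fin 3 → ℝ) : ℝ := b 0 * L 0 + b 1 * L 1 + b 2 * L 2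

/-- Second moment of the conditional mean of `g` under the weight `b`, for one observation. -/
noncomputable def fS (b g L : Fin 3 → ℝ) : ℝ := dot (b * g) L ^ 2 / dot b L

/-- `A` is at most as informative as `B` in the less-noisy order. -/
def Le (A B : Chan) : Prop :=
  ∀ b g : Fin 3 → ℝ, (∀ i, 0 ≤ b i) → A.E (fS b g) ≤ B.E (fS b g)

lemma dot_nonneg {b L : Fin 3 → ℝ} (hb : ∀ i, 0 ≤ b i) (hL : ∀ i, 0 ≤ L i) : 0 ≤ dot b L :=
  add_nonneg (add_nonneg (mul_nonneg (hb 0) (hL 0)) (mul_nonneg (hb 1) (hL 1)))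
    (mul_nonneg (hb 2) (hL 2))

lemma dot_mul_eq_zero {b L : Fin 3 → ℝ} (hb : ∀ i, 0 ≤ b i) (hL : ∀ i, 0 ≤ L i)
    (h : dot b L = 0) (g : Fin 3 → ℝ) : dot (b * g) L = 0 := by
  have h0 := mul_nonneg (hb 0) (hL 0)
  have h1 := mul_nonneg (hb 1) (hL 1)
  have h2 := mul_nonneg (hb 2) (hL 2)
  simp only [dot] at h
  have e0 : b 0 * L 0 = 0 := by linarith
  have e1 : b 1 * L 1 = 0 := by linarith
  have e2 : b 2 * L 2 = 0 := by linarith
  simp only [dot, Pi.mul_apply]
  linear_combination g 0 * e0 + g 1 * e1 + g 2 * e2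

lemma fS_nonneg {b g L : Fin 3 → ℝ} (hb : ∀ i, 0 ≤ b i) (hL : ∀ i, 0 ≤ L i) :
    0 ≤ fS b g L :=
  div_nonneg (sq_nonneg _) (dot_nonneg hb hL)

lemma fS_le {b g L : Fin 3 → ℝ} (hb : ∀ i, 0 ≤ b i) (hL : ∀ i, 0 ≤ L i) :
    fS b g L ≤ dot (b * g * g) L := by
  have hs : ∀ i, 0 ≤ (b * g * g) i := fun i => by
    simp only [Pi.mul_apply, mul_assoc]
    exact mul_nonneg (hb i) (mul_self_nonneg _)
  rcases (dot_nonneg hb hL).eq_or_lt with h | h
  · simp only [fS, ← h, div_zero]
    exact dot_nonneg hs hL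
  · rw [fS, div_le_iff₀ h]
    simp only [dot, Pi.mul_apply]
    nlinarith [mul_nonneg (mul_nonneg (hb 0) (hL 0)) (mul_nonneg (mul_nonneg (hb 1) (hL 1))
        (sq_nonneg (g 0 - g 1))),
      mul_nonneg (mul_nonneg (hb 0) (hL 0)) (mul_nonneg (mul_nonneg (hb 2) (hL 2))
        (sq_nonneg (g 0 - g 2))),
      mul_nonneg (mul_nonneg (hb 1) (hL 1)) (mul_nonneg (mul_nonneg (hb 2) (hL 2))
        (sq_nonneg (g 1 - g 2)))]

lemma dot_le_pP {w L : Fin 3 → ℝ} (hw : ∀ i, 0 ≤ w i) (hL : ∀ i, 0 ≤ L i) :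
    dot w L ≤ 3 * (w 0 + w 1 + w 2) * pP L := by
  have h := fun i => mul_le_mul_of_nonneg_left (le_three_pP hL i) (hw i)
  have := h 0; have := h 1; have := h 2
  simp only [dot]
  linarith

lemma adm_fS {b : Fin 3 → ℝ} (g : Fin 3 → ℝ) (hb : ∀ i, 0 ≤ b i) : Adm (fS b g) := by
  have hs : ∀ i, 0 ≤ (b * g * g) i := fun i => by
    simp only [Pi.mul_apply, mul_assoc]
    exact mul_nonneg (hb i) (mul_self_nonneg _)
  exact ⟨_, fun L hL => by
    rw [abs_of_nonneg (fS_nonneg hb hL)]
    exact (fS_le hb hL).trans (dot_le_pP hs hL)⟩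

lemma adm_dot {w : Fin 3 → ℝ} : Adm (dot w) :=
  ⟨3 * (|w 0| + |w 1| + |w 2|), fun L hL => by
    refine le_trans ?_ (dot_le_pP (w := fun i => |w i|) (fun i => abs_nonneg _) hL)
    have h : ∀ i, |w i * L i| = |w i| * L i := fun i => by rw [abs_mul, abs_of_nonneg (hL i)]
    simp only [dot]
    rw [← h 0, ← h 1, ← h 2]
    exact abs_add_three _ _ _⟩

lemma E_dot (C : Chan) (w : Fin 3 → ℝ) : C.E (dot w) = w 0 + w 1 + w 2 := by
  refine HasSum.tsum_eq ?_
  simpa [dot] using ((((C.total 0).mul_left (w 0)).add ((C.total 1).mul_left (w 1))).add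
    ((C.total 2).mul_left (w 2)))

lemma fS_smul (b g : Fin 3 → ℝ) (c : ℝ) (L : Fin 3 → ℝ) :
    fS b g (fun i => c * L i) = c * fS b g L := by
  have e : ∀ v : Fin 3 → ℝ, dot v (fun i => c * L i) = c * dot v L := fun v => by
    simp only [dot]; ring
  rw [fS, fS, e, e]
  rcases eq_or_ne c 0 with rfl | hc
  · simp
  rw [mul_pow, sq c, mul_assoc, mul_div_mul_left _ _ hc, mul_div_assoc]

lemma fS_mul (b g L M : Fin 3 → ℝ) : fS b g (fun i => L i * M i) = fS (b * M) g L := by
  have e1 : dot (b * g) (fun i => L i * M i) = dot (b * M * g) L := by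
    simp only [dot, Pi.mul_apply]; ring
  have e2 : dot b (fun i => L i * M i) = dot (b * M) L := by
    simp only [dot, Pi.mul_apply]; ring
  rw [fS, fS, e1, e2]

/-- The value of the erasing channel is a lower bound. -/
lemma fS_one_le (C : Chan) {b : Fin 3 → ℝ} (g : Fin 3 → ℝ) (hb : ∀ i, 0 ≤ b i) :
    fS b g (fun _ => 1) ≤ C.E (fS b g) := by
  have eB : ∀ w, dot w (fun _ => 1) = w 0 + w 1 + w 2 := fun w => by simp [dot]
  rcases (dot_nonneg hb (fun _ => zero_le_one) : 0 ≤ dot b fun _ => 1).eq_or_lt with hB | hB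
  · simp only [fS, ← hB, div_zero]
    exact tsum_nonneg fun y => fS_nonneg hb (C.nonneg y)
  set μ := dot (b * g) (fun _ => 1) / dot b (fun _ => 1) with hμ
  have key : ∀ y, 2 * μ * dot (b * g) (C.V y) - μ ^ 2 * dot b (C.V y) ≤ fS b g (C.V y) := by
    intro y
    rcases (dot_nonneg hb (C.nonneg y)).eq_or_lt with h | h
    · simp [fS, ← h, dot_mul_eq_zero hb (C.nonneg y) h.symm g]
    · rw [fS, le_div_iff₀ h]
      nlinarith [sq_nonneg (dot (b * g) (C.V y) - μ * dot b (C.V y))]
  have h1 := (((C.summable (adm_dot (w := b * g))).hasSum).mul_left (2 * μ)).sub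
    (((C.summable (adm_dot (w := b))).hasSum).mul_left (μ ^ 2))
  have h2 := hasSum_le key h1 (C.summable (adm_fS g hb)).hasSum
  refine le_trans (le_of_eq ?_) h2
  change _ = 2 * μ * C.E (dot (b * g)) - μ ^ 2 * C.E (dot b)
  rw [E_dot, E_dot, ← eB, ← eB, fS, hμ]
  field_simp
  ring

lemma le_refl (A : Chan) : Le A A := fun _ _ _ => le_rfl

lemma Le.trans {A B C : Chan} (h₁ : Le A B) (h₂ : Le B C) : Le A C :=
  fun b g hb => (h₁ b g hb).trans (h₂ b g hb)

/-- A product, one factor at a time. -/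
lemma hasSum_star (A B : Chan) {b : Fin 3 → ℝ} (g : Fin 3 → ℝ) (hb : ∀ i, 0 ≤ b i) :
    HasSum (fun y => B.E (fS (b * A.V y) g)) ((A.star B).E (fS b g)) := by
  have hs : Summable fun y : A.ι × B.ι => fS b g ((A.star B).V y) :=
    (A.star B).summable (adm_fS g hb)
  refine hs.hasSum.prod_fiberwise fun y => ?_
  have hb' : ∀ i, 0 ≤ (b * A.V y) i := fun i => mul_nonneg (hb i) (A.nonneg y i)
  refine (B.summable (adm_fS g hb')).hasSum.congr_fun fun z => ?_
  rw [← fS_mul]
  exact congrArg _ (funext fun i => mul_comm _ _)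

/-- A product, in the other order. -/
lemma hasSum_star' (A B : Chan) {b : Fin 3 → ℝ} (g : Fin 3 → ℝ) (hb : ∀ i, 0 ≤ b i) :
    HasSum (fun z => A.E (fS (b * B.V z) g)) ((A.star B).E (fS b g)) := by
  have e : (A.star B).E (fS b g) = (B.star A).E (fS b g) :=
    ((Equiv.prodComm B.ι A.ι).tsum_eq fun y => fS b g ((A.star B).V y)).symm.trans
      (tsum_congr fun y => congrArg _ (funext fun i => mul_comm _ _))
  rw [e]
  exact hasSum_star B A g hb

lemma star_mono {A A' B B' : Chan} (hA : Le A A') (hB : Le B B') :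
    Le (A.star B) (A'.star B') := by
  intro b g hb
  refine le_trans (hasSum_le (fun z => ?_) (hasSum_star' A B g hb) (hasSum_star' A' B g hb))
    (hasSum_le (fun y => ?_) (hasSum_star A' B g hb) (hasSum_star A' B' g hb))
  · exact hA _ g fun i => mul_nonneg (hb i) (B.nonneg z i)
  · exact hB _ g fun i => mul_nonneg (hb i) (A'.nonneg y i)

lemma pw_mono {A B : Chan} (h : Le A B) : ∀ k, Le (A.pw k) (B.pw k) := by
  intro k
  induction k with
  | zero => intro b g _; rw [A.E_pw_zero, B.E_pw_zero]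
  | succ k ih =>
    intro b g hb
    rw [A.E_pw_succ, B.E_pw_succ]
    exact star_mono h ih b g hb

/-- More children are more informative. -/
lemma pw_le_succ (A : Chan) (k : ℕ) : Le (A.pw k) (A.pw (k + 1)) := by
  intro b g hb
  rw [A.E_pw_succ]
  refine hasSum_le (fun z => ?_) ((A.pw k).summable (adm_fS g hb)).hasSum
    (hasSum_star' A (A.pw k) g hb)
  refine le_trans (le_of_eq ?_) (fS_one_le A g fun i => mul_nonneg (hb i) ((A.pw k).nonneg z i))
  rw [← fS_mul]
  simp

lemma pw_mono_nat (A : Chan) {j k : ℕ} (h : j ≤ k) : Le (A.pw j) (A.pw k) := by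
  induction h with
  | refl => exact le_refl _
  | step _ ih => exact ih.trans (pw_le_succ A _)

lemma node_mono {A B : Chan} (h : Le A B) (ν : ℕ → ℝ) (h0 : ∀ k, 0 ≤ ν k) (h1 : HasSum ν 1) :
    Le (A.node ν h0 h1) (B.node ν h0 h1) := fun b g hb =>
  hasSum_le (fun k => mul_le_mul_of_nonneg_left (pw_mono h k b g hb) (h0 k))
    (A.hasSum_node ν h0 h1 (adm_fS g hb) (fS_smul b g))
    (B.hasSum_node ν h0 h1 (adm_fS g hb) (fS_smul b g))

/-! ## The kernel before a channel, for both signs -/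

lemma mixv_nonneg' {lam : ℝ} (h0 : -(1 / 2) ≤ lam) (h1 : lam ≤ 1) {L : Fin 3 → ℝ}
    (hL : ∀ i, 0 ≤ L i) (i : Fin 3) : 0 ≤ mixv lam L i := by
  have := hL 0; have := hL 1; have := hL 2
  have : 0 ≤ (1 + 2 * lam) := by linarith
  have : 0 ≤ (1 - lam) := by linarith
  obtain rfl | rfl | rfl : i = 0 ∨ i = 1 ∨ i = 2 := by omega
  all_goals simp only [mixv, pP]; nlinarith

/-- The Potts kernel before a channel, for every admissible parameter. -/
noncomputable def mixG (C : Chan) (lam : ℝ) (h0 : -(1 / 2) ≤ lam) (h1 : lam ≤ 1) : Chan where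
  ι := C.ι
  V y := mixv lam (C.V y)
  nonneg y := mixv_nonneg' h0 h1 (C.nonneg y)
  total i := by
    simpa [mixv] using ((C.total i).mul_left lam).add (C.hasSum_pP.mul_left (1 - lam))
  sym π := by
    obtain ⟨e, he⟩ := C.sym π
    refine ⟨e, fun y i => ?_⟩
    have : C.V (e y) = fun i => C.V y (π i) := funext (he y)
    simp only [mixv]
    rw [this, pP_perm]

/-- The weight seen behind the kernel. -/
noncomputable def pushb (lam : ℝ) (b : Fin 3 → ℝ) : Fin 3 → ℝ :=
  fun i => lam * b i + (1 - lam) * pP b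

lemma dot_mixv (lam : ℝ) (w L : Fin 3 → ℝ) : dot w (mixv lam L) = dot (mixv lam w) L := by
  simp only [dot, mixv, pP]; ring

lemma mix_mono {A B : Chan} (h : Le A B) {lam : ℝ} (h0 : -(1 / 2) ≤ lam) (h1 : lam ≤ 1) :
    Le (mixG A lam h0 h1) (mixG B lam h0 h1) := by
  intro b g hb
  have hb' : ∀ i, 0 ≤ mixv lam b i := mixv_nonneg' h0 h1 hb
  set g' : Fin 3 → ℝ := fun i => mixv lam (b * g) i / mixv lam b i
  have hz : ∀ i, mixv lam b i = 0 → mixv lam (b * g) i = 0 := by
    intro i hi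
    have hd : dot (mixv lam fun j => if j = i then 1 else 0) b = 0 := by
      refine Eq.trans ?_ hi
      obtain rfl | rfl | rfl : i = 0 ∨ i = 1 ∨ i = 2 := by omega
      all_goals simp [dot, mixv, pP]; ring
    have h2 := dot_mul_eq_zero (b := b) (L := mixv lam fun j => if j = i then 1 else 0) hb
      (mixv_nonneg' h0 h1 fun j => by split_ifs <;> norm_num)
      (Eq.trans (by simp only [dot]; ring) hd) g
    refine Eq.trans ?_ h2
    obtain rfl | rfl | rfl : i = 0 ∨ i = 1 ∨ i = 2 := by omega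
    all_goals simp [dot, mixv, pP]; ring
  have e : ∀ L, fS b g (mixv lam L) = fS (mixv lam b) g' L := fun L => by
    rw [fS, fS, dot_mixv, dot_mixv]
    congr 3
    funext i
    simp only [g', Pi.mul_apply]
    by_cases hi : mixv lam b i = 0
    · rw [hi, hz i hi, zero_mul]
    · field_simp
  refine le_trans (le_of_eq (tsum_congr fun y => e _)) (le_trans (h _ g' hb') (le_of_eq ?_))
  exact tsum_congr fun y => (e _).symm

/-- The chi-square functional in terms of the order. -/
lemma fB_eq_fS (L : Fin 3 → ℝ) :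
    fB L = fS (fun _ => 1) ![1, 0, 0] L + fS (fun _ => 1) ![0, 1, 0] L
      + fS (fun _ => 1) ![0, 0, 1] L - pP L := by
  simp [fB, fS, dot, pP]
  rw [div_div, mul_div_cancel₀ _ (three_ne_zero' ℝ)]
  ring

lemma Le.chi {A B : Chan} (h : Le A B) : A.E fB ≤ B.E fB := by
  have one : ∀ i : Fin 3, (0 : ℝ) ≤ (fun _ => 1 : Fin 3 → ℝ) i := fun _ => zero_le_one
  have e : ∀ C : Chan, C.E fB = C.E (fS (fun _ => 1) ![1, 0, 0])
      + C.E (fS (fun _ => 1) ![0, 1, 0]) + C.E (fS (fun _ => 1) ![0, 0, 1]) - 1 := fun C => by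
    refine HasSum.tsum_eq ?_
    simp only [funext fB_eq_fS]
    exact ((((C.summable (adm_fS _ one)).hasSum).add (C.summable (adm_fS _ one)).hasSum).add
      (C.summable (adm_fS _ one)).hasSum).sub C.hasSum_pP
  rw [e, e]
  have := h _ ![1, 0, 0] one
  have := h _ ![0, 1, 0] one
  have := h _ ![0, 0, 1] one
  linarith

end Vale.Agent.P154.LN
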