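import Vale.Agent.P154.Flat
import Vale.Agent.P154.Laws
import Vale.Agent.P154.AF.Recursion
import Vale.Agent.P154.LN.Reduce

/-!
The three-state threshold at every parameter from the decay of finitely many regular trees at the
critical parameter and of the critical Poisson trees with strongly negative parameter.
-/

namespace Vale.Agent.P154.LN

open Filter Topology

/-- Decay on the regular trees with four to twenty-five children at the critical parameter. -/
def RegularDecay : Prop :=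
  ∀ d : ℕ, 4 ≤ d → d ≤ 25 → ∀ (l : ℝ) (h0 : -(1 / 2) ≤ l) (h1 : l ≤ 1),
    l = -(Real.sqrt d)⁻¹ →
      Decay (chanG h0 h1 (regularLaw_nonneg d) (hasSum_regularLaw d))

/-- Decay on the critical Poisson trees with strongly negative parameter. -/
def PoissonDecay : Prop :=
  ∀ (m l : ℝ) (hm : 0 ≤ m) (h0 : -(1 / 2) ≤ l) (h1 : l ≤ 1), l ≤ -(4903 / 25000) →
    m * l ^ 2 = 1 → Decay (chanG h0 h1 (poissonLaw_nonneg hm) (hasSum_poissonLaw m))

lemma nonrecon_regular (H : RegularDecay) {d : ℕ} {lam : ℝ} (hd : 2 ≤ d)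
    (h0 : -(1 / 2) ≤ lam) (h1 : lam ≤ 1) (h : (d : ℝ) * lam ^ 2 ≤ 1) :
    Tendsto (advantage 3 lam (regularLaw d)) atTop (𝓝 0) := by
  have hk : ∃ k, 2 ≤ k ∧ 0 < regularLaw d k := ⟨d, hd, by simp [regularLaw]⟩
  rcases le_total 0 lam with hl | hl
  · exact nonrecon_of_le hl h1 (regularLaw_nonneg d) (hasSum_regularLaw d)
      (hasSum_regularLaw_mean d) hk h
  rcases le_total (-(4903 / 25000)) lam with hs | hs
  · exact AF.nonrecon_of_le hs hl (regularLaw_nonneg d) (hasSum_regularLaw d)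
      (hasSum_regularLaw_mean d) hk h
  have hd25 : d ≤ 25 := by
    by_contra hlt
    push Not at hlt
    have : (26 : ℝ) ≤ d := by exact_mod_cast hlt
    have : (4903 / 25000 : ℝ) ^ 2 ≤ lam ^ 2 := by nlinarith
    nlinarith
  obtain ⟨g0, g1⟩ := neg_inv_sqrt_le h0 hl h
  exact nonrecon_of_decay h0 h1 _ _
    (fun n => regular_le (le_max_left d 4) g0 g1 hl n)
    (H (max d 4) (le_max_right _ _) (by omega) _ g0 (by linarith) rfl)

lemma nonrecon_poisson (H : PoissonDecay) {d lam : ℝ} (hd : 0 < d)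
    (h0 : -(1 / 2) ≤ lam) (h1 : lam ≤ 1) (h : d * lam ^ 2 ≤ 1) :
    Tendsto (advantage 3 lam (poissonLaw d)) atTop (𝓝 0) := by
  have hk : ∃ k, 2 ≤ k ∧ 0 < poissonLaw d k := ⟨2, le_rfl, poissonLaw_two_pos hd⟩
  rcases le_total 0 lam with hl | hl
  · exact nonrecon_of_le hl h1 (poissonLaw_nonneg hd.le) (hasSum_poissonLaw d)
      (hasSum_poissonLaw_mean d) hk h
  rcases le_total (-(4903 / 25000)) lam with hs | hs
  · exact AF.nonrecon_of_le hs hl (poissonLaw_nonneg hd.le) (hasSum_poissonLaw d)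
      (hasSum_poissonLaw_mean d) hk h
  have hq : 0 < lam ^ 2 := by nlinarith
  exact nonrecon_of_decay h0 h1 _ _
    (fun n => poisson_le hd.le (by rw [le_div_iff₀ hq]; exact h) h0 h1 n)
    (H (1 / lam ^ 2) lam (by positivity) h0 h1 hs (one_div_mul_cancel hq.ne'))

/-- The Kesten–Stigum value is the three-state threshold on both tree models, given the two decay
statements. -/
theorem three_state_threshold (HR : RegularDecay) (HP : PoissonDecay) :
    (∀ (d : ℕ) (lam : ℝ), 2 ≤ d → -(1 / 2) ≤ lam → lam ≤ 1 →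
      ((d : ℝ) * lam ^ 2 ≤ 1 → Tendsto (advantage 3 lam (regularLaw d)) atTop (𝓝 0)) ∧
      (1 < (d : ℝ) * lam ^ 2 → ∃ c > 0, ∀ n, c ≤ advantage 3 lam (regularLaw d) n)) ∧
    (∀ (d lam : ℝ), 0 < d → -(1 / 2) ≤ lam → lam ≤ 1 →
      (d * lam ^ 2 ≤ 1 → Tendsto (advantage 3 lam (poissonLaw d)) atTop (𝓝 0)) ∧
      (1 < d * lam ^ 2 → ∃ c > 0, ∀ n, c ≤ advantage 3 lam (poissonLaw d) n)) := by
  refine ⟨fun d lam hd h0 h1 => ⟨nonrecon_regular HR hd h0 h1, fun h => ?_⟩,
    fun d lam hd h0 h1 => ⟨nonrecon_poisson HP hd h0 h1, fun h => ?_⟩⟩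
  · exact recon_regular (q := 3) (by norm_num) (by norm_num; linarith) h1 h
  · exact recon_poisson (q := 3) (by norm_num) (by norm_num; linarith) h1 hd h

end Vale.Agent.P154.LN
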